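import Mathlib

/-! Row 22: abstract core of the determinant method (helper107).

* `det_dvd_of_types` : if an `ι × ι` matrix factors through a finite set of types `τ`, and the type
  `t` contributes a row divisible by `l ^ ord t`, then `l ^ w` divides the determinant, where `w` is
  a lower bound for the sum of `card ι` distinct orders.
* `det_dvd_of_types_mod` : same, entries known modulo `l ^ m`.
* `det_eq_zero_of_bounds` : divisible by `q ^ w` for all the primes and archimedean bound gives `0`.
* `exists_relation` : all `ι × ι` minors vanish ⇒ a non-trivial linear relation with integer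
  coefficients on the whole set of points.
* `relation_of_class` : all together.
-/

set_option autoImplicit false

open Finset Matrix

namespace Crest.Agent.R22.DetCore

section dvd
variable {R : Type*} [CommRing R] {ι τ : Type*} [Fintype ι] [DecidableEq ι] [Fintype τ]

/-- Expansion of `det (C * V)` along all maps `ι → τ`. -/
theorem det_mul_expand (C : Matrix ι τ R) (V : Matrix τ ι R) :
    (C * V).det = ∑ f : ι → τ, (∏ i, C i (f i)) * (V.submatrix f id).det := by
  classical
  have h1 : (C * V) = fun i => ∑ t, C i t • V t := by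
    ext i j
    simp [Matrix.mul_apply, Finset.sum_apply]
  have h2 : (C * V).det = Matrix.detRowAlternating (fun i => ∑ t, C i t • V t) := by
    rw [← h1]; rfl
  rw [h2]
  have h3 := (Matrix.detRowAlternating (n := ι) (R := R)).toMultilinearMap.map_sum
    (g := fun i t => C i t • V t)
  simp only [AlternatingMap.coe_multilinearMap] at h3
  rw [h3]
  refine Finset.sum_congr rfl fun f _ => ?_
  have h4 := (Matrix.detRowAlternating (n := ι) (R := R)).toMultilinearMap.map_smul_univ
    (fun i => C i (f i)) (fun i => V (f i))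
  simp only [AlternatingMap.coe_multilinearMap] at h4
  rw [h4, smul_eq_mul]
  rfl

/-- A determinant whose `i`-th row is divisible by `l ^ o i` is divisible by `l ^ ∑ o i`. -/
theorem pow_sum_dvd_det (l : R) (o : ι → ℕ) (M : Matrix ι ι R)
    (h : ∀ i j, l ^ o i ∣ M i j) : l ^ (∑ i, o i) ∣ M.det := by
  choose N hN using h
  have : M = Matrix.of fun i j => l ^ o i * N i j := by
    ext i j; simp [hN i j]
  rw [this]
  have h5 := Matrix.det_mul_column (fun i => l ^ o i) (Matrix.of N)
  rw [← Finset.prod_pow_eq_pow_sum]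
  have h6 : (Matrix.of fun i j => l ^ o i * N i j) = Matrix.of fun i j => (fun i => l ^ o i) i * (Matrix.of N) i j := by
    ext i j; simp
  rw [h6, h5]
  exact dvd_mul_right _ _

theorem det_dvd_of_types (l : R) (ord : τ → ℕ) (C : Matrix ι τ R) (V : Matrix τ ι R)
    (hV : ∀ t j, l ^ ord t ∣ V t j) (w : ℕ)
    (hw : ∀ T : Finset τ, T.card = Fintype.card ι → w ≤ ∑ t ∈ T, ord t) :
    l ^ w ∣ (C * V).det := by
  classical
  rw [det_mul_expand]
  refine Finset.dvd_sum fun f _ => ?_
  by_cases hf : Function.Injective f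
  · refine Dvd.dvd.mul_left ?_ _
    have h1 : l ^ (∑ i, ord (f i)) ∣ (V.submatrix f id).det :=
      pow_sum_dvd_det l (fun i => ord (f i)) _ fun i j => hV (f i) j
    refine dvd_trans (pow_dvd_pow l ?_) h1
    have h2 := hw (Finset.univ.image f) (by
      rw [Finset.card_image_of_injective _ hf, Finset.card_univ])
    rwa [Finset.sum_image (fun a _ b _ h => hf h)] at h2
  · have : (V.submatrix f id).det = 0 := by
      simp only [Function.Injective, not_forall] at hf
      obtain ⟨a, b, hab, hne⟩ := hf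
      refine Matrix.det_zero_of_row_eq hne ?_
      ext j; simp [hab]
    rw [this, mul_zero]
    exact dvd_zero _

/-- Truncated version: the entries are known only modulo `l ^ m`. -/
theorem det_dvd_of_types_mod (l : R) (m : ℕ) (ord : τ → ℕ) (C : Matrix ι τ R) (V : Matrix τ ι R)
    (M : Matrix ι ι R) (hM : ∀ i j, l ^ m ∣ M i j - (C * V) i j)
    (hV : ∀ t j, l ^ ord t ∣ V t j) (w : ℕ)
    (hw : ∀ (T : Finset τ) (r : ℕ), T.card + r = Fintype.card ι → w ≤ ∑ t ∈ T, ord t + r * m) :
    l ^ w ∣ M.det := by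
  classical
  choose E hE using hM
  have h1 : M = (Matrix.fromCols C (1 : Matrix ι ι R)) *
      (Matrix.fromRows V (Matrix.of fun i j => l ^ m * E i j)) := by
    rw [Matrix.fromCols_mul_fromRows, one_mul]
    ext i j
    have := hE i j
    simp only [Matrix.add_apply, Matrix.of_apply]
    rw [← this]; ring
  rw [h1]
  refine det_dvd_of_types l (Sum.elim ord fun _ => m) _ _ ?_ w ?_
  · rintro (t | i) j
    · exact hV t j
    · simp
  · intro T hT
    have h2 : ∑ t ∈ T, (Sum.elim ord (fun _ => m)) t =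
        ∑ t ∈ T.toLeft, ord t + ∑ _t ∈ T.toRight, m := by
      rw [← Finset.toLeft_disjSum_toRight (u := T), Finset.sum_disjSum, Finset.toLeft_disjSum,
        Finset.toRight_disjSum]
      simp
    rw [h2, Finset.sum_const, smul_eq_mul]
    exact hw _ _ (by rw [Finset.card_toLeft_add_card_toRight, hT])

end dvd

section arch
variable {ι : Type*} [Fintype ι] [DecidableEq ι]

/-- Archimedean bound of a determinant with row sizes `B i`. -/
theorem abs_det_le (M : Matrix ι ι ℤ) (B : ι → ℝ)
    (hM : ∀ i j, |(M i j : ℝ)| ≤ B i) :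
    |(M.det : ℝ)| ≤ (Fintype.card ι).factorial * ∏ i, B i := by
  rw [Matrix.det_apply]
  push_cast
  calc |∑ σ : Equiv.Perm ι, ((Equiv.Perm.sign σ • ∏ i, M (σ i) i : ℤ) : ℝ)|
      ≤ ∑ σ : Equiv.Perm ι, |((Equiv.Perm.sign σ • ∏ i, M (σ i) i : ℤ) : ℝ)| :=
        Finset.abs_sum_le_sum_abs _ _
    _ ≤ ∑ _σ : Equiv.Perm ι, ∏ i, B i := by
        refine Finset.sum_le_sum fun σ _ => ?_
        have h1 : |((Equiv.Perm.sign σ • ∏ i, M (σ i) i : ℤ) : ℝ)| = ∏ i, |(M (σ i) i : ℝ)| := by
          rw [← Int.cast_abs]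
          have : |(Equiv.Perm.sign σ • ∏ i, M (σ i) i : ℤ)| = |∏ i, M (σ i) i| := by
            rcases Int.units_eq_one_or (Equiv.Perm.sign σ) with h | h <;> simp [h]
          rw [this, Finset.abs_prod]
          push_cast
          rfl
        rw [h1]
        calc ∏ i, |(M (σ i) i : ℝ)| ≤ ∏ i, B (σ i) :=
              Finset.prod_le_prod (fun i _ => abs_nonneg _) fun i _ => hM _ _
          _ = ∏ i, B i := Equiv.prod_comp σ B
    _ = (Fintype.card ι).factorial * ∏ i, B i := by
        rw [Finset.sum_const, Finset.card_univ, Fintype.card_perm, nsmul_eq_mul]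

/-- Divisibility by `l ^ w` for all `l` in a finite set of pairwise coprime naturals. -/
theorem prod_pow_dvd (L : Finset ℕ) (hL : (L : Set ℕ).Pairwise Nat.Coprime) (w : ℕ) (D : ℤ)
    (h : ∀ l ∈ L, (l : ℤ) ^ w ∣ D) : ((∏ l ∈ L, l : ℕ) : ℤ) ^ w ∣ D := by
  push_cast
  rw [← Finset.prod_pow]
  refine Finset.prod_dvd_of_coprime ?_ h
  intro a ha b hb hab
  simp only [Function.onFun]
  exact IsCoprime.pow (Nat.isCoprime_iff_coprime.mpr (hL ha hb hab))

theorem det_eq_zero_of_bounds (M : Matrix ι ι ℤ) (B : ι → ℝ)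
    (hM : ∀ i j, |(M i j : ℝ)| ≤ B i) (q w : ℕ) (hd : (q : ℤ) ^ w ∣ M.det)
    (hlt : (Fintype.card ι).factorial * ∏ i, B i < (q : ℝ) ^ w) : M.det = 0 := by
  by_contra h0
  have h1 : (q : ℤ) ^ w ≤ |M.det| := by
    rw [← Int.natCast_natAbs] 
    have := Int.natAbs_dvd_natAbs.mpr hd
    have h2 := Nat.le_of_dvd (Int.natAbs_pos.mpr h0) this
    have h3 : ((q : ℤ) ^ w).natAbs = q ^ w := by
      rw [Int.natAbs_pow, Int.natAbs_natCast]
    rw [h3] at h2
    exact_mod_cast h2
  have h4 : (q : ℝ) ^ w ≤ |(M.det : ℝ)| := by exact_mod_cast h1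
  linarith [abs_det_le M B hM]

end arch

section rel
variable {ι P : Type*} [Fintype ι] [DecidableEq ι]

/-- If all the `ι × ι` minors of `F` on the point set `S` vanish then there is a non-trivial
integral relation valid on `S`. -/
theorem exists_relation (S : Set P) (F : ι → P → ℤ)
    (h : ∀ x : ι → P, (∀ i, x i ∈ S) → (Matrix.of fun i j => F i (x j)).det = 0) :
    ∃ a : ι → ℤ, a ≠ 0 ∧ ∀ p ∈ S, ∑ i, a i * F i p = 0 := by
  classical
  -- the span of the vectors
  let v : P → (ι → ℚ) := fun p i => (F i p : ℚ)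
  let W : Submodule ℚ (ι → ℚ) := Submodule.span ℚ (v '' S)
  have hW : W ≠ ⊤ := by
    intro htop
    -- pick a basis among the vectors
    obtain ⟨b, hbS, hbspan, hbli⟩ := exists_linearIndependent ℚ (v '' S)
    have hspan : Submodule.span ℚ b = ⊤ := by rw [hbspan]; exact htop
    let bas : Module.Basis b ℚ (ι → ℚ) := Module.Basis.mk hbli (by rw [Subtype.range_coe, hspan])
    have e : ι ≃ b := (Pi.basisFun ℚ ι).indexEquiv bas
    choose g hgS hg using fun i : ι => hbS (e i).2
    have hdet := h g hgS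
    have hne : (Matrix.of fun i j => (F i (g j) : ℚ)).det ≠ 0 := by
      have hli : LinearIndependent ℚ (fun j : ι => v (g j)) := by
        have : (fun j : ι => v (g j)) = (fun x : b => (x : ι → ℚ)) ∘ e := by
          funext j; simp [hg]
        rw [this]
        exact hbli.comp _ e.injective
      have h2 : IsUnit (Matrix.of fun j i => v (g j) i) := by
        rw [← Matrix.linearIndependent_rows_iff_isUnit]
        exact hli
      have h3 : (Matrix.of fun i j => (F i (g j) : ℚ)) = (Matrix.of fun j i => v (g j) i)ᵀ := by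
        ext i j; rfl
      rw [h3, Matrix.det_transpose]
      exact ((Matrix.isUnit_iff_isUnit_det _).mp h2).ne_zero
    apply hne
    have h4 : (Matrix.of fun i j => (F i (g j) : ℚ)) =
        (Matrix.of fun i j => F i (g j)).map (Int.castRingHom ℚ) := by
      ext i j; simp
    rw [h4, ← RingHom.mapMatrix_apply, ← RingHom.map_det, hdet, map_zero]
  obtain ⟨φ, hφ0, hφ⟩ := Submodule.exists_dual_map_eq_bot_of_lt_top (lt_top_iff_ne_top.mpr hW) 
    inferInstance
  -- clear denominators
  let c : ι → ℚ := fun i => φ (Pi.single i 1)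
  have hc : c ≠ 0 := by
    intro h0
    apply hφ0
    refine LinearMap.ext fun x => ?_
    have : x = ∑ i, x i • (Pi.single i (1:ℚ) : ι → ℚ) := by
      ext j; simp [Finset.sum_apply, Pi.single_apply]
    rw [this, map_sum]
    simp only [map_smul, LinearMap.zero_apply]
    refine Finset.sum_eq_zero fun i _ => ?_
    have : φ (Pi.single i 1) = 0 := congrFun h0 i
    rw [this, smul_zero]
  have hcS : ∀ p ∈ S, ∑ i, c i * (F i p : ℚ) = 0 := by
    intro p hp
    have h5 : φ (v p) = 0 := by
      have h6 : v p ∈ W := Submodule.subset_span ⟨p, hp, rfl⟩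
      have h7 : φ (v p) ∈ W.map φ := Submodule.mem_map_of_mem h6
      rw [hφ] at h7
      exact (Submodule.mem_bot ℚ).mp h7
    have : v p = ∑ i, v p i • (Pi.single i (1:ℚ) : ι → ℚ) := by
      ext j; simp [Finset.sum_apply, Pi.single_apply]
    rw [this, map_sum] at h5
    simp only [map_smul, smul_eq_mul] at h5
    rw [← h5]
    exact Finset.sum_congr rfl fun i _ => mul_comm _ _
  let D : ℕ := ∏ i, (c i).den
  have hD : D ≠ 0 := Finset.prod_ne_zero_iff.mpr fun i _ => (c i).den_ne_zero
  have hint : ∀ i, ∃ z : ℤ, (z : ℚ) = D * c i := by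
    intro i
    refine ⟨(∏ j ∈ Finset.univ.erase i, ((c j).den : ℤ)) * (c i).num, ?_⟩
    have h8 : (D : ℚ) = (∏ j ∈ Finset.univ.erase i, ((c j).den : ℚ)) * (c i).den := by
      simp only [D]
      push_cast
      rw [Finset.prod_erase_mul _ _ (Finset.mem_univ i)]
    rw [h8]
    push_cast
    have h9 : ((c i).den : ℚ) * c i = (c i).num := Rat.den_mul_eq_num (c i)
    rw [mul_assoc, h9]
  choose a ha using hint
  refine ⟨a, ?_, ?_⟩
  · intro h0
    apply hc
    funext i
    have := ha i
    rw [h0] at this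
    simp only [Pi.zero_apply, Int.cast_zero] at this
    have h10 : (D : ℚ) ≠ 0 := by exact_mod_cast hD
    rcases mul_eq_zero.mp this.symm with h | h
    · exact absurd h h10
    · exact h
  · intro p hp
    have h11 : ((∑ i, a i * F i p : ℤ) : ℚ) = 0 := by
      push_cast
      calc ∑ i, (a i : ℚ) * (F i p : ℚ) = D * ∑ i, c i * (F i p : ℚ) := by
            rw [Finset.mul_sum]
            refine Finset.sum_congr rfl fun i _ => ?_
            rw [ha i]; ring
        _ = 0 := by rw [hcS p hp, mul_zero]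
    exact_mod_cast h11

end rel

/-- The complete determinant step. `L` is the set of auxiliary primes, `q = ∏ L`. For each `l ∈ L`
the functions `F i` are known modulo `l ^ m` through types of given orders. -/
theorem relation_of_class {ι P : Type*} [Fintype ι] [DecidableEq ι] (S : Set P) (F : ι → P → ℤ)
    (B : ι → ℝ) (hB : ∀ p ∈ S, ∀ i, |(F i p : ℝ)| ≤ B i)
    (L : Finset ℕ) (hL : (L : Set ℕ).Pairwise Nat.Coprime) (w m : ℕ)
    (htypes : ∀ l ∈ L, ∃ (τ : Type) (_ : Fintype τ) (ord : τ → ℕ) (C : ι → τ → ℤ) (V : τ → P → ℤ),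
      (∀ t, ∀ p ∈ S, (l : ℤ) ^ ord t ∣ V t p) ∧
      (∀ i, ∀ p ∈ S, (l : ℤ) ^ m ∣ F i p - ∑ t, C i t * V t p) ∧
      (∀ (T : Finset τ) (r : ℕ), T.card + r = Fintype.card ι → w ≤ ∑ t ∈ T, ord t + r * m))
    (hlt : (Fintype.card ι).factorial * ∏ i, B i < ((∏ l ∈ L, l : ℕ) : ℝ) ^ w) :
    ∃ a : ι → ℤ, a ≠ 0 ∧ ∀ p ∈ S, ∑ i, a i * F i p = 0 := by
  refine exists_relation S F fun x hx => ?_
  refine det_eq_zero_of_bounds _ B (fun i j => ?_) (∏ l ∈ L, l) w ?_ hlt
  · exact hB _ (hx j) i
  · refine prod_pow_dvd L hL w _ fun l hl => ?_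
    obtain ⟨τ, _, ord, C, V, h1, h2, h3⟩ := htypes l hl
    refine det_dvd_of_types_mod (l : ℤ) m ord (Matrix.of C) (Matrix.of fun t j => V t (x j)) _
      (fun i j => ?_) (fun t j => h1 t _ (hx j)) w h3
    have := h2 i (x j) (hx j)
    simpa [Matrix.mul_apply] using this

end Crest.Agent.R22.DetCore
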