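import Mathlib

/-! Row 22: type expansions (helper107). -/

set_option autoImplicit false

open Finset MvPolynomial

namespace Crest.Agent.R22.TypeExp

/-- polynomial inverse modulo `l ^ m` on a residue class -/
theorem exists_inv {r : ℕ} (l m : ℕ) (D : MvPolynomial (Fin r) ℤ) (t0 : Fin r → ℤ)
    (hD : IsCoprime (eval t0 D) (l : ℤ)) :
    ∃ U : MvPolynomial (Fin r) ℤ, ∀ t : Fin r → ℤ, (∀ i, (l : ℤ) ∣ t i - t0 i) →
      (l : ℤ) ^ m ∣ eval t D * eval t U - 1 := by
  obtain ⟨u, v, huv⟩ := hD
  refine ⟨C u * ∑ i ∈ range m, (1 - C u * D) ^ i, fun t ht => ?_⟩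
  set E : ℤ := 1 - u * eval t D with hE
  have h1 : (l : ℤ) ∣ eval t D - eval t0 D := by
    -- congruence of polynomial values
    have : ∀ p : MvPolynomial (Fin r) ℤ, (l : ℤ) ∣ eval t p - eval t0 p := by
      intro p
      induction p using MvPolynomial.induction_on with
      | C a => simp
      | add p q hp hq =>
          have : eval t (p + q) - eval t0 (p + q) =
            (eval t p - eval t0 p) + (eval t q - eval t0 q) := by simp; ring
          rw [this]; exact dvd_add hp hq
      | mul_X p i hp =>
          have : eval t (p * X i) - eval t0 (p * X i) =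
            (eval t p - eval t0 p) * t i + eval t0 p * (t i - t0 i) := by simp; ring
          rw [this]; exact dvd_add (hp.mul_right _) ((ht i).mul_left _)
    exact this D
  have h2 : (l : ℤ) ∣ E := by
    have : E = v * l - u * (eval t D - eval t0 D) := by
      rw [hE]; linear_combination -huv
    rw [this]
    exact dvd_sub (dvd_mul_left _ _) (h1.mul_left _)
  have h3 : eval t D * eval t (C u * ∑ i ∈ range m, (1 - C u * D) ^ i) - 1 = - E ^ m := by
    have h4 := mul_neg_geom_sum E m
    have h5 : eval t (C u * ∑ i ∈ range m, (1 - C u * D) ^ i) = u * ∑ i ∈ range m, E ^ i := by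
      simp [hE]
    rw [h5]
    have h6 : u * eval t D = 1 - E := by rw [hE]; ring
    calc eval t D * (u * ∑ i ∈ range m, E ^ i) - 1 = (u * eval t D) * ∑ i ∈ range m, E ^ i - 1 := by ring
      _ = (1 - E) * ∑ i ∈ range m, E ^ i - 1 := by rw [h6]
      _ = - E ^ m := by rw [h4]; ring
  rw [h3]
  exact (pow_dvd_pow_of_dvd h2 m).neg_right

/-- Taylor expansion modulo `l ^ m` on a residue class. -/
theorem exists_taylor {r : ℕ} (l m : ℕ) (H : MvPolynomial (Fin r) ℤ) (t0 : Fin r → ℤ) :
    ∃ c : (Fin r → Fin m) → ℤ, ∀ t : Fin r → ℤ, (∀ i, (l : ℤ) ∣ t i - t0 i) →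
      (l : ℤ) ^ m ∣ eval t H - ∑ e, c e * ∏ i, (t i - t0 i) ^ (e i : ℕ) := by
  classical
  induction H using MvPolynomial.induction_on with
  | C a =>
      by_cases hm : m = 0
      · subst hm
        exact ⟨0, fun t _ => by simp⟩
      · haveI : NeZero m := ⟨hm⟩
        refine ⟨fun e => if e = 0 then a else 0, fun t _ => ?_⟩
        have : ∑ e : Fin r → Fin m, (if e = 0 then a else 0) * ∏ i, (t i - t0 i) ^ (e i : ℕ) = a := by
          rw [Finset.sum_eq_single 0]
          · simp
          · intro b _ hb; simp [hb]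
          · simp
        rw [this]; simp
  | add p q hp hq =>
      obtain ⟨c, hc⟩ := hp
      obtain ⟨c', hc'⟩ := hq
      refine ⟨c + c', fun t ht => ?_⟩
      have : eval t (p + q) - ∑ e, (c + c') e * ∏ i, (t i - t0 i) ^ (e i : ℕ) =
          (eval t p - ∑ e, c e * ∏ i, (t i - t0 i) ^ (e i : ℕ)) +
          (eval t q - ∑ e, c' e * ∏ i, (t i - t0 i) ^ (e i : ℕ)) := by
        simp only [map_add, Pi.add_apply, add_mul, Finset.sum_add_distrib]; ring
      rw [this]
      exact dvd_add (hc t ht) (hc' t ht)
  | mul_X p i hp =>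
      obtain ⟨c, hc⟩ := hp
      -- multiply by `t i = t0 i + (t i - t0 i)`
      refine ⟨fun e => t0 i * c e +
        (if h : (e i : ℕ) = 0 then 0 else
          c (Function.update e i ⟨(e i : ℕ) - 1, lt_of_le_of_lt (Nat.sub_le _ _) (e i).2⟩)),
        fun t ht => ?_⟩
      set d : Fin r → ℤ := fun j => t j - t0 j with hd
      have key : (l : ℤ) ^ m ∣ (∑ e, c e * ∏ j, d j ^ (e j : ℕ)) * d i -
          ∑ e : Fin r → Fin m, (if h : (e i : ℕ) = 0 then 0 else
            c (Function.update e i ⟨(e i : ℕ) - 1, lt_of_le_of_lt (Nat.sub_le _ _) (e i).2⟩)) *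
            ∏ j, d j ^ (e j : ℕ) := by
        -- split the first sum according to whether `e i + 1 < m`
        have h1 : (∑ e, c e * ∏ j, d j ^ (e j : ℕ)) * d i =
            ∑ e ∈ univ.filter (fun e : Fin r → Fin m => (e i : ℕ) + 1 < m),
              c e * ((∏ j, d j ^ (e j : ℕ)) * d i) +
            ∑ e ∈ univ.filter (fun e : Fin r → Fin m => ¬ (e i : ℕ) + 1 < m),
              c e * ((∏ j, d j ^ (e j : ℕ)) * d i) := by
          rw [Finset.sum_mul, ← Finset.sum_filter_add_sum_filter_not univ
            (fun e : Fin r → Fin m => (e i : ℕ) + 1 < m)]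
          congr 1 <;> exact Finset.sum_congr rfl fun e _ => by ring
        have h2 : ∑ e : Fin r → Fin m, (if h : (e i : ℕ) = 0 then 0 else
            c (Function.update e i ⟨(e i : ℕ) - 1, lt_of_le_of_lt (Nat.sub_le _ _) (e i).2⟩)) *
            ∏ j, d j ^ (e j : ℕ) =
            ∑ e ∈ univ.filter (fun e : Fin r → Fin m => (e i : ℕ) + 1 < m),
              c e * ((∏ j, d j ^ (e j : ℕ)) * d i) := by
          rw [← Finset.sum_filter_add_sum_filter_not univ
            (fun e : Fin r → Fin m => (e i : ℕ) = 0)]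
          have h3 : ∑ e ∈ univ.filter (fun e : Fin r → Fin m => (e i : ℕ) = 0),
              (if h : (e i : ℕ) = 0 then 0 else
            c (Function.update e i ⟨(e i : ℕ) - 1, lt_of_le_of_lt (Nat.sub_le _ _) (e i).2⟩)) *
            ∏ j, d j ^ (e j : ℕ) = 0 := by
            refine Finset.sum_eq_zero fun e he => ?_
            rw [Finset.mem_filter] at he
            simp [he.2]
          rw [h3, zero_add]
          refine Finset.sum_bij' (i := fun e _ => Function.update e i
              ⟨(e i : ℕ) - 1, lt_of_le_of_lt (Nat.sub_le _ _) (e i).2⟩)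
            (j := fun e he => Function.update e i ⟨(e i : ℕ) + 1, (Finset.mem_filter.mp he).2⟩)
            ?_ ?_ ?_ ?_ ?_
          · intro e he
            rw [Finset.mem_filter] at he ⊢
            refine ⟨Finset.mem_univ _, ?_⟩
            have := (e i).2
            simp only [Function.update_self]
            have h0 := he.2
            omega
          · intro e he
            rw [Finset.mem_filter] at he ⊢
            exact ⟨Finset.mem_univ _, by simp⟩
          · intro e he
            rw [Finset.mem_filter] at he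
            have h0 := he.2
            ext j
            by_cases hj : j = i
            · subst hj
              simp only [Function.update_self]
              omega
            · simp [Function.update_of_ne hj]
          · intro e he
            ext j
            by_cases hj : j = i
            · subst hj
              simp
            · simp [Function.update_of_ne hj]
          · intro e he
            rw [Finset.mem_filter] at he
            have h0 := he.2
            rw [dif_neg h0]
            congr 1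
            rw [← Finset.mul_prod_erase univ (fun j => d j ^ (e j : ℕ)) (Finset.mem_univ i),
              ← Finset.mul_prod_erase univ (fun j => d j ^ ((Function.update e i
              ⟨(e i : ℕ) - 1, lt_of_le_of_lt (Nat.sub_le _ _) (e i).2⟩) j : ℕ)) (Finset.mem_univ i)]
            have h5 : ∏ x ∈ univ.erase i, d x ^ ((Function.update e i
              ⟨(e i : ℕ) - 1, lt_of_le_of_lt (Nat.sub_le _ _) (e i).2⟩) x : ℕ) =
              ∏ x ∈ univ.erase i, d x ^ (e x : ℕ) := by
              refine Finset.prod_congr rfl fun x hx => ?_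
              rw [Function.update_of_ne (Finset.ne_of_mem_erase hx)]
            rw [h5]
            simp only [Function.update_self]
            have h6 : d i ^ (e i : ℕ) = d i ^ ((e i : ℕ) - 1) * d i := by
              rw [← pow_succ]; congr 1; omega
            rw [h6]; ring
        rw [h1, h2, add_sub_cancel_left]
        refine Finset.dvd_sum fun e he => ?_
        rw [Finset.mem_filter] at he
        have h7 : m ≤ (e i : ℕ) + 1 := not_lt.mp he.2
        refine Dvd.dvd.mul_left ?_ _
        rw [← Finset.mul_prod_erase univ (fun j => d j ^ (e j : ℕ)) (Finset.mem_univ i)]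
        have h8 : (l : ℤ) ^ m ∣ d i ^ ((e i : ℕ) + 1) :=
          dvd_trans (pow_dvd_pow _ h7) (pow_dvd_pow_of_dvd (ht i) _)
        rw [show d i ^ (e i : ℕ) * (∏ x ∈ univ.erase i, d x ^ (e x : ℕ)) * d i =
          d i ^ ((e i : ℕ) + 1) * (∏ x ∈ univ.erase i, d x ^ (e x : ℕ)) by ring]
        exact h8.mul_right _
      have h9 := hc t ht
      have h10 : eval t (p * X i) - ∑ e, (t0 i * c e +
          (if h : (e i : ℕ) = 0 then 0 else
          c (Function.update e i ⟨(e i : ℕ) - 1, lt_of_le_of_lt (Nat.sub_le _ _) (e i).2⟩))) *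
            ∏ j, (t j - t0 j) ^ (e j : ℕ) =
          (eval t p - ∑ e, c e * ∏ j, d j ^ (e j : ℕ)) * t i +
          ((∑ e, c e * ∏ j, d j ^ (e j : ℕ)) * d i -
          ∑ e : Fin r → Fin m, (if h : (e i : ℕ) = 0 then 0 else
            c (Function.update e i ⟨(e i : ℕ) - 1, lt_of_le_of_lt (Nat.sub_le _ _) (e i).2⟩)) *
            ∏ j, d j ^ (e j : ℕ)) := by
        simp only [add_mul, Finset.sum_add_distrib, map_mul, eval_X]
        have h11 : ∑ x : Fin r → Fin m, t0 i * c x * ∏ j, (t j - t0 j) ^ (x j : ℕ) =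
            (∑ e, c e * ∏ j, d j ^ (e j : ℕ)) * t0 i := by
          rw [Finset.sum_mul]
          exact Finset.sum_congr rfl fun e _ => by simp only [hd]; ring
        rw [h11]
        simp only [hd]
        ring
      rw [h10]
      exact dvd_add (h9.mul_right _) key

/-- The type expansion of an integer valued function `F` with `F * D ^ K = ∑ G_j n ^ j`. -/
theorem exists_types {r : ℕ} (l m K J : ℕ) (D : MvPolynomial (Fin r) ℤ)
    (G : Fin (J + 1) → MvPolynomial (Fin r) ℤ) (t0 : Fin r → ℤ)
    (hD : IsCoprime (eval t0 D) (l : ℤ)) :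
    ∃ c : Fin (J + 1) × (Fin r → Fin m) → ℤ, ∀ (t : Fin r → ℤ) (n F : ℤ),
      (∀ i, (l : ℤ) ∣ t i - t0 i) →
      F * (eval t D) ^ K = ∑ j, eval t (G j) * n ^ (j : ℕ) →
      (l : ℤ) ^ m ∣ F - ∑ x : Fin (J + 1) × (Fin r → Fin m),
        c x * (n ^ (x.1 : ℕ) * ∏ i, (t i - t0 i) ^ (x.2 i : ℕ)) := by
  obtain ⟨U, hU⟩ := exists_inv l m D t0 hD
  choose c hc using fun j : Fin (J + 1) => exists_taylor l m (G j * U ^ K) t0
  refine ⟨fun x => c x.1 x.2, fun t n F ht hF => ?_⟩
  have h1 : (l : ℤ) ^ m ∣ (eval t D * eval t U) ^ K - 1 := by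
    have := sub_dvd_pow_sub_pow (eval t D * eval t U) 1 K
    rw [one_pow] at this
    exact (hU t ht).trans this
  have h2 : F - ∑ x : Fin (J + 1) × (Fin r → Fin m),
        c x.1 x.2 * (n ^ (x.1 : ℕ) * ∏ i, (t i - t0 i) ^ (x.2 i : ℕ)) =
      - F * ((eval t D * eval t U) ^ K - 1) +
      ∑ j : Fin (J + 1), n ^ (j : ℕ) * (eval t (G j * U ^ K) -
        ∑ e, c j e * ∏ i, (t i - t0 i) ^ (e i : ℕ)) := by
    rw [Fintype.sum_prod_type]
    have h3 : F * (eval t D * eval t U) ^ K = ∑ j : Fin (J + 1), n ^ (j : ℕ) * eval t (G j * U ^ K) := by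
      rw [mul_pow, ← mul_assoc, hF, Finset.sum_mul]
      refine Finset.sum_congr rfl fun j _ => ?_
      simp only [map_mul, map_pow]; ring
    have h4 : ∑ j : Fin (J + 1), n ^ (j : ℕ) * (eval t (G j * U ^ K) -
        ∑ e, c j e * ∏ i, (t i - t0 i) ^ (e i : ℕ)) =
        (∑ j : Fin (J + 1), n ^ (j : ℕ) * eval t (G j * U ^ K)) -
        ∑ j : Fin (J + 1), ∑ e, c j e * (n ^ (j : ℕ) * ∏ i, (t i - t0 i) ^ (e i : ℕ)) := by
      rw [← Finset.sum_sub_distrib]
      refine Finset.sum_congr rfl fun j _ => ?_
      rw [mul_sub, Finset.mul_sum]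
      congr 1
      exact Finset.sum_congr rfl fun e _ => by ring
    rw [h4, ← h3]; ring
  rw [h2]
  refine dvd_add (h1.mul_left _) (Finset.dvd_sum fun j _ => ?_)
  exact (hc j t ht).mul_left _

end Crest.Agent.R22.TypeExp
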