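import Mathlib
import Crest.Agent.R22.DetCore107
import Crest.Agent.R22.TypeExp107

/-! Row 22: counting types and the complete determinant step on an `r`-dimensional slice
(helper107). -/

set_option autoImplicit false

open Finset MvPolynomial

namespace Crest.Agent.R22.TypeCount

/-- lower bound for a sum of orders from upper bounds for the numbers of types of order `l < L` -/
theorem orders_lower {τ : Type*} [Fintype τ] (ord : τ → ℕ) (m L : ℕ) (hLm : L ≤ m) (N : ℕ → ℕ)
    (hN : ∀ l < L, (univ.filter fun t => ord t = l).card ≤ N l) (T : Finset τ) (k : ℕ) :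
    L * (T.card + k) ≤ ∑ t ∈ T, ord t + k * m + ∑ l ∈ range L, (L - l) * N l := by
  have h1 : ∀ t, L ≤ ord t + (L - ord t) := fun t => by omega
  have h2 : L * T.card ≤ ∑ t ∈ T, ord t + ∑ t ∈ T, (L - ord t) := by
    rw [← Finset.sum_add_distrib, mul_comm]
    calc T.card * L = ∑ _t ∈ T, L := by rw [Finset.sum_const, smul_eq_mul]
      _ ≤ _ := Finset.sum_le_sum fun t _ => h1 t
  have h3 : ∑ t ∈ T, (L - ord t) ≤ ∑ l ∈ range L, (L - l) * N l := by
    calc ∑ t ∈ T, (L - ord t) ≤ ∑ t, (L - ord t) :=
          Finset.sum_le_sum_of_subset (Finset.subset_univ _)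
      _ = ∑ t ∈ univ.filter (fun t => ord t < L), (L - ord t) := by
          rw [Finset.sum_filter]
          refine Finset.sum_congr rfl fun t _ => ?_
          split_ifs with h
          · rfl
          · omega
      _ = ∑ l ∈ range L, ∑ t ∈ (univ.filter fun t => ord t < L).filter (fun t => ord t = l),
            (L - ord t) := by
          rw [Finset.sum_fiberwise_of_maps_to]
          intro t ht
          simpa using ht
      _ ≤ ∑ l ∈ range L, (L - l) * N l := by
          refine Finset.sum_le_sum fun l hl => ?_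
          rw [Finset.mem_range] at hl
          calc ∑ t ∈ (univ.filter fun t => ord t < L).filter (fun t => ord t = l), (L - ord t)
              = ∑ _t ∈ (univ.filter fun t => ord t < L).filter (fun t => ord t = l), (L - l) := by
                refine Finset.sum_congr rfl fun t ht => ?_
                rw [(Finset.mem_filter.mp ht).2]
            _ = ((univ.filter fun t => ord t < L).filter (fun t => ord t = l)).card * (L - l) := by
                rw [Finset.sum_const, smul_eq_mul]
            _ ≤ N l * (L - l) := by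
                refine Nat.mul_le_mul_right _ (le_trans (Finset.card_le_card ?_) (hN l hl))
                intro t ht
                rw [Finset.mem_filter] at ht ⊢
                exact ⟨Finset.mem_univ _, ht.2⟩
            _ = (L - l) * N l := mul_comm _ _
  have h4 : L * k ≤ k * m := by rw [mul_comm]; exact Nat.mul_le_mul_left _ hLm
  calc L * (T.card + k) = L * T.card + L * k := by ring
    _ ≤ (∑ t ∈ T, ord t + ∑ t ∈ T, (L - ord t)) + k * m := add_le_add h2 h4
    _ ≤ _ := by omega

/-- number of exponent vectors of given total degree -/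
theorem card_exps_le (r m l : ℕ) :
    (univ.filter fun e : Fin r → Fin m => ∑ i, (e i : ℕ) = l).card ≤ r.multichoose l := by
  classical
  have h := Finset.card_finsuppAntidiag_nat_eq_multichoose (s := (univ : Finset (Fin r))) l
  rw [Finset.card_univ, Fintype.card_fin] at h
  rw [← h]
  refine Finset.card_le_card_of_injOn
    (fun e => Finsupp.equivFunOnFinite.symm fun i => (e i : ℕ)) ?_ ?_
  · intro e he
    rw [Finset.mem_coe, Finset.mem_filter] at he
    rw [Finset.mem_coe, Finset.mem_finsuppAntidiag]
    exact ⟨by simpa using he.2, Finset.subset_univ _⟩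
  · intro e _ e' _ hee
    have := Finsupp.equivFunOnFinite.symm.injective hee
    funext i
    exact Fin.ext (congrFun this i)

theorem sum_multichoose (r L : ℕ) :
    ∑ l ∈ range (L + 1), r.multichoose l = (r + 1).multichoose L := by
  induction L with
  | zero => simp
  | succ L ih => rw [Finset.sum_range_succ, ih, Nat.multichoose_succ_succ]; ring

theorem sum_weighted_multichoose (r L : ℕ) :
    ∑ l ∈ range L, (L - l) * r.multichoose l = (L + r).choose (r + 1) := by
  induction L with
  | zero => simp
  | succ L ih =>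
      have h1 : ∑ l ∈ range (L + 1), (L + 1 - l) * r.multichoose l =
          ∑ l ∈ range (L + 1), (L - l) * r.multichoose l + ∑ l ∈ range (L + 1), r.multichoose l := by
        rw [← Finset.sum_add_distrib]
        refine Finset.sum_congr rfl fun l hl => ?_
        rw [Finset.mem_range] at hl
        have : L + 1 - l = (L - l) + 1 := by omega
        rw [this]; ring
      rw [h1, Finset.sum_range_succ, ih, sum_multichoose, Nat.sub_self, zero_mul, add_zero,
        Nat.multichoose_eq]
      have h2 : r + 1 + L - 1 = L + r := by omega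
      rw [h2]
      have h3 : (L + r).choose L = (L + r).choose r := by
        rw [← Nat.choose_symm_add]
      rw [h3]
      have h4 : L + 1 + r = (L + r) + 1 := by ring
      rw [h4, Nat.choose_succ_succ]
      ring

/-- the order function on the types `n ^ j (t - t0) ^ e` -/
def ord (J r m : ℕ) (x : Fin (J + 1) × (Fin r → Fin m)) : ℕ := ∑ i, (x.2 i : ℕ)

theorem card_ord_le (J r m l : ℕ) :
    (univ.filter fun x => ord J r m x = l).card ≤ (J + 1) * r.multichoose l := by
  classical
  have h1 : (univ.filter fun x => ord J r m x = l) =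
      (univ : Finset (Fin (J + 1))) ×ˢ (univ.filter fun e : Fin r → Fin m => ∑ i, (e i : ℕ) = l) := by
    ext x
    rw [Finset.mem_filter, Finset.mem_product, Finset.mem_filter]
    simp [ord]
  rw [h1, Finset.card_product, Finset.card_univ, Fintype.card_fin]
  exact Nat.mul_le_mul_left _ (card_exps_le r m l)

theorem ord_lower (J r m : ℕ) (T : Finset (Fin (J + 1) × (Fin r → Fin m))) (k : ℕ) :
    m * (T.card + k) ≤ ∑ x ∈ T, ord J r m x + k * m + (J + 1) * (m + r).choose (r + 1) := by
  have h := orders_lower (ord J r m) m m le_rfl (fun l => (J + 1) * r.multichoose l)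
    (fun l _ => card_ord_le J r m l) T k
  have h2 : ∑ l ∈ range m, (m - l) * ((J + 1) * r.multichoose l) =
      (J + 1) * (m + r).choose (r + 1) := by
    rw [← sum_weighted_multichoose, Finset.mul_sum]
    exact Finset.sum_congr rfl fun l _ => by ring
  rwa [h2] at h

/-- **Determinant step on an `r`-dimensional slice with a free variable `n` of degree `≤ J`.**
`F i` (integer valued on `S`) satisfies `F i * D(t) ^ K i = ∑_j G i j (t) n ^ j`; all points of `S`
are congruent to `t0 l` modulo each auxiliary `l`, where `D (t0 l)` is prime to `l`. -/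
theorem relation_slice {ι P : Type*} [Fintype ι] [DecidableEq ι] {r J m w : ℕ} (S : Set P)
    (t : P → Fin r → ℤ) (n : P → ℤ) (F : ι → P → ℤ)
    (D : MvPolynomial (Fin r) ℤ) (K : ι → ℕ) (G : ι → Fin (J + 1) → MvPolynomial (Fin r) ℤ)
    (hF : ∀ i, ∀ p ∈ S, F i p * (eval (t p) D) ^ K i = ∑ j, eval (t p) (G i j) * n p ^ (j : ℕ))
    (L : Finset ℕ) (hL : (L : Set ℕ).Pairwise Nat.Coprime) (t0 : ℕ → Fin r → ℤ)
    (ht0 : ∀ l ∈ L, ∀ p ∈ S, ∀ i, (l : ℤ) ∣ t p i - t0 l i)
    (hD : ∀ l ∈ L, IsCoprime (eval (t0 l) D) (l : ℤ))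
    (B : ι → ℝ) (hB : ∀ p ∈ S, ∀ i, |(F i p : ℝ)| ≤ B i)
    (hw : w + (J + 1) * (m + r).choose (r + 1) ≤ m * Fintype.card ι)
    (hlt : (Fintype.card ι).factorial * ∏ i, B i < ((∏ l ∈ L, l : ℕ) : ℝ) ^ w) :
    ∃ a : ι → ℤ, a ≠ 0 ∧ ∀ p ∈ S, ∑ i, a i * F i p = 0 := by
  refine DetCore.relation_of_class S F B hB L hL w m (fun l hl => ?_) hlt
  choose c hc using fun i => TypeExp.exists_types l m (K i) J D (G i) (t0 l) (hD l hl)
  refine ⟨Fin (J + 1) × (Fin r → Fin m), inferInstance, ord J r m, c,
    fun x p => n p ^ (x.1 : ℕ) * ∏ i, (t p i - t0 l i) ^ (x.2 i : ℕ), ?_, ?_, ?_⟩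
  · intro x p hp
    refine Dvd.dvd.mul_left ?_ _
    rw [ord, ← Finset.prod_pow_eq_pow_sum]
    exact Finset.prod_dvd_prod_of_dvd _ _ fun i _ => pow_dvd_pow_of_dvd (ht0 l hl p hp i) _
  · intro i p hp
    exact hc i (t p) (n p) (F i p) (ht0 l hl p hp) (hF i p hp)
  · intro T k hT
    have := ord_lower J r m T k
    rw [hT] at this
    omega

end Crest.Agent.R22.TypeCount
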