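import Crest.Agent.R22.SieveRed

/-! Row 22, range (7) (helper990), part A: `rho_f(m) ≤ C_ε m^ε`. -/

set_option autoImplicit false

namespace Crest.Agent.R22.Range7

open Polynomial Crest.NumberTheoryR Crest.Agent.R22.SieveRed

/-- two roots modulo `p^j` which are close are very close -/
theorem close_roots (f u v : ℤ[X]) (r : ℤ) (h : u * f + v * derivative f = C r)
    (p j e : ℕ) (hp : p.Prime) (hr : ¬ (p : ℤ) ^ (e + 1) ∣ r) (hj : e + 1 ≤ j) (a b : ℤ)
    (ha : (p : ℤ) ^ j ∣ f.eval a) (hb : (p : ℤ) ^ j ∣ f.eval b)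
    (hab : (p : ℤ) ^ (e + 1) ∣ a - b) : (p : ℤ) ^ (j - e) ∣ a - b := by
  obtain ⟨c, hc⟩ := f.binomExpansion b (a - b)
  rw [add_sub_cancel] at hc
  have hpi : Prime (p : ℤ) := Nat.prime_iff_prime_int.mp hp
  set X := (derivative f).eval b + c * (a - b) with hX
  have h1 : (p : ℤ) ^ j ∣ (a - b) * X := by
    have : (a - b) * X = f.eval a - f.eval b := by
      rw [hc, hX]; ring
    rw [this]; exact dvd_sub ha hb
  have h2 : ¬ (p : ℤ) ^ (e + 1) ∣ X := by
    intro hd
    have h3 : (p : ℤ) ^ (e + 1) ∣ (derivative f).eval b := by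
      have := dvd_sub hd (hab.mul_left c)
      simpa [hX] using this
    apply hr
    have h4 := congrArg (Polynomial.eval b) h
    simp only [eval_add, eval_mul, eval_C] at h4
    rw [← h4]
    exact dvd_add (((pow_dvd_pow _ hj).trans hb).mul_left _) (h3.mul_left _)
  have hX0 : X ≠ 0 := fun h0 => h2 (h0 ▸ dvd_zero _)
  have hfin : FiniteMultiplicity (p : ℤ) X := by
    rw [Int.finiteMultiplicity_iff]
    refine ⟨?_, hX0⟩
    rw [Int.natAbs_natCast]
    exact hp.one_lt.ne'
  obtain ⟨X', hX', hnd⟩ := hfin.exists_eq_pow_mul_and_not_dvd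
  set i := multiplicity (p : ℤ) X with hi
  have hie : i ≤ e := by
    by_contra hlt
    push Not at hlt
    exact h2 ((pow_dvd_pow _ (by omega : e + 1 ≤ i)).trans ⟨X', hX'⟩)
  rw [hX', mul_left_comm] at h1
  have h5 : (p : ℤ) ^ (j - i) ∣ (a - b) * X' := by
    have h6 : (p : ℤ) ^ i * (p : ℤ) ^ (j - i) ∣ (p : ℤ) ^ i * ((a - b) * X') := by
      rw [← pow_add, Nat.add_sub_cancel' (by omega : i ≤ j)]
      exact h1
    exact (mul_dvd_mul_iff_left (pow_ne_zero _ hpi.ne_zero)).1 h6
  have h7 := hpi.pow_dvd_of_dvd_mul_right (j - i) hnd h5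
  exact (pow_dvd_pow _ (by omega)).trans h7

theorem polyRootCountMod_le_self (f : ℤ[X]) (q : ℕ) : polyRootCountMod f q ≤ q := by
  unfold polyRootCountMod
  exact (Finset.card_filter_le _ _).trans (by simp)

/-- uniform bound for the number of roots modulo prime powers -/
theorem rootCount_prime_pow (f : ℤ[X]) (hirr : Irreducible (f.map (Int.castRingHom ℚ))) :
    ∃ K : ℕ, 1 ≤ K ∧ ∀ p : ℕ, p.Prime → ∀ j : ℕ, polyRootCountMod f (p ^ j) ≤ K := by
  obtain ⟨u, v, r, hr0, h⟩ := exists_bezout f hirr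
  refine ⟨f.natDegree + r.natAbs ^ 3 + 1, by omega, fun p hp j => ?_⟩
  rcases Nat.eq_zero_or_pos j with rfl | hj
  · exact (polyRootCountMod_le_self f _).trans (by simp)
  by_cases hpr : (p : ℤ) ∣ r
  · -- p divides r
    have hr1 : 1 ≤ r.natAbs := Int.natAbs_pos.2 hr0
    have hfin : FiniteMultiplicity (p : ℤ) r := by
      rw [Int.finiteMultiplicity_iff]
      refine ⟨?_, hr0⟩
      rw [Int.natAbs_natCast]
      exact hp.one_lt.ne'
    set e := multiplicity (p : ℤ) r with he
    have he1 : (p : ℤ) ^ e ∣ r := pow_multiplicity_dvd _ _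
    have he2 : ¬ (p : ℤ) ^ (e + 1) ∣ r := hfin.not_pow_dvd_of_multiplicity_lt (by omega)
    have hpe : p ^ e ≤ r.natAbs := by
      have := Int.natAbs_dvd_natAbs.2 he1
      rw [Int.natAbs_pow, Int.natAbs_natCast] at this
      exact Nat.le_of_dvd (by omega) this
    have hpp : p ≤ r.natAbs := by
      have := Int.natAbs_dvd_natAbs.2 hpr
      rw [Int.natAbs_natCast] at this
      exact Nat.le_of_dvd (by omega) this
    have hbound : p ^ (e + 1) * p ^ e ≤ r.natAbs ^ 3 := by
      calc p ^ (e + 1) * p ^ e = p ^ e * p * p ^ e := by rw [pow_succ]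
        _ ≤ r.natAbs * r.natAbs * r.natAbs :=
          Nat.mul_le_mul (Nat.mul_le_mul hpe hpp) hpe
        _ = r.natAbs ^ 3 := by ring
    by_cases hje : j ≤ 2 * e + 1
    · calc polyRootCountMod f (p ^ j) ≤ p ^ j := polyRootCountMod_le_self f _
        _ ≤ p ^ (2 * e + 1) := Nat.pow_le_pow_right hp.pos hje
        _ = p ^ (e + 1) * p ^ e := by rw [← pow_add]; congr 1; omega
        _ ≤ r.natAbs ^ 3 := hbound
        _ ≤ _ := by omega
    · push Not at hje
      refine le_trans ?_ (hbound.trans (by omega))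
      unfold polyRootCountMod
      rw [← Finset.card_range (p ^ (e + 1)), ← Finset.card_range (p ^ e), ← Finset.card_product]
      apply Finset.card_le_card_of_injOn (fun a => (a % p ^ (e + 1), a / p ^ (j - e)))
      · intro a ha
        simp only [Finset.coe_filter, Finset.mem_range, Set.mem_ofPred_eq] at ha
        simp only [Finset.coe_product, Set.mem_prod, Finset.mem_coe, Finset.mem_range,
          Finset.card_range]
        refine ⟨Nat.mod_lt _ (pow_pos hp.pos _), ?_⟩
        rw [Nat.div_lt_iff_lt_mul (pow_pos hp.pos _), ← pow_add]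
        have : e + (j - e) = j := by omega
        rw [this]
        exact ha.1
      · intro a ha b hb hab
        simp only [Finset.coe_filter, Finset.mem_range, Set.mem_ofPred_eq] at ha hb
        simp only [Prod.mk.injEq] at hab
        have ha2 := ha.2
        have hb2 := hb.2
        push_cast at ha2 hb2
        have h1 : (p : ℤ) ^ (e + 1) ∣ (a : ℤ) - b := by
          have h3 : b ≡ a [MOD p ^ (e + 1)] := hab.1.symm
          have := (Nat.modEq_iff_dvd.mp h3)
          push_cast at this
          exact this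
        have h2 := close_roots f u v r h p j e hp he2 (by omega) a b ha2 hb2 h1
        have h4 : b ≡ a [MOD p ^ (j - e)] := by
          rw [Nat.modEq_iff_dvd]
          push_cast
          exact h2
        rw [← Nat.mod_add_div a (p ^ (j - e)), ← Nat.mod_add_div b (p ^ (j - e)), hab.2]
        have h5 : b % p ^ (j - e) = a % p ^ (j - e) := h4
        rw [h5]
  · exact (rootCount_le f u v r h p j hp hj hpr).trans (by omega)

theorem rootCount_mul (f : ℤ[X]) (m n : ℕ) (hm : 0 < m) (hn : 0 < n) (hc : m.Coprime n) :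
    polyRootCountMod f (m * n) = polyRootCountMod f m * polyRootCountMod f n := by
  have h1 := card_crt (fun a : ℕ => (m : ℤ) ∣ f.eval (a : ℤ)) (fun a : ℕ => (n : ℤ) ∣ f.eval (a : ℤ))
    m n hm hn hc (fun a b hab => eval_dvd_iff f m a b hab) (fun a b hab => eval_dvd_iff f n a b hab)
  unfold polyRootCountMod
  rw [← h1]
  congr 1
  apply Finset.filter_congr
  intro a _
  have hci : IsCoprime (m : ℤ) (n : ℤ) := Nat.isCoprime_iff_coprime.2 hc
  constructor
  · intro h
    push_cast at h
    exact ⟨(dvd_mul_right _ _).trans h, (dvd_mul_left _ _).trans h⟩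
  · rintro ⟨h1, h2⟩
    push_cast
    exact hci.mul_dvd h1 h2

theorem rootCount_le_pow (f : ℤ[X]) (K : ℕ)
    (hK : ∀ p : ℕ, p.Prime → ∀ j : ℕ, polyRootCountMod f (p ^ j) ≤ K) (m : ℕ) (hm : 0 < m) :
    polyRootCountMod f m ≤ K ^ m.primeFactors.card := by
  induction m using Nat.recOnPosPrimePosCoprime with
  | prime_pow p n hp hn =>
    rw [Nat.primeFactors_prime_pow hn.ne' hp, Finset.card_singleton, pow_one]
    exact hK p hp n
  | zero => exact absurd hm (by simp)
  | one => simpa using polyRootCountMod_le_self f 1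
  | coprime a b ha hb hab iha ihb =>
    have hc : a.Coprime b := hab
    rw [rootCount_mul f a b (by omega) (by omega) hc, hc.primeFactors_mul,
      Finset.card_union_of_disjoint hc.disjoint_primeFactors, pow_add]
    exact Nat.mul_le_mul (iha (by omega)) (ihb (by omega))

theorem pow_omega_le (K : ℕ) (hK : 1 ≤ K) (ε : ℝ) (hε : 0 < ε) :
    ∃ C : ℝ, 0 < C ∧ ∀ m : ℕ, 0 < m → ((K : ℝ) ^ m.primeFactors.card) ≤ C * (m : ℝ) ^ ε := by
  -- a threshold
  obtain ⟨B, hB⟩ : ∃ B : ℕ, ∀ p : ℕ, B ≤ p → (K : ℝ) ≤ (p : ℝ) ^ ε := by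
    have h1 : Filter.Tendsto (fun p : ℕ => (p : ℝ) ^ ε) Filter.atTop Filter.atTop :=
      (tendsto_rpow_atTop hε).comp tendsto_natCast_atTop_atTop
    have h2 := h1.eventually_ge_atTop (K : ℝ)
    rw [Filter.eventually_atTop] at h2
    exact h2
  have hK1 : (1 : ℝ) ≤ K := by exact_mod_cast hK
  refine ⟨(K : ℝ) ^ B, by positivity, fun m hm => ?_⟩
  have h3 : ∀ p ∈ m.primeFactors, (K : ℝ) ≤ (if p < B then (K : ℝ) else 1) * (p : ℝ) ^ ε := by
    intro p hp
    have hpp : p.Prime := Nat.prime_of_mem_primeFactors hp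
    have hp1 : (1 : ℝ) ≤ (p : ℝ) ^ ε := Real.one_le_rpow (by exact_mod_cast hpp.one_le) hε.le
    split_ifs with h
    · nlinarith
    · rw [one_mul]; exact hB p (not_lt.1 h)
  calc (K : ℝ) ^ m.primeFactors.card = ∏ _p ∈ m.primeFactors, (K : ℝ) := by
        rw [Finset.prod_const]
    _ ≤ ∏ p ∈ m.primeFactors, (if p < B then (K : ℝ) else 1) * (p : ℝ) ^ ε :=
        Finset.prod_le_prod (fun _ _ => by positivity) h3
    _ = (∏ p ∈ m.primeFactors, (if p < B then (K : ℝ) else 1)) *
        ∏ p ∈ m.primeFactors, (p : ℝ) ^ ε := Finset.prod_mul_distrib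
    _ ≤ (K : ℝ) ^ B * (m : ℝ) ^ ε := by
        apply mul_le_mul
        · rw [Finset.prod_ite, Finset.prod_const, Finset.prod_const_one, mul_one]
          apply pow_le_pow_right₀ hK1
          calc (m.primeFactors.filter (fun p => p < B)).card ≤ (Finset.range B).card := by
                apply Finset.card_le_card
                intro p hp
                exact Finset.mem_range.2 (Finset.mem_filter.1 hp).2
            _ = B := Finset.card_range B
        · rw [Real.finsetProd_rpow _ _ (fun _ _ => by positivity)]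
          apply Real.rpow_le_rpow (by positivity) _ hε.le
          have := Nat.le_of_dvd hm (Nat.prod_primeFactors_dvd m)
          rw [← Nat.cast_prod]
          exact_mod_cast this
        · positivity
        · positivity

/-- **divisor-type bound** for the number of roots of `f` modulo `m` -/
theorem rootCount_le_rpow (f : ℤ[X]) (hirr : Irreducible (f.map (Int.castRingHom ℚ)))
    (ε : ℝ) (hε : 0 < ε) :
    ∃ C : ℝ, 0 < C ∧ ∀ m : ℕ, 0 < m → (polyRootCountMod f m : ℝ) ≤ C * (m : ℝ) ^ ε := by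
  obtain ⟨K, hK1, hK⟩ := rootCount_prime_pow f hirr
  obtain ⟨C, hC, h⟩ := pow_omega_le K hK1 ε hε
  refine ⟨C, hC, fun m hm => ?_⟩
  calc (polyRootCountMod f m : ℝ) ≤ ((K ^ m.primeFactors.card : ℕ) : ℝ) := by
        exact_mod_cast rootCount_le_pow f K hK m hm
    _ = (K : ℝ) ^ m.primeFactors.card := by push_cast; rfl
    _ ≤ _ := h m hm

end Crest.Agent.R22.Range7
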