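import Mathlib

/-! Row 22: polynomial toolkit with heights (helper859).

`len F` is the sum of the absolute values of the coefficients of an integer polynomial.
-/

set_option autoImplicit false

open Finset

namespace Crest.Agent.R22.PolyKit

section Len

variable {σ : Type*}

/-- length (sum of absolute values of coefficients) of an integer polynomial -/
noncomputable def len (F : MvPolynomial σ ℤ) : ℕ := ∑ m ∈ F.support, (F.coeff m).natAbs

theorem len_eq_sum_of_subset (F : MvPolynomial σ ℤ) (s : Finset (σ →₀ ℕ)) (h : F.support ⊆ s) :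
    len F = ∑ m ∈ s, (F.coeff m).natAbs := by
  refine Finset.sum_subset h fun m _ hm => ?_
  rw [MvPolynomial.notMem_support_iff] at hm
  simp [hm]

theorem natAbs_coeff_le_len (F : MvPolynomial σ ℤ) (m : σ →₀ ℕ) : (F.coeff m).natAbs ≤ len F := by
  classical
  by_cases hm : m ∈ F.support
  · exact Finset.single_le_sum (f := fun m => (F.coeff m).natAbs) (fun _ _ => Nat.zero_le _) hm
  · rw [MvPolynomial.notMem_support_iff] at hm
    simp [hm]

theorem abs_coeff_le_len (F : MvPolynomial σ ℤ) (m : σ →₀ ℕ) : |F.coeff m| ≤ (len F : ℤ) := by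
  rw [Int.abs_eq_natAbs]
  exact_mod_cast natAbs_coeff_le_len F m

@[simp] theorem len_zero : len (0 : MvPolynomial σ ℤ) = 0 := by simp [len]

theorem len_eq_zero {F : MvPolynomial σ ℤ} : len F = 0 ↔ F = 0 := by
  refine ⟨fun h => ?_, fun h => by simp [h]⟩
  ext m
  have := natAbs_coeff_le_len F m
  rw [h] at this
  simpa using this

theorem one_le_len {F : MvPolynomial σ ℤ} (h : F ≠ 0) : 1 ≤ len F := by
  rcases Nat.eq_zero_or_pos (len F) with h0 | h0
  · exact absurd (len_eq_zero.mp h0) h
  · exact h0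

theorem len_monomial (m : σ →₀ ℕ) (a : ℤ) : len (MvPolynomial.monomial m a) = a.natAbs := by
  classical
  rw [len_eq_sum_of_subset _ {m} MvPolynomial.support_monomial_subset]
  simp

@[simp] theorem len_C (a : ℤ) : len (MvPolynomial.C a : MvPolynomial σ ℤ) = a.natAbs := by
  rw [← len_monomial 0 a]; rfl

@[simp] theorem len_one : len (1 : MvPolynomial σ ℤ) = 1 := by
  rw [← MvPolynomial.C_1, len_C]; rfl

@[simp] theorem len_X (i : σ) : len (MvPolynomial.X i : MvPolynomial σ ℤ) = 1 := by
  rw [MvPolynomial.X, len_monomial]; rfl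

@[simp] theorem len_neg (F : MvPolynomial σ ℤ) : len (-F) = len F := by
  unfold len
  simp [MvPolynomial.support_neg]

theorem len_add (F G : MvPolynomial σ ℤ) : len (F + G) ≤ len F + len G := by
  classical
  rw [len_eq_sum_of_subset (F + G) (F.support ∪ G.support) MvPolynomial.support_add,
    len_eq_sum_of_subset F (F.support ∪ G.support) Finset.subset_union_left,
    len_eq_sum_of_subset G (F.support ∪ G.support) Finset.subset_union_right,
    ← Finset.sum_add_distrib]
  refine Finset.sum_le_sum fun m _ => ?_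
  rw [MvPolynomial.coeff_add]
  exact Int.natAbs_add_le _ _

theorem len_sub (F G : MvPolynomial σ ℤ) : len (F - G) ≤ len F + len G := by
  rw [sub_eq_add_neg]
  exact (len_add F (-G)).trans (by rw [len_neg])

theorem len_sum {ι : Type*} (s : Finset ι) (F : ι → MvPolynomial σ ℤ) :
    len (∑ i ∈ s, F i) ≤ ∑ i ∈ s, len (F i) := by
  classical
  induction s using Finset.induction_on with
  | empty => simp
  | insert a s ha ih =>
      rw [Finset.sum_insert ha, Finset.sum_insert ha]
      exact (len_add _ _).trans (Nat.add_le_add_left ih _)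

theorem len_monomial_mul (m : σ →₀ ℕ) (a : ℤ) (F : MvPolynomial σ ℤ) :
    len (MvPolynomial.monomial m a * F) ≤ a.natAbs * len F := by
  classical
  have h : MvPolynomial.monomial m a * F =
      ∑ n ∈ F.support, MvPolynomial.monomial (m + n) (a * F.coeff n) := by
    conv_lhs => rw [F.as_sum, Finset.mul_sum]
    exact Finset.sum_congr rfl fun n _ => by rw [MvPolynomial.monomial_mul]
  rw [h]
  refine (len_sum _ _).trans ?_
  rw [len, Finset.mul_sum]
  refine Finset.sum_le_sum fun n _ => ?_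
  rw [len_monomial, Int.natAbs_mul]

theorem len_mul (F G : MvPolynomial σ ℤ) : len (F * G) ≤ len F * len G := by
  classical
  have h : F * G = ∑ m ∈ F.support, MvPolynomial.monomial m (F.coeff m) * G := by
    conv_lhs => rw [F.as_sum, Finset.sum_mul]
  rw [h]
  refine (len_sum _ _).trans ?_
  rw [len, Finset.sum_mul]
  exact Finset.sum_le_sum fun m _ => len_monomial_mul _ _ _

theorem len_pow (F : MvPolynomial σ ℤ) (k : ℕ) : len (F ^ k) ≤ len F ^ k := by
  induction k with
  | zero => simp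
  | succ k ih =>
      rw [pow_succ, pow_succ]
      exact (len_mul _ _).trans (Nat.mul_le_mul_right _ ih)

theorem len_prod {ι : Type*} (s : Finset ι) (F : ι → MvPolynomial σ ℤ) :
    len (∏ i ∈ s, F i) ≤ ∏ i ∈ s, len (F i) := by
  classical
  induction s using Finset.induction_on with
  | empty => simp
  | insert a s ha ih =>
      rw [Finset.prod_insert ha, Finset.prod_insert ha]
      exact (len_mul _ _).trans (Nat.mul_le_mul_left _ ih)

theorem len_smul_int (a : ℤ) (F : MvPolynomial σ ℤ) : len (a • F) ≤ a.natAbs * len F := by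
  rw [MvPolynomial.smul_eq_C_mul]
  exact (len_mul _ _).trans (by rw [len_C])

/-- evaluation bound -/
theorem natAbs_eval_le (F : MvPolynomial σ ℤ) (x : σ → ℤ) (B d : ℕ) (hB : 1 ≤ B)
    (hx : ∀ i, (x i).natAbs ≤ B) (hd : F.totalDegree ≤ d) :
    (MvPolynomial.eval x F).natAbs ≤ len F * B ^ d := by
  classical
  rw [MvPolynomial.eval_eq]
  refine (Int.natAbs_sum_le _ _).trans ?_
  rw [len, Finset.sum_mul]
  refine Finset.sum_le_sum fun m hm => ?_
  rw [Int.natAbs_mul]
  refine Nat.mul_le_mul_left _ ?_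
  have hprod : (∏ i ∈ m.support, x i ^ m i).natAbs = ∏ i ∈ m.support, (x i ^ m i).natAbs :=
    map_prod Int.natAbsHom _ _
  rw [hprod]
  calc ∏ i ∈ m.support, (x i ^ m i).natAbs ≤ ∏ i ∈ m.support, B ^ m i := by
        refine Finset.prod_le_prod (fun _ _ => Nat.zero_le _) fun i _ => ?_
        rw [Int.natAbs_pow]
        exact Nat.pow_le_pow_left (hx i) _
    _ = B ^ (∑ i ∈ m.support, m i) := by rw [Finset.prod_pow_eq_pow_sum]
    _ ≤ B ^ d := Nat.pow_le_pow_right hB ((MvPolynomial.le_totalDegree hm).trans hd)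

/-- evaluation bound, real version -/
theorem abs_eval_le (F : MvPolynomial σ ℤ) (x : σ → ℤ) (B : ℝ) (d : ℕ) (hB : 1 ≤ B)
    (hx : ∀ i, |(x i : ℝ)| ≤ B) (hd : F.totalDegree ≤ d) :
    |((MvPolynomial.eval x F : ℤ) : ℝ)| ≤ len F * B ^ d := by
  classical
  rw [MvPolynomial.eval_eq]
  push_cast
  refine (Finset.abs_sum_le_sum_abs _ _).trans ?_
  rw [len]
  push_cast
  rw [Finset.sum_mul]
  refine Finset.sum_le_sum fun m hm => ?_
  rw [abs_mul]
  have h1 : |((F.coeff m : ℤ) : ℝ)| = (((F.coeff m).natAbs : ℕ) : ℝ) := by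
    rw [Nat.cast_natAbs]; push_cast; rfl
  rw [h1]
  refine mul_le_mul_of_nonneg_left ?_ (by positivity)
  rw [Finset.abs_prod]
  calc ∏ i ∈ m.support, |((x i : ℝ)) ^ m i| ≤ ∏ i ∈ m.support, B ^ m i := by
        refine Finset.prod_le_prod (fun _ _ => abs_nonneg _) fun i _ => ?_
        rw [abs_pow]
        exact pow_le_pow_left₀ (abs_nonneg _) (hx i) _
    _ = B ^ (∑ i ∈ m.support, m i) := by rw [Finset.prod_pow_eq_pow_sum]
    _ ≤ B ^ d := pow_le_pow_right₀ hB ((MvPolynomial.le_totalDegree hm).trans hd)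

/-- number of monomials of a polynomial in `r` variables with `degreeOf ≤ D` -/
theorem card_support_le {r D : ℕ} (F : MvPolynomial (Fin r) ℤ) (hD : ∀ i, F.degreeOf i ≤ D) :
    F.support.card ≤ (D + 1) ^ r := by
  classical
  have h : F.support ⊆ (Finset.univ : Finset (Fin r → Fin (D + 1))).image
      (fun e => Finsupp.equivFunOnFinite.symm (fun i => (e i : ℕ))) := by
    intro m hm
    rw [Finset.mem_image]
    refine ⟨fun i => ⟨m i, Nat.lt_succ_of_le ((MvPolynomial.monomial_le_degreeOf i hm).trans (hD i))⟩,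
      Finset.mem_univ _, ?_⟩
    ext i
    simp
  calc F.support.card ≤ _ := Finset.card_le_card h
    _ ≤ (Finset.univ : Finset (Fin r → Fin (D + 1))).card := Finset.card_image_le
    _ = (D + 1) ^ r := by simp

theorem len_le_of_coeff_le {r D H : ℕ} (F : MvPolynomial (Fin r) ℤ) (hD : ∀ i, F.degreeOf i ≤ D)
    (hH : ∀ m, (F.coeff m).natAbs ≤ H) : len F ≤ (D + 1) ^ r * H := by
  calc len F ≤ ∑ _m ∈ F.support, H := Finset.sum_le_sum fun m _ => hH m
    _ = F.support.card * H := by rw [Finset.sum_const, smul_eq_mul]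
    _ ≤ _ := Nat.mul_le_mul_right _ (card_support_le F hD)

end Len

section FactorHeight

open Polynomial

/-- univariate: the coefficients of a divisor are bounded by a constant times those of the
polynomial -/
theorem natAbs_coeff_le_of_dvd (N : ℕ) : ∃ C : ℕ, ∀ g G : ℤ[X], G ≠ 0 → g ∣ G →
    G.natDegree ≤ N → ∀ H : ℕ, (∀ k, (G.coeff k).natAbs ≤ H) → ∀ k, (g.coeff k).natAbs ≤ C * H := by
  classical
  set S0 : Finset ℕ := Finset.range (2 * N + 1) with hS0
  set v : ℕ → ℚ := fun j => (j : ℚ) with hv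
  set M : ℕ := ∑ s ∈ S0.powerset, ∑ i ∈ S0, ∑ k ∈ Finset.range (N + 1),
    ⌈|(Lagrange.basis s v i).coeff k|⌉₊ with hM
  have hMle : ∀ s ⊆ S0, ∀ i ∈ S0, ∀ k ≤ N, |(Lagrange.basis s v i).coeff k| ≤ M := by
    intro s hs i hi k hk
    refine (Nat.le_ceil _).trans ?_
    rw [hM]
    norm_cast
    calc ⌈|(Lagrange.basis s v i).coeff k|⌉₊ ≤ ∑ k ∈ Finset.range (N + 1),
          ⌈|(Lagrange.basis s v i).coeff k|⌉₊ :=
          Finset.single_le_sum (f := fun k => ⌈|(Lagrange.basis s v i).coeff k|⌉₊)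
            (fun _ _ => Nat.zero_le _) (Finset.mem_range.mpr (Nat.lt_succ_of_le hk))
      _ ≤ ∑ i ∈ S0, ∑ k ∈ Finset.range (N + 1), ⌈|(Lagrange.basis s v i).coeff k|⌉₊ :=
          Finset.single_le_sum
            (f := fun i => ∑ k ∈ Finset.range (N + 1), ⌈|(Lagrange.basis s v i).coeff k|⌉₊)
            (fun _ _ => Nat.zero_le _) hi
      _ ≤ _ := Finset.single_le_sum
            (f := fun s => ∑ i ∈ S0, ∑ k ∈ Finset.range (N + 1), ⌈|(Lagrange.basis s v i).coeff k|⌉₊)
            (fun _ _ => Nat.zero_le _) (Finset.mem_powerset.mpr hs)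
  refine ⟨(N + 1) * ((N + 1) * (2 * N + 1) ^ N) * M, fun g G hG hgG hdeg H hH k => ?_⟩
  have hg : g ≠ 0 := fun h => hG (by rw [h, zero_dvd_iff] at hgG; exact hgG)
  have hgdeg : g.natDegree ≤ N := (Polynomial.natDegree_le_of_dvd hgG hG).trans hdeg
  -- choose points
  set s1 : Finset ℕ := S0.filter (fun j : ℕ => G.eval (j : ℤ) ≠ 0) with hs1
  have hcard : N + 1 ≤ s1.card := by
    have h1 : (S0.filter (fun j : ℕ => G.eval (j : ℤ) = 0)).card ≤ N := by
      have h2 : ((S0.filter (fun j : ℕ => G.eval (j : ℤ) = 0)).image (fun j : ℕ => (j : ℤ))) ⊆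
          G.roots.toFinset := by
        intro x hx
        rw [Finset.mem_image] at hx
        obtain ⟨j, hj, rfl⟩ := hx
        rw [Finset.mem_filter] at hj
        rw [Multiset.mem_toFinset, Polynomial.mem_roots hG]
        exact hj.2
      calc (S0.filter (fun j : ℕ => G.eval (j : ℤ) = 0)).card
          = ((S0.filter (fun j : ℕ => G.eval (j : ℤ) = 0)).image (fun j : ℕ => (j : ℤ))).card :=
            (Finset.card_image_of_injective _ Nat.cast_injective).symm
        _ ≤ G.roots.toFinset.card := Finset.card_le_card h2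
        _ ≤ Multiset.card G.roots := Multiset.toFinset_card_le _
        _ ≤ G.natDegree := Polynomial.card_roots' _
        _ ≤ N := hdeg
    have h3 := Finset.card_filter_add_card_filter_not (s := S0) (fun j : ℕ => G.eval (j : ℤ) = 0)
    have h4 : S0.card = 2 * N + 1 := by simp [hS0]
    have h5 : s1.card = (S0.filter (fun j : ℕ => ¬ G.eval (j : ℤ) = 0)).card := rfl
    omega
  obtain ⟨s, hs, hscard⟩ := Finset.exists_subset_card_eq hcard
  have hsS0 : s ⊆ S0 := hs.trans (Finset.filter_subset _ _)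
  rcases Nat.lt_or_ge N k with hk | hk
  · rw [Polynomial.coeff_eq_zero_of_natDegree_lt (lt_of_le_of_lt hgdeg hk)]
    simp
  -- values
  have hval : ∀ j ∈ s, (g.eval (j : ℤ)).natAbs ≤ (N + 1) * (2 * N + 1) ^ N * H := by
    intro j hj
    have hj1 := hs hj
    rw [hs1, Finset.mem_filter, hS0, Finset.mem_range] at hj1
    have h1 : g.eval (j : ℤ) ∣ G.eval (j : ℤ) := Polynomial.eval_dvd hgG
    have h2 : (g.eval (j : ℤ)).natAbs ≤ (G.eval (j : ℤ)).natAbs :=
      Nat.le_of_dvd (Int.natAbs_pos.mpr hj1.2) (Int.natAbs_dvd_natAbs.mpr h1)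
    refine h2.trans ?_
    rw [Polynomial.eval_eq_sum_range' (n := N + 1) (Nat.lt_succ_of_le hdeg)]
    refine (Int.natAbs_sum_le _ _).trans ?_
    calc ∑ i ∈ Finset.range (N + 1), (G.coeff i * (j : ℤ) ^ i).natAbs
        ≤ ∑ _i ∈ Finset.range (N + 1), (2 * N + 1) ^ N * H := by
          refine Finset.sum_le_sum fun i hi => ?_
          rw [Int.natAbs_mul, mul_comm]
          refine Nat.mul_le_mul ?_ (hH i)
          rw [Int.natAbs_pow, Int.natAbs_natCast]
          calc j ^ i ≤ (2 * N + 1) ^ i := Nat.pow_le_pow_left (by omega) _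
            _ ≤ (2 * N + 1) ^ N := Nat.pow_le_pow_right (by omega)
                (Nat.le_of_lt_succ (Finset.mem_range.mp hi))
      _ = (N + 1) * (2 * N + 1) ^ N * H := by
          rw [Finset.sum_const, Finset.card_range, smul_eq_mul]; ring
  -- interpolation
  have hinj : Set.InjOn v (s : Set ℕ) := fun a _ b _ hab => by
    simpa [hv] using hab
  set gq : ℚ[X] := g.map (Int.castRingHom ℚ) with hgq
  have hgqdeg : gq.degree < (s.card : WithBot ℕ) := by
    rw [hscard]
    calc gq.degree ≤ g.degree := Polynomial.degree_map_le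
      _ ≤ (g.natDegree : WithBot ℕ) := Polynomial.degree_le_natDegree
      _ < ((N + 1 : ℕ) : WithBot ℕ) := by exact_mod_cast Nat.lt_succ_of_le hgdeg
  have hint := Lagrange.eq_interpolate hinj hgqdeg
  have hcoeff : ((g.coeff k : ℤ) : ℚ) =
      ∑ i ∈ s, ((g.eval (i : ℤ) : ℤ) : ℚ) * (Lagrange.basis s v i).coeff k := by
    have h1 : gq.coeff k = ((g.coeff k : ℤ) : ℚ) := by rw [hgq, Polynomial.coeff_map]; rfl
    rw [← h1, hint, Lagrange.interpolate_apply, Polynomial.finsetSum_coeff]
    refine Finset.sum_congr rfl fun i _ => ?_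
    rw [Polynomial.coeff_C_mul]
    congr 1
    have h2 : v i = ((Int.castRingHom ℚ) (i : ℤ)) := by simp [hv]
    rw [hgq, h2, Polynomial.eval_map, Polynomial.eval₂_hom]
    rfl
  have hfin : |((g.coeff k : ℤ) : ℚ)| ≤
      (((N + 1) * ((N + 1) * (2 * N + 1) ^ N) * M * H : ℕ) : ℚ) := by
    rw [hcoeff]
    refine (Finset.abs_sum_le_sum_abs _ _).trans ?_
    calc ∑ i ∈ s, |((g.eval (i : ℤ) : ℤ) : ℚ) * (Lagrange.basis s v i).coeff k|
        ≤ ∑ _i ∈ s, (((N + 1) * (2 * N + 1) ^ N * H : ℕ) : ℚ) * (M : ℚ) := by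
          refine Finset.sum_le_sum fun i hi => ?_
          rw [abs_mul]
          refine mul_le_mul ?_ (hMle s hsS0 i (hsS0 hi) k hk) (abs_nonneg _) (by positivity)
          have h3 : |((g.eval (i : ℤ) : ℤ) : ℚ)| = (((g.eval (i : ℤ)).natAbs : ℕ) : ℚ) := by
            rw [Nat.cast_natAbs]; push_cast; rfl
          rw [h3]
          exact_mod_cast hval i hi
      _ = (((N + 1) * ((N + 1) * (2 * N + 1) ^ N) * M * H : ℕ) : ℚ) := by
          rw [Finset.sum_const, hscard, nsmul_eq_mul]
          push_cast; ring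
  have h4 : |((g.coeff k : ℤ) : ℚ)| = (((g.coeff k).natAbs : ℕ) : ℚ) := by
    rw [Nat.cast_natAbs]; push_cast; rfl
  rw [h4] at hfin
  exact_mod_cast hfin

/-- Kronecker code of an exponent vector -/
def code {r : ℕ} (D : ℕ) (m : Fin r →₀ ℕ) : ℕ := ∑ i, m i * (D + 1) ^ (i : ℕ)

theorem code_lt {r D : ℕ} {m : Fin r →₀ ℕ} (hm : ∀ i, m i ≤ D) : code D m < (D + 1) ^ r := by
  have h := (finFunctionFinEquiv (fun i : Fin r => (⟨m i, Nat.lt_succ_of_le (hm i)⟩ : Fin (D + 1)))).2
  rwa [finFunctionFinEquiv_apply] at h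

theorem code_inj {r D : ℕ} {m n : Fin r →₀ ℕ} (hm : ∀ i, m i ≤ D) (hn : ∀ i, n i ≤ D)
    (h : code D m = code D n) : m = n := by
  have h1 : finFunctionFinEquiv (fun i : Fin r => (⟨m i, Nat.lt_succ_of_le (hm i)⟩ : Fin (D + 1))) =
      finFunctionFinEquiv (fun i : Fin r => (⟨n i, Nat.lt_succ_of_le (hn i)⟩ : Fin (D + 1))) := by
    apply Fin.ext
    rw [finFunctionFinEquiv_apply, finFunctionFinEquiv_apply]
    exact h
  have h2 := finFunctionFinEquiv.injective h1
  ext i
  have h3 := congrArg Fin.val (congrFun h2 i)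
  exact h3

/-- Kronecker substitution -/
noncomputable def kron (r D : ℕ) : MvPolynomial (Fin r) ℤ →+* ℤ[X] :=
  MvPolynomial.eval₂Hom Polynomial.C (fun i => Polynomial.X ^ ((D + 1) ^ (i : ℕ)))

theorem kron_monomial {r D : ℕ} (m : Fin r →₀ ℕ) (a : ℤ) :
    kron r D (MvPolynomial.monomial m a) = Polynomial.C a * Polynomial.X ^ code D m := by
  rw [kron, MvPolynomial.coe_eval₂Hom, MvPolynomial.eval₂_monomial]
  congr 1
  rw [Finsupp.prod_fintype _ _ (fun i => by simp), code, ← Finset.prod_pow_eq_pow_sum]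
  refine Finset.prod_congr rfl fun i _ => ?_
  rw [← pow_mul, mul_comm]

theorem kron_eq_sum {r D : ℕ} (F : MvPolynomial (Fin r) ℤ) :
    kron r D F = ∑ m ∈ F.support, Polynomial.C (F.coeff m) * Polynomial.X ^ code D m := by
  conv_lhs => rw [F.as_sum]
  rw [map_sum]
  exact Finset.sum_congr rfl fun m _ => kron_monomial _ _

theorem kron_coeff {r D : ℕ} (F : MvPolynomial (Fin r) ℤ) (k : ℕ) :
    (kron r D F).coeff k = ∑ m ∈ F.support, if k = code D m then F.coeff m else 0 := by
  rw [kron_eq_sum, Polynomial.finsetSum_coeff]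
  refine Finset.sum_congr rfl fun m _ => ?_
  rw [Polynomial.coeff_C_mul, Polynomial.coeff_X_pow]
  split_ifs <;> simp

theorem kron_coeff_code {r D : ℕ} (F : MvPolynomial (Fin r) ℤ) (hF : ∀ i, F.degreeOf i ≤ D)
    (e : Fin r →₀ ℕ) (he : ∀ i, e i ≤ D) : (kron r D F).coeff (code D e) = F.coeff e := by
  rw [kron_coeff]
  have h : ∀ m ∈ F.support, (if code D e = code D m then F.coeff m else 0) =
      if m = e then F.coeff e else 0 := by
    intro m hm
    have hm' : ∀ i, m i ≤ D := fun i => (MvPolynomial.monomial_le_degreeOf i hm).trans (hF i)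
    by_cases h1 : m = e
    · subst h1; simp
    · rw [if_neg h1, if_neg]
      intro h2
      exact h1 (code_inj hm' he h2.symm)
  rw [Finset.sum_congr rfl h, Finset.sum_ite_eq']
  split_ifs with h1
  · rfl
  · rw [MvPolynomial.notMem_support_iff] at h1
    exact h1.symm

theorem natAbs_kron_coeff_le {r D : ℕ} (F : MvPolynomial (Fin r) ℤ) (k : ℕ) :
    ((kron r D F).coeff k).natAbs ≤ len F := by
  rw [kron_coeff]
  refine (Int.natAbs_sum_le _ _).trans (Finset.sum_le_sum fun m _ => ?_)
  split_ifs <;> simp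

theorem natDegree_kron_le {r D : ℕ} (F : MvPolynomial (Fin r) ℤ) (hF : ∀ i, F.degreeOf i ≤ D) :
    (kron r D F).natDegree ≤ (D + 1) ^ r := by
  rw [kron_eq_sum]
  refine Polynomial.natDegree_sum_le_of_forall_le _ _ fun m hm => ?_
  have hm' : ∀ i, m i ≤ D := fun i => (MvPolynomial.monomial_le_degreeOf i hm).trans (hF i)
  exact (Polynomial.natDegree_C_mul_X_pow_le _ _).trans (code_lt hm').le

theorem kron_ne_zero {r D : ℕ} {F : MvPolynomial (Fin r) ℤ} (hF : ∀ i, F.degreeOf i ≤ D)
    (h0 : F ≠ 0) : kron r D F ≠ 0 := by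
  intro h
  obtain ⟨m, hm⟩ := MvPolynomial.support_nonempty.mpr h0
  have hm' : ∀ i, m i ≤ D := fun i => (MvPolynomial.monomial_le_degreeOf i hm).trans (hF i)
  have h1 := kron_coeff_code F hF m hm'
  rw [h] at h1
  rw [MvPolynomial.mem_support_iff] at hm
  exact hm (by simpa using h1.symm)

theorem degreeOf_le_of_dvd {r : ℕ} {g G : MvPolynomial (Fin r) ℤ} (hG : G ≠ 0) (h : g ∣ G)
    (i : Fin r) : g.degreeOf i ≤ G.degreeOf i := by
  obtain ⟨c, rfl⟩ := h
  have hg : g ≠ 0 := left_ne_zero_of_mul hG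
  have hc : c ≠ 0 := right_ne_zero_of_mul hG
  rw [MvPolynomial.degreeOf_mul_eq hg hc]
  exact Nat.le_add_right _ _

/-- **(K1)** height of a factor: `len g ≤ C(D, r) * len G` if `g ∣ G ≠ 0`, `degreeOf i G ≤ D`. -/
theorem len_le_of_dvd (r D : ℕ) : ∃ C : ℕ, ∀ g G : MvPolynomial (Fin r) ℤ, G ≠ 0 → g ∣ G →
    (∀ i, G.degreeOf i ≤ D) → len g ≤ C * len G := by
  obtain ⟨C, hC⟩ := natAbs_coeff_le_of_dvd ((D + 1) ^ r)
  refine ⟨(D + 1) ^ r * C, fun g G hG hgG hD => ?_⟩
  have hgD : ∀ i, g.degreeOf i ≤ D := fun i => (degreeOf_le_of_dvd hG hgG i).trans (hD i)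
  have h1 : ∀ k, ((kron r D g).coeff k).natAbs ≤ C * len G :=
    hC (kron r D g) (kron r D G) (kron_ne_zero hD hG) (map_dvd (kron r D) hgG)
      (natDegree_kron_le G hD) (len G) (natAbs_kron_coeff_le G)
  rw [mul_assoc]
  refine len_le_of_coeff_le (H := C * len G) g hgD fun m => ?_
  by_cases hm : m ∈ g.support
  · have hm' : ∀ i, m i ≤ D := fun i => (MvPolynomial.monomial_le_degreeOf i hm).trans (hgD i)
    have h2 := h1 (code D m)
    rw [kron_coeff_code g hgD m hm'] at h2
    exact h2
  · rw [MvPolynomial.notMem_support_iff] at hm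
    rw [hm, Int.natAbs_zero]
    exact Nat.zero_le _

end FactorHeight

section Elim

open Polynomial

variable {r : ℕ}

/-- Gauss + resultant: the resultant of an irreducible polynomial of positive degree and a
polynomial that it does not divide is nonzero. -/
theorem resultant_ne_zero_of_irreducible {R : Type*} [CommRing R] [IsDomain R]
    [UniqueFactorizationMonoid R] {g G : R[X]} (hg : Irreducible g) (hdeg : 1 ≤ g.natDegree)
    (h : ¬ g ∣ G) : resultant g G ≠ 0 := by
  have hprim : g.IsPrimitive := hg.isPrimitive (by omega)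
  set K := FractionRing R
  have hinj : Function.Injective (algebraMap R K) := IsFractionRing.injective R K
  have hirr : Irreducible (g.map (algebraMap R K)) :=
    (hprim.irreducible_iff_irreducible_map_fraction_map (K := K)).mp hg
  intro h0
  have h1 : resultant (g.map (algebraMap R K)) (G.map (algebraMap R K)) = 0 := by
    rw [Polynomial.natDegree_map_eq_of_injective hinj, Polynomial.natDegree_map_eq_of_injective hinj,
      Polynomial.resultant_map_map, h0, map_zero]
  rw [Polynomial.resultant_eq_zero_iff] at h1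
  apply h1.2
  rw [hirr.coprime_iff_not_dvd]
  intro h2
  exact h (hprim.dvd_of_fraction_map_dvd_fraction_map h2)

/-- vanishing of the resultant at common zeros -/
theorem map_resultant_eq_zero {R S : Type*} [CommRing R] [CommRing S] (φ : R →+* S)
    (g G : R[X]) (hdeg : 1 ≤ g.natDegree) (x : S) (h1 : g.eval₂ φ x = 0) (h2 : G.eval₂ φ x = 0) :
    φ (resultant g G) = 0 := by
  obtain ⟨p, q, -, -, h⟩ := Polynomial.exists_mul_add_mul_eq_C_resultant g G le_rfl le_rfl
    (Or.inl (by omega))
  have h3 := congrArg (Polynomial.eval₂ φ x) h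
  rw [Polynomial.eval₂_add, Polynomial.eval₂_mul, Polynomial.eval₂_mul, h1, h2,
    Polynomial.eval₂_C] at h3
  rw [← h3]; ring

theorem len_det {n : Type*} [DecidableEq n] [Fintype n] {σ : Type*} (M : Matrix n n (MvPolynomial σ ℤ))
    (L : ℕ) (hL : ∀ i j, len (M i j) ≤ L) :
    len M.det ≤ (Fintype.card n).factorial * L ^ Fintype.card n := by
  rw [Matrix.det_apply]
  refine (len_sum _ _).trans ?_
  calc ∑ s : Equiv.Perm n, len (Equiv.Perm.sign s • ∏ i, M (s i) i)
      ≤ ∑ _s : Equiv.Perm n, L ^ Fintype.card n := by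
        refine Finset.sum_le_sum fun s _ => ?_
        have h1 : len (Equiv.Perm.sign s • ∏ i, M (s i) i) ≤ len (∏ i, M (s i) i) := by
          rcases Int.units_eq_one_or (Equiv.Perm.sign s) with h | h
          · rw [h, one_smul]
          · rw [h, Units.neg_smul, one_smul, len_neg]
        refine h1.trans ((len_prod _ _).trans ?_)
        calc ∏ i, len (M (s i) i) ≤ ∏ _i : n, L :=
              Finset.prod_le_prod (fun _ _ => Nat.zero_le _) fun i _ => hL _ _
          _ = L ^ Fintype.card n := by rw [Finset.prod_const, Finset.card_univ]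
    _ = _ := by rw [Finset.sum_const, Finset.card_univ, Fintype.card_perm, smul_eq_mul]

theorem totalDegree_det {n : Type*} [DecidableEq n] [Fintype n] {σ : Type*}
    (M : Matrix n n (MvPolynomial σ ℤ)) (D : ℕ) (hD : ∀ i j, (M i j).totalDegree ≤ D) :
    M.det.totalDegree ≤ Fintype.card n * D := by
  rw [Matrix.det_apply]
  refine (MvPolynomial.totalDegree_finsetSum _ _).trans (Finset.sup_le fun s _ => ?_)
  have h1 : (Equiv.Perm.sign s • ∏ i, M (s i) i).totalDegree ≤ (∏ i, M (s i) i).totalDegree := by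
    rcases Int.units_eq_one_or (Equiv.Perm.sign s) with h | h
    · rw [h, one_smul]
    · rw [h, Units.neg_smul, one_smul, MvPolynomial.totalDegree_neg]
  refine h1.trans ((MvPolynomial.totalDegree_finsetProd _ _).trans ?_)
  calc ∑ i, (M (s i) i).totalDegree ≤ ∑ _i : n, D := Finset.sum_le_sum fun i _ => hD _ _
    _ = _ := by rw [Finset.sum_const, Finset.card_univ, smul_eq_mul]

theorem sylvester_entry {R : Type*} [CommRing R] (P : R → Prop) (h0 : P 0) (f g : R[X]) (m n : ℕ)
    (hf : ∀ k, P (f.coeff k)) (hg : ∀ k, P (g.coeff k)) (i j : Fin (m + n)) :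
    P (sylvester f g m n i j) := by
  rw [sylvester, Matrix.of_apply]
  refine Fin.addCases (fun j₁ => ?_) (fun j₁ => ?_) j
  · rw [Fin.addCases_left]
    split_ifs
    · exact hg _
    · exact h0
  · rw [Fin.addCases_right]
    split_ifs
    · exact hf _
    · exact h0

/-- length of the resultant -/
theorem len_resultant {σ : Type*} (g G : (MvPolynomial σ ℤ)[X]) (L M : ℕ) (hL1 : 1 ≤ L)
    (hg : ∀ k, len (g.coeff k) ≤ L) (hG : ∀ k, len (G.coeff k) ≤ L)
    (hM : g.natDegree + G.natDegree ≤ M) : len (resultant g G) ≤ M.factorial * L ^ M := by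
  have h1 := len_det (sylvester g G g.natDegree G.natDegree) L
    (fun i j => sylvester_entry (fun F => len F ≤ L) (by simp) g G _ _ hg hG i j)
  rw [Fintype.card_fin] at h1
  refine h1.trans (Nat.mul_le_mul (Nat.factorial_le hM) (Nat.pow_le_pow_right hL1 hM))

theorem totalDegree_resultant {σ : Type*} (g G : (MvPolynomial σ ℤ)[X]) (D M : ℕ)
    (hg : ∀ k, (g.coeff k).totalDegree ≤ D) (hG : ∀ k, (G.coeff k).totalDegree ≤ D)
    (hM : g.natDegree + G.natDegree ≤ M) : (resultant g G).totalDegree ≤ M * D := by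
  have h1 := totalDegree_det (sylvester g G g.natDegree G.natDegree) D
    (fun i j => sylvester_entry (fun F => F.totalDegree ≤ D) (by simp) g G _ _ hg hG i j)
  rw [Fintype.card_fin] at h1
  exact h1.trans (Nat.mul_le_mul_right _ hM)

/-- **(K4)** elimination of the last variable. -/
theorem exists_elim {σ : Type*} (g G : (MvPolynomial σ ℤ)[X]) (hg : Irreducible g)
    (hdeg : 1 ≤ g.natDegree) (h : ¬ g ∣ G) (L D M : ℕ) (hL1 : 1 ≤ L)
    (hgL : ∀ k, len (g.coeff k) ≤ L) (hGL : ∀ k, len (G.coeff k) ≤ L)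
    (hgD : ∀ k, (g.coeff k).totalDegree ≤ D) (hGD : ∀ k, (G.coeff k).totalDegree ≤ D)
    (hM : g.natDegree + G.natDegree ≤ M) :
    ∃ H : MvPolynomial σ ℤ, H ≠ 0 ∧ H.totalDegree ≤ M * D ∧ len H ≤ M.factorial * L ^ M ∧
      ∀ (S : Type) [CommRing S] (φ : MvPolynomial σ ℤ →+* S) (x : S),
        g.eval₂ φ x = 0 → G.eval₂ φ x = 0 → φ H = 0 :=
  ⟨resultant g G, resultant_ne_zero_of_irreducible hg hdeg h,
    totalDegree_resultant g G D M hgD hGD hM, len_resultant g G L M hL1 hgL hGL hM,
    fun _ _ φ x h1 h2 => map_resultant_eq_zero φ g G hdeg x h1 h2⟩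

/-- a product of distinct primes `≥ Q` dividing `v ≠ 0` -/
theorem pow_card_le_natAbs (v : ℤ) (hv : v ≠ 0) (Q : ℕ) (s : Finset ℕ)
    (hs : ∀ l ∈ s, l.Prime ∧ (l : ℤ) ∣ v ∧ Q ≤ l) : Q ^ s.card ≤ v.natAbs := by
  have h1 : ∏ l ∈ s, l ∣ v.natAbs := by
    refine Finset.prod_primes_dvd _ (fun l hl => (hs l hl).1.prime) fun l hl => ?_
    exact Int.natCast_dvd.mp (hs l hl).2.1
  calc Q ^ s.card = ∏ _l ∈ s, Q := by rw [Finset.prod_const]
    _ ≤ ∏ l ∈ s, l := Finset.prod_le_prod (fun _ _ => Nat.zero_le _) fun l hl => (hs l hl).2.2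
    _ ≤ v.natAbs := Nat.le_of_dvd (Int.natAbs_pos.mpr hv) h1

/-- **(K3)** if `|v| < Q ^ c` then fewer than `c` primes `≥ Q` divide `v`. -/
theorem card_lt_of_natAbs_lt (v : ℤ) (hv : v ≠ 0) (Q c : ℕ) (hQ : 1 ≤ Q) (hvc : v.natAbs < Q ^ c)
    (s : Finset ℕ) (hs : ∀ l ∈ s, l.Prime ∧ (l : ℤ) ∣ v ∧ Q ≤ l) : s.card < c := by
  by_contra hcon
  push Not at hcon
  have h1 := pow_card_le_natAbs v hv Q s hs
  have h2 : Q ^ c ≤ Q ^ s.card := Nat.pow_le_pow_right hQ hcon
  omega

end Elim

section Bezout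

open Polynomial

theorem eval_kron_one (E : ℕ) (F : MvPolynomial (Fin 1) ℤ) (c : ℤ) :
    (kron 1 E F).eval c = MvPolynomial.eval (fun _ => c) F := by
  have h : (Polynomial.evalRingHom c).comp (kron 1 E) = MvPolynomial.eval (fun _ : Fin 1 => c) := by
    apply MvPolynomial.ringHom_ext
    · intro a; simp [kron]
    · intro i
      have hi : i = 0 := Subsingleton.elim _ _
      subst hi
      simp [kron]
  exact congrArg (fun f => f F) h

theorem X_sub_C_dvd_sub (c : ℤ) (a : MvPolynomial (Fin 1) ℤ) :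
    (MvPolynomial.X 0 - MvPolynomial.C c) ∣ a - MvPolynomial.C (MvPolynomial.eval (fun _ => c) a) := by
  induction a using MvPolynomial.induction_on with
  | C b => simp
  | add p q hp hq =>
      rw [map_add, map_add]
      have h := dvd_add hp hq
      convert h using 1; ring
  | mul_X p i hp =>
      have hi : i = 0 := Subsingleton.elim _ _
      subst hi
      rw [map_mul, map_mul, MvPolynomial.eval_X]
      have h : p * MvPolynomial.X 0 -
          MvPolynomial.C (MvPolynomial.eval (fun _ => c) p) * MvPolynomial.C c =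
          (p - MvPolynomial.C (MvPolynomial.eval (fun _ => c) p)) * MvPolynomial.X 0 +
          MvPolynomial.C (MvPolynomial.eval (fun _ => c) p) *
            (MvPolynomial.X (0 : Fin 1) - MvPolynomial.C c) := by ring
      rw [h]
      exact dvd_add (hp.mul_right _) (dvd_mul_left _ _)

theorem X_sub_C_dvd (c : ℤ) (a : MvPolynomial (Fin 1) ℤ) (h : MvPolynomial.eval (fun _ => c) a = 0) :
    (MvPolynomial.X 0 - MvPolynomial.C c) ∣ a := by
  have := X_sub_C_dvd_sub c a
  rwa [h, map_zero, sub_zero] at this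

theorem eval₂_finSuccEquiv {r : ℕ} (F : MvPolynomial (Fin (r + 1)) ℤ) (x : Fin (r + 1) → ℤ) :
    (MvPolynomial.finSuccEquiv ℤ r F).eval₂ (MvPolynomial.eval (fun i : Fin r => x i.succ)) (x 0) =
      MvPolynomial.eval x F := by
  have h := MvPolynomial.eval_eq_eval_mv_eval' (fun i : Fin r => x i.succ) (x 0) F
  rw [Fin.cons_self_tail x |> fun h => (show Fin.cons (x 0) (fun i : Fin r => x i.succ) = x from h)] at h
  rw [h, Polynomial.eval_map]

/-- one fibre -/
theorem map_ne_zero_or (g G : MvPolynomial (Fin 2) ℤ) (hg : Irreducible g) (h : ¬ g ∣ G) (c : ℤ) :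
    (MvPolynomial.finSuccEquiv ℤ 1 g).map (MvPolynomial.eval (fun _ => c)) ≠ 0 ∨
      (MvPolynomial.finSuccEquiv ℤ 1 G).map (MvPolynomial.eval (fun _ => c)) ≠ 0 := by
  by_contra hcon
  push Not at hcon
  obtain ⟨h1, h2⟩ := hcon
  set ℓ : MvPolynomial (Fin 1) ℤ := MvPolynomial.X 0 - MvPolynomial.C c with hℓ
  have hdvd : ∀ F : (MvPolynomial (Fin 1) ℤ)[X], F.map (MvPolynomial.eval (fun _ => c)) = 0 →
      Polynomial.C ℓ ∣ F := by
    intro F hF
    rw [Polynomial.C_dvd_iff_dvd_coeff]
    intro i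
    apply X_sub_C_dvd
    have := congrArg (fun p => Polynomial.coeff p i) hF
    simpa [Polynomial.coeff_map] using this
  have hg' : Irreducible (MvPolynomial.finSuccEquiv ℤ 1 g) :=
    (MulEquiv.irreducible_iff (MvPolynomial.finSuccEquiv ℤ 1)).mpr hg
  obtain ⟨u, hu⟩ := hdvd _ h1
  have hℓu : ¬ IsUnit (Polynomial.C ℓ) := by
    rw [Polynomial.isUnit_C]
    intro hun
    have h3 := hun.map (MvPolynomial.eval (fun _ : Fin 1 => c))
    rw [hℓ, map_sub, MvPolynomial.eval_X, MvPolynomial.eval_C, sub_self] at h3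
    exact not_isUnit_zero h3
  have hunit : IsUnit u := (hg'.isUnit_or_isUnit hu).resolve_left hℓu
  apply h
  rw [← map_dvd_iff (MvPolynomial.finSuccEquiv ℤ 1)]
  rw [hu]
  exact (hunit.mul_right_dvd).mpr (hdvd _ h2)

/-- **(K5)** an irreducible `g` and `G` not divisible by `g` have boundedly many common integer
zeros in the plane. -/
theorem card_common_zeros (D : ℕ) (g G : MvPolynomial (Fin 2) ℤ) (hg : Irreducible g)
    (h : ¬ g ∣ G) (hgD : g.totalDegree ≤ D) (hGD : G.totalDegree ≤ D) (s : Finset (Fin 2 → ℤ))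
    (hs : ∀ x ∈ s, MvPolynomial.eval x g = 0 ∧ MvPolynomial.eval x G = 0) :
    s.card ≤ D * (2 * D * D + D + 1) := by
  classical
  set g' := MvPolynomial.finSuccEquiv ℤ 1 g with hg'
  set G' := MvPolynomial.finSuccEquiv ℤ 1 G with hG'
  have hg'irr : Irreducible g' :=
    (MulEquiv.irreducible_iff (MvPolynomial.finSuccEquiv ℤ 1)).mpr hg
  have hdeg : ∀ F : MvPolynomial (Fin 2) ℤ, F.totalDegree ≤ D →
      (MvPolynomial.finSuccEquiv ℤ 1 F).natDegree ≤ D := by
    intro F hF
    rw [MvPolynomial.natDegree_finSuccEquiv]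
    exact (MvPolynomial.degreeOf_le_totalDegree F 0).trans hF
  have hcoeff : ∀ F : MvPolynomial (Fin 2) ℤ, F.totalDegree ≤ D → ∀ k,
      ((MvPolynomial.finSuccEquiv ℤ 1 F).coeff k).totalDegree ≤ D := by
    intro F hF k
    by_cases h0 : (MvPolynomial.finSuccEquiv ℤ 1 F).coeff k = 0
    · rw [h0]; simp
    · have := MvPolynomial.totalDegree_coeff_finSuccEquiv_add_le F k h0
      omega
  have hev : ∀ F : MvPolynomial (Fin 2) ℤ, ∀ x : Fin 2 → ℤ,
      (MvPolynomial.finSuccEquiv ℤ 1 F).eval₂ (MvPolynomial.eval (fun _ => x 1)) (x 0) =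
        MvPolynomial.eval x F := by
    intro F x
    rw [← eval₂_finSuccEquiv F x]
    congr 2
    funext i
    have hi : i = 0 := Subsingleton.elim _ _
    subst hi; rfl
  -- number of values of `x 1`
  have himg : (s.image (fun x => x 1)).card ≤ 2 * D * D + D + 1 := by
    obtain ⟨E, P, hE, hP0, hPdeg, hP⟩ : ∃ (E : ℕ) (P : MvPolynomial (Fin 1) ℤ),
        E ≤ 2 * D * D + D ∧ P ≠ 0 ∧ P.totalDegree ≤ E ∧
        ∀ x ∈ s, MvPolynomial.eval (fun _ => x 1) P = 0 := by
      rcases Nat.eq_zero_or_pos g'.natDegree with h0 | h0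
      · refine ⟨D, g'.coeff 0, by omega, ?_, hcoeff g hgD 0, fun x hx => ?_⟩
        · intro h1
          apply hg'irr.ne_zero
          rw [Polynomial.eq_C_of_natDegree_eq_zero h0, h1, map_zero]
        · have h1 := hev g x
          rw [(hs x hx).1, ← hg', Polynomial.eq_C_of_natDegree_eq_zero h0, Polynomial.eval₂_C] at h1
          exact h1
      · have hndvd : ¬ g' ∣ G' := by
          rw [hg', hG', map_dvd_iff]
          exact h
        refine ⟨2 * D * D, resultant g' G', by omega,
          resultant_ne_zero_of_irreducible hg'irr h0 hndvd,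
          totalDegree_resultant g' G' D (2 * D) (hcoeff g hgD) (hcoeff G hGD) ?_, fun x hx => ?_⟩
        · have h1 : g'.natDegree ≤ D := hdeg g hgD
          have h2 : G'.natDegree ≤ D := hdeg G hGD
          omega
        · refine map_resultant_eq_zero _ g' G' h0 (x 0) ?_ ?_
          · rw [hg', hev]; exact (hs x hx).1
          · rw [hG', hev]; exact (hs x hx).2
    have hdegOf : ∀ i, P.degreeOf i ≤ E := fun i =>
      (MvPolynomial.degreeOf_le_totalDegree P i).trans hPdeg
    have hK : kron 1 E P ≠ 0 := kron_ne_zero hdegOf hP0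
    have hsub : s.image (fun x => x 1) ⊆ (kron 1 E P).roots.toFinset := by
      intro c hc
      rw [Finset.mem_image] at hc
      obtain ⟨x, hx, rfl⟩ := hc
      rw [Multiset.mem_toFinset, Polynomial.mem_roots hK, Polynomial.IsRoot, eval_kron_one]
      exact hP x hx
    calc (s.image (fun x => x 1)).card ≤ (kron 1 E P).roots.toFinset.card := Finset.card_le_card hsub
      _ ≤ Multiset.card (kron 1 E P).roots := Multiset.toFinset_card_le _
      _ ≤ (kron 1 E P).natDegree := Polynomial.card_roots' _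
      _ ≤ (E + 1) ^ 1 := natDegree_kron_le P hdegOf
      _ ≤ 2 * D * D + D + 1 := by rw [pow_one]; omega
  -- fibres
  have hfib : ∀ c ∈ s.image (fun x => x 1), (s.filter (fun x => x 1 = c)).card ≤ D := by
    intro c _
    obtain ⟨F, hFD, hF0, hFs⟩ : ∃ F : MvPolynomial (Fin 2) ℤ, F.totalDegree ≤ D ∧
        (MvPolynomial.finSuccEquiv ℤ 1 F).map (MvPolynomial.eval (fun _ => c)) ≠ 0 ∧
        ∀ x ∈ s, MvPolynomial.eval x F = 0 := by
      rcases map_ne_zero_or g G hg h c with h1 | h1
      · exact ⟨g, hgD, h1, fun x hx => (hs x hx).1⟩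
      · exact ⟨G, hGD, h1, fun x hx => (hs x hx).2⟩
    set Q := (MvPolynomial.finSuccEquiv ℤ 1 F).map (MvPolynomial.eval (fun _ : Fin 1 => c)) with hQ
    have hinj : Set.InjOn (fun x : Fin 2 → ℤ => x 0) (s.filter (fun x => x 1 = c) : Set _) := by
      intro x hx y hy hxy
      rw [Finset.mem_coe, Finset.mem_filter] at hx hy
      funext i
      fin_cases i
      · exact hxy
      · exact hx.2.trans hy.2.symm
    have hsub : (s.filter (fun x => x 1 = c)).image (fun x => x 0) ⊆ Q.roots.toFinset := by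
      intro y hy
      rw [Finset.mem_image] at hy
      obtain ⟨x, hx, rfl⟩ := hy
      rw [Finset.mem_filter] at hx
      rw [Multiset.mem_toFinset, Polynomial.mem_roots hF0, Polynomial.IsRoot, hQ,
        Polynomial.eval_map]
      have h1 := hev F x
      rw [hx.2] at h1
      rw [h1]
      exact hFs x hx.1
    calc (s.filter (fun x => x 1 = c)).card
        = ((s.filter (fun x => x 1 = c)).image (fun x => x 0)).card :=
          (Finset.card_image_of_injOn hinj).symm
      _ ≤ Q.roots.toFinset.card := Finset.card_le_card hsub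
      _ ≤ Multiset.card Q.roots := Multiset.toFinset_card_le _
      _ ≤ Q.natDegree := Polynomial.card_roots' _
      _ ≤ D := (Polynomial.natDegree_map_le).trans (hdeg F hFD)
  calc s.card ≤ D * (s.image (fun x => x 1)).card :=
        Finset.card_le_mul_card_image s D hfib
    _ ≤ _ := Nat.mul_le_mul_left _ himg

end Bezout

section Factors

/-- **(K6)** a nonzero element of a UFD killed by a ring hom to a domain has an irreducible factor
killed by it. -/
theorem exists_irreducible_dvd_of_map_eq_zero {R S : Type*} [CommRing R] [IsDomain R]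
    [UniqueFactorizationMonoid R] [CommRing S] [IsDomain S] (φ : R →+* S) {G : R} (hG : G ≠ 0)
    (h : φ G = 0) : ∃ g : R, Irreducible g ∧ g ∣ G ∧ φ g = 0 := by
  classical
  obtain ⟨u, hu⟩ := UniqueFactorizationMonoid.factors_prod hG
  have h1 : φ (UniqueFactorizationMonoid.factors G).prod = 0 := by
    have h2 : φ (UniqueFactorizationMonoid.factors G).prod * φ (u : R) = 0 := by
      rw [← map_mul, hu, h]
    rcases mul_eq_zero.mp h2 with h3 | h3
    · exact h3
    · exfalso
      have h4 : IsUnit (φ (u : R)) := u.isUnit.map φ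
      rw [h3] at h4
      exact not_isUnit_zero h4
  rw [map_multiset_prod] at h1
  have h5 := Multiset.prod_eq_zero_iff.mp h1
  rw [Multiset.mem_map] at h5
  obtain ⟨g, hg, hg0⟩ := h5
  exact ⟨g, UniqueFactorizationMonoid.irreducible_of_factor g hg,
    UniqueFactorizationMonoid.dvd_of_mem_factors hg, hg0⟩

/-- total degree is additive on products of nonzero polynomials -/
theorem totalDegree_multiset_prod {r : ℕ} (s : Multiset (MvPolynomial (Fin r) ℤ))
    (h : ∀ g ∈ s, g ≠ 0) : s.prod.totalDegree = (s.map MvPolynomial.totalDegree).sum := by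
  induction s using Multiset.induction_on with
  | empty => simp
  | cons a s ih =>
      have h1 : ∀ g ∈ s, g ≠ 0 := fun g hg => h g (Multiset.mem_cons_of_mem hg)
      rw [Multiset.prod_cons, Multiset.map_cons, Multiset.sum_cons,
        MvPolynomial.totalDegree_mul_of_isDomain (h a (Multiset.mem_cons_self a s)), ih h1]
      rw [Ne, Multiset.prod_eq_zero_iff]
      exact fun h0 => h1 0 h0 rfl

/-- number of nonconstant irreducible factors (with multiplicity) -/
theorem card_factors_le {r : ℕ} (G : MvPolynomial (Fin r) ℤ) (hG : G ≠ 0) :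
    Multiset.card ((UniqueFactorizationMonoid.factors G).filter (fun g => g.totalDegree ≠ 0)) ≤
      G.totalDegree := by
  classical
  have h0 : ∀ g ∈ UniqueFactorizationMonoid.factors G, g ≠ 0 := fun g hg =>
    (UniqueFactorizationMonoid.irreducible_of_factor g hg).ne_zero
  have hprod0 : (UniqueFactorizationMonoid.factors G).prod ≠ 0 := by
    rw [Ne, Multiset.prod_eq_zero_iff]
    exact fun h1 => h0 0 h1 rfl
  obtain ⟨u, hu⟩ := UniqueFactorizationMonoid.factors_prod hG
  have h1 : (UniqueFactorizationMonoid.factors G).prod.totalDegree ≤ G.totalDegree := by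
    calc (UniqueFactorizationMonoid.factors G).prod.totalDegree
        ≤ (UniqueFactorizationMonoid.factors G).prod.totalDegree +
          (u : MvPolynomial (Fin r) ℤ).totalDegree := Nat.le_add_right _ _
      _ = G.totalDegree := by
          rw [← MvPolynomial.totalDegree_mul_of_isDomain hprod0 u.ne_zero, hu]
  rw [totalDegree_multiset_prod _ h0] at h1
  refine le_trans ?_ h1
  generalize UniqueFactorizationMonoid.factors G = s
  induction s using Multiset.induction_on with
  | empty => simp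
  | cons a s ih =>
      rw [Multiset.map_cons, Multiset.sum_cons]
      by_cases ha : a.totalDegree ≠ 0
      · rw [Multiset.filter_cons_of_pos (p := fun g : MvPolynomial (Fin r) ℤ => g.totalDegree ≠ 0) _ ha,
          Multiset.card_cons]
        omega
      · rw [Multiset.filter_cons_of_neg (p := fun g : MvPolynomial (Fin r) ℤ => g.totalDegree ≠ 0) _ ha]
        omega

end Factors

end Crest.Agent.R22.PolyKit
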