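import Mathlib
import Crest.Prelude.Def_PowerFree

set_option autoImplicit false

namespace Crest.Agent.R22.SieveRed

open Polynomial Filter Topology Crest.NumberTheoryR

/-! ### Roots modulo prime powers -/

/-- Bezout identity for an integer polynomial that is irreducible over the rationals. -/
theorem exists_bezout (f : ℤ[X]) (hirr : Irreducible (f.map (Int.castRingHom ℚ))) :
    ∃ (u v : ℤ[X]) (r : ℤ), r ≠ 0 ∧ u * f + v * derivative f = C r := by
  have hsep := hirr.separable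
  obtain ⟨a, b, hab⟩ := hsep
  obtain ⟨m, hmm, hm⟩ := IsLocalization.integerNormalization_spec (nonZeroDivisors ℤ) a
  obtain ⟨n, hnm, hn⟩ := IsLocalization.integerNormalization_spec (nonZeroDivisors ℤ) b
  set a' := IsLocalization.integerNormalization (nonZeroDivisors ℤ) a
  set b' := IsLocalization.integerNormalization (nonZeroDivisors ℤ) b
  have hm0 : (m : ℤ) ≠ 0 := nonZeroDivisors.ne_zero hmm
  have hn0 : (n : ℤ) ≠ 0 := nonZeroDivisors.ne_zero hnm
  refine ⟨(n : ℤ[X]) * a', (m : ℤ[X]) * b', m * n, mul_ne_zero hm0 hn0, ?_⟩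
  have hinj : Function.Injective (Polynomial.map (Int.castRingHom ℚ)) :=
    Polynomial.map_injective _ (Int.castRingHom ℚ).injective_int
  apply hinj
  have h1 : a'.map (Int.castRingHom ℚ) = (m : ℚ[X]) * a := by
    rw [zsmul_eq_mul] at hm
    exact hm
  have h2 : b'.map (Int.castRingHom ℚ) = (n : ℚ[X]) * b := by
    rw [zsmul_eq_mul] at hn
    exact hn
  rw [Polynomial.map_add, Polynomial.map_mul, Polynomial.map_mul, Polynomial.map_mul,
    Polynomial.map_mul, h1, h2, Polynomial.map_C, ← Polynomial.derivative_map,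
    Polynomial.map_intCast, Polynomial.map_intCast]
  have : (n : ℚ[X]) * ((m : ℚ[X]) * a) * f.map (Int.castRingHom ℚ) +
      (m : ℚ[X]) * ((n : ℚ[X]) * b) * derivative (f.map (Int.castRingHom ℚ)) =
      (m : ℚ[X]) * (n : ℚ[X]) * (a * f.map (Int.castRingHom ℚ) +
        b * derivative (f.map (Int.castRingHom ℚ))) := by ring
  rw [this, hab]
  simp

/-- Roots modulo `p ^ k` that agree modulo `p` agree modulo `p ^ k`. -/
theorem root_unique (f u v : ℤ[X]) (r : ℤ) (h : u * f + v * derivative f = C r)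
    (p k : ℕ) (hp : p.Prime) (hk : 1 ≤ k) (hr : ¬ (p : ℤ) ∣ r) (a b : ℤ)
    (ha : (p : ℤ) ^ k ∣ f.eval a) (hb : (p : ℤ) ^ k ∣ f.eval b) (hab : (p : ℤ) ∣ a - b) :
    (p : ℤ) ^ k ∣ a - b := by
  obtain ⟨c, hc⟩ := f.binomExpansion b (a - b)
  rw [add_sub_cancel] at hc
  have hpi : Prime (p : ℤ) := Nat.prime_iff_prime_int.mp hp
  have hpk : (p : ℤ) ∣ (p : ℤ) ^ k := dvd_pow_self _ (by omega)
  have h1 : (p : ℤ) ^ k ∣ (a - b) * ((derivative f).eval b + c * (a - b)) := by
    have : (a - b) * ((derivative f).eval b + c * (a - b)) = f.eval a - f.eval b := by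
      rw [hc]; ring
    rw [this]; exact dvd_sub ha hb
  have h2 : ¬ (p : ℤ) ∣ ((derivative f).eval b + c * (a - b)) := by
    intro hd
    have h3 : (p : ℤ) ∣ (derivative f).eval b := by
      have := dvd_sub hd (hab.mul_left c)
      simpa using this
    apply hr
    have h4 := congrArg (Polynomial.eval b) h
    simp only [eval_add, eval_mul, eval_C] at h4
    rw [← h4]
    exact dvd_add ((hpk.trans hb).mul_left _) (h3.mul_left _)
  have hcop : IsCoprime ((p : ℤ) ^ k) ((derivative f).eval b + c * (a - b)) :=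
    IsCoprime.pow_left ((Prime.coprime_iff_not_dvd hpi).mpr h2)
  exact hcop.dvd_of_dvd_mul_right h1

theorem rootCount_le (f u v : ℤ[X]) (r : ℤ) (h : u * f + v * derivative f = C r)
    (p k : ℕ) (hp : p.Prime) (hk : 1 ≤ k) (hr : ¬ (p : ℤ) ∣ r) :
    polyRootCountMod f (p ^ k) ≤ f.natDegree := by
  classical
  have : Fact p.Prime := ⟨hp⟩
  set g : (ZMod p)[X] := f.map (Int.castRingHom (ZMod p)) with hg
  have hg0 : g ≠ 0 := by
    intro h0
    apply hr
    have h4 := congrArg (Polynomial.map (Int.castRingHom (ZMod p))) h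
    simp only [Polynomial.map_add, Polynomial.map_mul, Polynomial.map_C] at h4
    rw [← hg, ← Polynomial.derivative_map, ← hg, h0] at h4
    simp only [mul_zero, derivative_zero, add_zero, eq_intCast] at h4
    have h5 := congrArg (Polynomial.coeff · 0) h4
    simp only [coeff_zero, coeff_C_zero] at h5
    exact (ZMod.intCast_zmod_eq_zero_iff_dvd r p).mp h5.symm
  have hpk : (p : ℤ) ∣ (p : ℤ) ^ k := dvd_pow_self _ (by omega)
  unfold polyRootCountMod
  calc _ ≤ g.roots.toFinset.card := by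
        apply Finset.card_le_card_of_injOn (fun a : ℕ => (a : ZMod p))
        · intro a ha
          simp only [Finset.coe_filter, Finset.mem_range, Set.mem_ofPred_eq] at ha
          simp only [Finset.mem_coe, Multiset.mem_toFinset]
          rw [Polynomial.mem_roots hg0, Polynomial.IsRoot, hg]
          have : (f.map (Int.castRingHom (ZMod p))).eval ((a : ℕ) : ZMod p) =
              ((f.eval (a : ℤ) : ℤ) : ZMod p) := by
            rw [Polynomial.eval_map]
            have := Polynomial.hom_eval₂ f (RingHom.id ℤ) (Int.castRingHom (ZMod p)) (a : ℤ)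
            simp only [RingHom.comp_id, eq_intCast, Int.cast_natCast] at this
            rw [← this]
            simp
          rw [this, ZMod.intCast_zmod_eq_zero_iff_dvd]
          refine hpk.trans ?_
          have := ha.2
          push_cast at this
          exact this
        · intro a ha b hb hab
          simp only [Finset.coe_filter, Finset.mem_range, Set.mem_ofPred_eq] at ha hb
          simp only at hab
          have h1 : (p : ℤ) ∣ (a : ℤ) - b := by
            rw [← ZMod.intCast_zmod_eq_zero_iff_dvd]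
            push_cast
            rw [hab, sub_self]
          have ha2 := ha.2
          have hb2 := hb.2
          push_cast at ha2 hb2
          have h2 := root_unique f u v r h p k hp hk hr a b ha2 hb2 h1
          have h3 : ((a : ℤ)) ≡ b [ZMOD ((p ^ k : ℕ) : ℤ)] := by
            push_cast
            exact (Int.modEq_iff_dvd.mpr (by
              have := (dvd_neg.mpr h2); simpa using this))
          have h4 : a ≡ b [MOD p ^ k] := (Int.natCast_modEq_iff).mp h3
          exact Nat.ModEq.eq_of_lt_of_lt h4 ha.1 hb.1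
    _ ≤ Multiset.card g.roots := Multiset.toFinset_card_le _
    _ ≤ g.natDegree := Polynomial.card_roots' g
    _ ≤ f.natDegree := Polynomial.natDegree_map_le

/-! ### Counting in residue classes -/

theorem eval_dvd_of_modEq (f : ℤ[X]) (q a b : ℕ) (h : a ≡ b [MOD q])
    (ha : (q : ℤ) ∣ f.eval (a : ℤ)) : (q : ℤ) ∣ f.eval (b : ℤ) := by
  have h1 : (q : ℤ) ∣ (b : ℤ) - a := (Nat.modEq_iff_dvd.mp h)
  have h2 : (q : ℤ) ∣ f.eval (b : ℤ) - f.eval (a : ℤ) :=
    h1.trans (Polynomial.sub_dvd_eval_sub _ _ _)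
  have := dvd_add h2 ha
  simpa using this

theorem eval_dvd_iff (f : ℤ[X]) (q a b : ℕ) (h : a ≡ b [MOD q]) :
    (q : ℤ) ∣ f.eval (a : ℤ) ↔ (q : ℤ) ∣ f.eval (b : ℤ) :=
  ⟨eval_dvd_of_modEq f q a b h, eval_dvd_of_modEq f q b a h.symm⟩

theorem card_dvd_le (f : ℤ[X]) (q N : ℕ) (hq : 0 < q) :
    ((Finset.Icc 1 N).filter (fun n : ℕ => (q : ℤ) ∣ f.eval (n : ℤ))).card ≤
      polyRootCountMod f q * (N / q + 1) := by
  unfold polyRootCountMod
  rw [← Finset.card_range (N / q + 1), ← Finset.card_product]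
  apply Finset.card_le_card_of_injOn (fun n => (n % q, n / q))
  · intro n hn
    simp only [Finset.coe_filter, Finset.mem_Icc, Set.mem_ofPred_eq] at hn
    simp only [Finset.coe_product, Set.mem_prod, Finset.mem_coe, Finset.mem_filter,
      Finset.mem_range]
    refine ⟨⟨Nat.mod_lt _ hq, ?_⟩, ?_⟩
    · exact (eval_dvd_iff f q (n % q) n (Nat.mod_modEq n q)).mpr hn.2
    · exact Nat.lt_succ_of_le (Nat.div_le_div_right hn.1.2)
  · intro a _ b _ hab
    simp only [Prod.mk.injEq] at hab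
    rw [← Nat.mod_add_div a q, ← Nat.mod_add_div b q, hab.1, hab.2]

/-- number of elements of a periodic set in an interval -/
theorem periodic_card (P : ℕ → Prop) [DecidablePred P] (q : ℕ) (hP : Function.Periodic P q)
    (t : ℕ) : ((Finset.Ico 1 (1 + q * t)).filter P).card =
      t * ((Finset.range q).filter P).card := by
  induction t with
  | zero => simp
  | succ t ih =>
    have h1 : Finset.Ico 1 (1 + q * (t + 1)) =
        Finset.Ico 1 (1 + q * t) ∪ Finset.Ico (1 + q * t) (1 + q * t + q) := by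
      rw [Finset.Ico_union_Ico_eq_Ico (by omega) (by omega)]
      congr 1
      ring
    have h2 : Disjoint ((Finset.Ico 1 (1 + q * t)).filter P)
        ((Finset.Ico (1 + q * t) (1 + q * t + q)).filter P) := by
      apply Finset.disjoint_filter_filter
      exact Finset.Ico_disjoint_Ico_consecutive _ _ _
    rw [h1, Finset.filter_union, Finset.card_union_of_disjoint h2, ih,
      Nat.filter_Ico_card_eq_of_periodic _ _ _ hP, Nat.count_eq_card_filter_range]
    ring

theorem periodic_card_bound (P : ℕ → Prop) [DecidablePred P] (q : ℕ) (hq : 0 < q)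
    (hP : Function.Periodic P q) (N : ℕ) :
    |(((Finset.Icc 1 N).filter P).card : ℝ) -
      N * ((((Finset.range q).filter P).card : ℝ) / q)| ≤ q := by
  set K := ((Finset.range q).filter P).card with hK
  have hKq : K ≤ q := by
    rw [hK]
    exact (Finset.card_filter_le _ _).trans (by simp)
  set t := N / q with ht
  have hN : q * t + N % q = N := Nat.div_add_mod N q
  have hr : N % q < q := Nat.mod_lt _ hq
  have h1 : t * K ≤ ((Finset.Icc 1 N).filter P).card := by
    rw [hK, ← periodic_card P q hP t]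
    apply Finset.card_le_card
    apply Finset.filter_subset_filter
    intro x hx
    simp only [Finset.mem_Ico, Finset.mem_Icc] at hx ⊢
    omega
  have h2 : ((Finset.Icc 1 N).filter P).card ≤ t * K + N % q := by
    rw [hK, ← periodic_card P q hP t]
    have : (Finset.Icc 1 N).filter P ⊆
        (Finset.Ico 1 (1 + q * t)).filter P ∪ Finset.Ico (1 + q * t) (1 + N) := by
      intro x hx
      simp only [Finset.mem_filter, Finset.mem_Icc, Finset.mem_union, Finset.mem_Ico] at hx ⊢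
      by_cases hx2 : x < 1 + q * t
      · exact Or.inl ⟨⟨hx.1.1, hx2⟩, hx.2⟩
      · right; omega
    refine (Finset.card_le_card this).trans ((Finset.card_union_le _ _).trans ?_)
    rw [Nat.card_Ico]
    omega
  have hqR : (0 : ℝ) < q := by exact_mod_cast hq
  have h3 : (N : ℝ) = q * t + (N % q : ℕ) := by exact_mod_cast hN.symm
  have h4 : (N : ℝ) * ((K : ℝ) / q) = t * K + (N % q : ℕ) * K / q := by
    rw [h3]; field_simp
  have h5 : ((N % q : ℕ) : ℝ) * K / q ≤ q := by
    rw [div_le_iff₀ hqR]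
    have a1 : ((N % q : ℕ) : ℝ) ≤ q := by exact_mod_cast hr.le
    have a2 : (K : ℝ) ≤ q := by exact_mod_cast hKq
    exact mul_le_mul a1 a2 (by positivity) (by positivity)
  have h6 : 0 ≤ ((N % q : ℕ) : ℝ) * K / q := by positivity
  have h1' : (t : ℝ) * K ≤ (((Finset.Icc 1 N).filter P).card : ℝ) := by exact_mod_cast h1
  have h2' : (((Finset.Icc 1 N).filter P).card : ℝ) ≤ t * K + (N % q : ℕ) := by
    exact_mod_cast h2
  have h7 : ((N % q : ℕ) : ℝ) ≤ q := by exact_mod_cast hr.le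
  rw [h4, abs_le]
  constructor <;> linarith

theorem card_crt (A B : ℕ → Prop) [DecidablePred A] [DecidablePred B] (m n : ℕ)
    (hm : 0 < m) (hn : 0 < n) (hc : m.Coprime n)
    (hA : ∀ a b : ℕ, a ≡ b [MOD m] → (A a ↔ A b)) (hB : ∀ a b : ℕ, a ≡ b [MOD n] → (B a ↔ B b)) :
    ((Finset.range (m * n)).filter (fun a => A a ∧ B a)).card =
      ((Finset.range m).filter A).card * ((Finset.range n).filter B).card := by
  rw [← Finset.card_product]
  apply Finset.card_bij (fun a _ => (a % m, a % n))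
  · intro a ha
    simp only [Finset.mem_filter, Finset.mem_range, Finset.mem_product] at ha ⊢
    exact ⟨⟨Nat.mod_lt _ hm, (hA _ _ (Nat.mod_modEq a m)).mpr ha.2.1⟩,
      ⟨Nat.mod_lt _ hn, (hB _ _ (Nat.mod_modEq a n)).mpr ha.2.2⟩⟩
  · intro a ha b hb hab
    simp only [Finset.mem_filter, Finset.mem_range] at ha hb
    simp only [Prod.mk.injEq] at hab
    have : a ≡ b [MOD m * n] :=
      (Nat.modEq_and_modEq_iff_modEq_mul hc).mp ⟨hab.1, hab.2⟩
    exact Nat.ModEq.eq_of_lt_of_lt this ha.1 hb.1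
  · rintro ⟨x, y⟩ hxy
    simp only [Finset.mem_filter, Finset.mem_range, Finset.mem_product] at hxy
    obtain ⟨⟨hx, hAx⟩, ⟨hy, hBy⟩⟩ := hxy
    have hcr := (Nat.chineseRemainder hc x y).2
    refine ⟨(Nat.chineseRemainder hc x y : ℕ), ?_, ?_⟩
    · simp only [Finset.mem_filter, Finset.mem_range]
      exact ⟨Nat.chineseRemainder_lt_mul hc x y hm.ne' hn.ne',
        (hA _ _ hcr.1).mpr hAx, (hB _ _ hcr.2).mpr hBy⟩
    · simp only [Prod.mk.injEq]
      exact ⟨by rw [hcr.1, Nat.mod_eq_of_lt hx], by rw [hcr.2, Nat.mod_eq_of_lt hy]⟩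

/-- density of integers with `p ^ k ∤ f(n)` for all `p` in a finite set of primes -/
theorem card_sieved (f : ℤ[X]) (k : ℕ) (s : Finset ℕ) (hs : ∀ p ∈ s, p.Prime) :
    ((((Finset.range (∏ p ∈ s, p ^ k)).filter
      (fun a : ℕ => ∀ p ∈ s, ¬ ((p : ℤ) ^ k ∣ f.eval (a : ℤ)))).card : ℝ) /
        ((∏ p ∈ s, p ^ k : ℕ) : ℝ)) =
      ∏ p ∈ s, (1 - (polyRootCountMod f (p ^ k) : ℝ) / (p : ℝ) ^ k) := by
  classical
  induction s using Finset.induction_on with
  | empty => simp
  | insert p s hps ih =>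
    have hs' : ∀ p ∈ s, p.Prime := fun q hq => hs q (Finset.mem_insert_of_mem hq)
    have hp : p.Prime := hs p (Finset.mem_insert_self p s)
    have ih' := ih hs'
    rw [Finset.prod_insert hps, Finset.prod_insert hps, ← ih']
    have hc : (p ^ k).Coprime (∏ q ∈ s, q ^ k) := by
      apply Nat.Coprime.prod_right
      intro q hq
      apply Nat.Coprime.pow
      rw [Nat.coprime_primes hp (hs' q hq)]
      rintro rfl; exact hps hq
    have h0 : 0 < p ^ k := pow_pos hp.pos k
    have h0' : 0 < ∏ q ∈ s, q ^ k := Finset.prod_pos (fun q hq => pow_pos (hs' q hq).pos k)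
    have h1 := card_crt (fun a : ℕ => ¬ ((p : ℤ) ^ k ∣ f.eval (a : ℤ)))
      (fun a : ℕ => ∀ q ∈ s, ¬ ((q : ℤ) ^ k ∣ f.eval (a : ℤ))) (p ^ k) (∏ q ∈ s, q ^ k) h0 h0' hc
      (fun a b hab => by
        have := eval_dvd_iff f (p ^ k) a b hab
        push_cast at this
        rw [this])
      (fun a b hab => by
        refine forall₂_congr (fun q hq => ?_)
        have hd : q ^ k ∣ ∏ q ∈ s, q ^ k := Finset.dvd_prod_of_mem _ hq
        have := eval_dvd_iff f (q ^ k) a b (hab.of_dvd hd)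
        push_cast at this
        rw [this])
    have h2 : ((Finset.range (p ^ k * ∏ q ∈ s, q ^ k)).filter
        (fun a : ℕ => ∀ q ∈ insert p s, ¬ ((q : ℤ) ^ k ∣ f.eval (a : ℤ)))) =
        ((Finset.range (p ^ k * ∏ q ∈ s, q ^ k)).filter
        (fun a : ℕ => (¬ ((p : ℤ) ^ k ∣ f.eval (a : ℤ))) ∧
          ∀ q ∈ s, ¬ ((q : ℤ) ^ k ∣ f.eval (a : ℤ)))) := by
      apply Finset.filter_congr
      intro a _
      simp
    rw [h2, h1]
    have h3 : (((Finset.range (p ^ k)).filter
        (fun a : ℕ => ¬ ((p : ℤ) ^ k ∣ f.eval (a : ℤ)))).card : ℝ) =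
        (p : ℝ) ^ k - polyRootCountMod f (p ^ k) := by
      have h4 := Finset.card_filter_add_card_filter_not (s := Finset.range (p ^ k))
        (fun a : ℕ => ((p : ℤ) ^ k ∣ f.eval (a : ℤ)))
      have h5 : polyRootCountMod f (p ^ k) = ((Finset.range (p ^ k)).filter
        (fun a : ℕ => ((p : ℤ) ^ k ∣ f.eval (a : ℤ)))).card := by
        unfold polyRootCountMod
        push_cast
        rfl
      rw [Finset.card_range] at h4
      rw [h5, eq_sub_iff_add_eq]
      have h6 : (((Finset.range (p ^ k)).filter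
        (fun a : ℕ => ¬ ((p : ℤ) ^ k ∣ f.eval (a : ℤ)))).card +
        ((Finset.range (p ^ k)).filter
        (fun a : ℕ => ((p : ℤ) ^ k ∣ f.eval (a : ℤ)))).card) = p ^ k := by omega
      exact_mod_cast h6
    push_cast
    rw [h3]
    have hpR : (0 : ℝ) < (p : ℝ) ^ k := by exact_mod_cast h0
    have hsR : (0 : ℝ) < ∏ q ∈ s, (q : ℝ) ^ k := by exact_mod_cast h0'
    field_simp

/-! ### The limit -/

theorem tendsto_primeCounting_div :
    Tendsto (fun N : ℕ => (Nat.primeCounting N : ℝ) / N) atTop (𝓝 0) := by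
  have h1 := Chebyshev.eventually_primeCounting_le (ε := 1) one_pos
  have h2 : ∀ᶠ N : ℕ in atTop, (Nat.primeCounting N : ℝ) / N ≤ (Real.log 4 + 1) / Real.log N := by
    have h3 := tendsto_natCast_atTop_atTop (R := ℝ) |>.eventually h1
    filter_upwards [h3, eventually_gt_atTop 1] with N hN hN1
    rw [Nat.floor_natCast] at hN
    have hN0 : (0 : ℝ) < N := by exact_mod_cast (by omega : 0 < N)
    rw [div_le_iff₀ hN0]
    calc (Nat.primeCounting N : ℝ) ≤ (Real.log 4 + 1) * N / Real.log N := hN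
      _ = (Real.log 4 + 1) / Real.log N * N := by ring
  have h4 : Tendsto (fun N : ℕ => (Real.log 4 + 1) / Real.log N) atTop (𝓝 0) :=
    (Real.tendsto_log_atTop.comp tendsto_natCast_atTop_atTop).const_div_atTop _
  refine tendsto_of_tendsto_of_tendsto_of_le_of_le' tendsto_const_nhds h4 ?_ h2
  exact Eventually.of_forall (fun N => by positivity)

/-- primes up to `z` -/
def prs (z : ℕ) : Finset ℕ := (Finset.range (z + 1)).filter Nat.Prime

theorem mem_prs {z p : ℕ} : p ∈ prs z ↔ p ≤ z ∧ p.Prime := by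
  simp [prs]

open scoped Classical in
theorem card_medium (f u v : ℤ[X]) (r : ℤ) (h : u * f + v * derivative f = C r) (hr0 : r ≠ 0)
    (k : ℕ) (hk : 2 ≤ k) (z : ℕ) (hz : r.natAbs ≤ z) (hz0 : 0 < z) (N : ℕ) :
    (((Finset.Icc 1 N).filter (fun n : ℕ => ∃ p : ℕ, p.Prime ∧ z < p ∧ p ≤ N ∧
      (p : ℤ) ^ k ∣ f.eval (n : ℤ))).card : ℝ) ≤
      f.natDegree * (N / z + Nat.primeCounting N) := by
  classical
  set Q := (Finset.Ioc z N).filter Nat.Prime with hQ
  have h1 : ((Finset.Icc 1 N).filter (fun n : ℕ => ∃ p : ℕ, p.Prime ∧ z < p ∧ p ≤ N ∧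
      (p : ℤ) ^ k ∣ f.eval (n : ℤ))) ⊆
      Q.biUnion (fun p => (Finset.Icc 1 N).filter (fun n : ℕ => (p : ℤ) ^ k ∣ f.eval (n : ℤ))) := by
    intro n hn
    simp only [Finset.mem_filter] at hn
    obtain ⟨hn1, p, hp, hzp, hpN, hd⟩ := hn
    simp only [Finset.mem_biUnion, hQ, Finset.mem_filter, Finset.mem_Ioc]
    exact ⟨p, ⟨⟨hzp, hpN⟩, hp⟩, hn1, hd⟩
  have h2 : ∀ p ∈ Q, (((Finset.Icc 1 N).filter
      (fun n : ℕ => (p : ℤ) ^ k ∣ f.eval (n : ℤ))).card : ℝ) ≤
      f.natDegree * (N * ((p : ℝ) ^ 2)⁻¹ + 1) := by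
    intro p hp
    simp only [hQ, Finset.mem_filter, Finset.mem_Ioc] at hp
    obtain ⟨⟨hzp, hpN⟩, hp⟩ := hp
    have hpr : ¬ (p : ℤ) ∣ r := by
      intro hd
      have := Int.natAbs_dvd_natAbs.mpr hd
      rw [Int.natAbs_natCast] at this
      have := Nat.le_of_dvd (Int.natAbs_pos.mpr hr0) this
      omega
    have h3 := card_dvd_le f (p ^ k) N (pow_pos hp.pos k)
    have h4 := rootCount_le f u v r h p k hp (by omega) hpr
    have h5 : ((Finset.Icc 1 N).filter
      (fun n : ℕ => (p : ℤ) ^ k ∣ f.eval (n : ℤ))).card ≤ f.natDegree * (N / p ^ k + 1) := by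
      push_cast at h3
      exact h3.trans (Nat.mul_le_mul_right _ h4)
    have h6 : ((N / p ^ k : ℕ) : ℝ) ≤ N * ((p : ℝ) ^ 2)⁻¹ := by
      refine (Nat.cast_div_le).trans ?_
      rw [div_eq_mul_inv]
      apply mul_le_mul_of_nonneg_left _ (by positivity)
      push_cast
      have hp1 : (1 : ℝ) ≤ p := by exact_mod_cast hp.one_le
      have hp0 : (0 : ℝ) < p := by exact_mod_cast hp.pos
      gcongr
    calc _ ≤ ((f.natDegree * (N / p ^ k + 1) : ℕ) : ℝ) := by exact_mod_cast h5
      _ = f.natDegree * (((N / p ^ k : ℕ) : ℝ) + 1) := by push_cast; ring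
      _ ≤ _ := by gcongr
  have h3 : ∑ p ∈ Q, ((p : ℝ) ^ 2)⁻¹ ≤ 1 / z := by
    by_cases hzN : z ≤ N
    · calc ∑ p ∈ Q, ((p : ℝ) ^ 2)⁻¹ ≤ ∑ p ∈ Finset.Ioc z N, ((p : ℝ) ^ 2)⁻¹ := by
            apply Finset.sum_le_sum_of_subset_of_nonneg (Finset.filter_subset _ _)
            intros; positivity
        _ ≤ (z : ℝ)⁻¹ - (N : ℝ)⁻¹ := sum_Ioc_inv_sq_le_sub hz0.ne' hzN
        _ ≤ 1 / z := by rw [one_div]; linarith [show (0 : ℝ) ≤ (N : ℝ)⁻¹ by positivity]
    · have : Q = ∅ := by
        rw [hQ, Finset.Ioc_eq_empty (by omega)]; simp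
      rw [this]; simp
  have h4 : (Q.card : ℝ) ≤ Nat.primeCounting N := by
    rw [Nat.primeCounting, Nat.primeCounting', Nat.count_eq_card_filter_range]
    exact_mod_cast Finset.card_le_card (by
      intro p hp
      simp only [hQ, Finset.mem_filter, Finset.mem_Ioc, Finset.mem_range] at hp ⊢
      exact ⟨by omega, hp.2⟩)
  calc (((Finset.Icc 1 N).filter (fun n : ℕ => ∃ p : ℕ, p.Prime ∧ z < p ∧ p ≤ N ∧
      (p : ℤ) ^ k ∣ f.eval (n : ℤ))).card : ℝ)
      ≤ ((Q.biUnion (fun p => (Finset.Icc 1 N).filter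
          (fun n : ℕ => (p : ℤ) ^ k ∣ f.eval (n : ℤ)))).card : ℝ) := by
        exact_mod_cast Finset.card_le_card h1
    _ ≤ ((∑ p ∈ Q, ((Finset.Icc 1 N).filter
          (fun n : ℕ => (p : ℤ) ^ k ∣ f.eval (n : ℤ))).card : ℕ) : ℝ) := by
        exact_mod_cast Finset.card_biUnion_le
    _ ≤ ∑ p ∈ Q, f.natDegree * (N * ((p : ℝ) ^ 2)⁻¹ + 1) := by
        push_cast
        exact Finset.sum_le_sum h2
    _ = f.natDegree * (N * ∑ p ∈ Q, ((p : ℝ) ^ 2)⁻¹ + Q.card) := by
        rw [← Finset.mul_sum, Finset.sum_add_distrib, ← Finset.mul_sum]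
        simp
    _ ≤ f.natDegree * (N * (1 / z) + Nat.primeCounting N) := by gcongr
    _ = _ := by ring

theorem eulerProduct (f : ℤ[X]) (k : ℕ)
    (hirr : Irreducible (f.map (Int.castRingHom ℚ))) (hk : 2 ≤ k)
    (hloc : ∀ p : ℕ, p.Prime → polyRootCountMod f (p ^ k) < p ^ k) :
    ∃ c : ℝ, 0 < c ∧
      HasProd (fun p : Nat.Primes => 1 - (polyRootCountMod f ((p : ℕ) ^ k) : ℝ) / ((p : ℕ) : ℝ) ^ k) c := by
  obtain ⟨u, v, r, hr0, h⟩ := exists_bezout f hirr
  have hsum : Summable (fun p : Nat.Primes =>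
      -((polyRootCountMod f ((p : ℕ) ^ k) : ℝ) / ((p : ℕ) : ℝ) ^ k)) := by
    apply Summable.neg
    have hs1 : Summable (fun p : Nat.Primes => (f.natDegree : ℝ) * (((p : ℕ) : ℝ) ^ 2)⁻¹) := by
      apply Summable.mul_left
      have : Summable (fun n : ℕ => ((n : ℝ) ^ 2)⁻¹) := Real.summable_nat_pow_inv.mpr (by norm_num)
      exact this.comp_injective Subtype.val_injective
    apply Summable.of_norm_bounded_eventually hs1
    have hfin : {p : Nat.Primes | ((p : ℕ) : ℤ) ∣ r}.Finite := by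
      have h1 : (Set.Iic r.natAbs).Finite := Set.finite_Iic _
      apply (h1.preimage (f := fun p : Nat.Primes => (p : ℕ)) Subtype.val_injective.injOn).subset
      intro p hp
      simp only [Set.mem_ofPred_eq] at hp
      have := Int.natAbs_dvd_natAbs.mpr hp
      rw [Int.natAbs_natCast] at this
      exact Nat.le_of_dvd (Int.natAbs_pos.mpr hr0) this
    rw [Filter.eventually_cofinite]
    apply hfin.subset
    intro p hp
    simp only [Set.mem_ofPred_eq] at hp ⊢
    by_contra hpr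
    apply hp
    have h1 := rootCount_le f u v r h p k p.2 (by omega) hpr
    have hp1 : (1 : ℝ) ≤ ((p : ℕ) : ℝ) := by exact_mod_cast p.2.one_le
    have hp0 : (0 : ℝ) < ((p : ℕ) : ℝ) := by exact_mod_cast p.2.pos
    rw [Real.norm_of_nonneg (by positivity), div_eq_mul_inv]
    have h1' : (polyRootCountMod f ((p : ℕ) ^ k) : ℝ) ≤ f.natDegree := by exact_mod_cast h1
    gcongr
  have hpos : ∀ p : Nat.Primes,
      0 < 1 - (polyRootCountMod f ((p : ℕ) ^ k) : ℝ) / ((p : ℕ) : ℝ) ^ k := by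
    intro p
    have h1 := hloc p p.2
    have hp0 : (0 : ℝ) < ((p : ℕ) : ℝ) ^ k := by
      have : (0 : ℝ) < ((p : ℕ) : ℝ) := by exact_mod_cast p.2.pos
      positivity
    rw [sub_pos, div_lt_one hp0]
    exact_mod_cast h1
  have hlog := Real.summable_log_one_add_of_summable hsum
  have hlog' : HasSum (fun p : Nat.Primes =>
      Real.log (1 - (polyRootCountMod f ((p : ℕ) ^ k) : ℝ) / ((p : ℕ) : ℝ) ^ k))
      (∑' p : Nat.Primes, Real.log
        (1 + -((polyRootCountMod f ((p : ℕ) ^ k) : ℝ) / ((p : ℕ) : ℝ) ^ k))) := by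
    simpa [sub_eq_add_neg] using hlog.hasSum
  exact ⟨_, Real.exp_pos _, Real.hasProd_of_hasSum_log hpos hlog'⟩

theorem tendsto_partial (g : Nat.Primes → ℝ) (g' : ℕ → ℝ) (hg : ∀ p : Nat.Primes, g' p = g p)
    (c : ℝ) (h : HasProd g c) :
    Tendsto (fun z : ℕ => ∏ p ∈ prs z, g' p) atTop (𝓝 c) := by
  classical
  let S : ℕ → Finset Nat.Primes := fun z => (prs z).subtype Nat.Prime
  have hmem : ∀ (z : ℕ) (p : Nat.Primes), p ∈ S z ↔ (p : ℕ) ∈ prs z :=
    fun z p => Finset.mem_subtype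
  have hS : Tendsto S atTop atTop := by
    apply Filter.tendsto_atTop_finset_of_monotone
    · intro a b hab p hp
      rw [hmem, mem_prs] at hp ⊢
      exact ⟨hp.1.trans hab, hp.2⟩
    · intro p
      refine ⟨(p : ℕ), ?_⟩
      rw [hmem, mem_prs]
      exact ⟨le_refl _, p.2⟩
  have h1 : Tendsto (fun z : ℕ => ∏ p ∈ S z, g p) atTop (𝓝 c) := h.comp hS
  refine h1.congr (fun z => ?_)
  have h2 : (∏ p ∈ S z, g p) = ∏ p ∈ S z, g' (p : ℕ) :=
    Finset.prod_congr rfl (fun p _ => (hg p).symm)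
  rw [h2]
  have h3 : (S z).map (Function.Embedding.subtype _) = prs z := by
    simp only [S]
    rw [Finset.subtype_map]
    apply Finset.filter_true_of_mem
    intro p hp
    exact (mem_prs.mp hp).2
  rw [← h3, Finset.prod_map]
  rfl

/-- **Sieve reduction**. -/
theorem reduction (f : ℤ[X]) (k : ℕ)
    (hirr : Irreducible (f.map (Int.castRingHom ℚ))) (hk : 2 ≤ k)
    (hloc : ∀ p : ℕ, p.Prime → polyRootCountMod f (p ^ k) < p ^ k)
    (B : ℕ → ℝ) (hB : Tendsto B atTop (𝓝 0))
    (hbig : ∀ (N : ℕ) (s : Finset ℕ), (∀ n ∈ s, 1 ≤ n ∧ n ≤ N ∧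
      ∃ p : ℕ, p.Prime ∧ N < p ∧ (p : ℤ) ^ k ∣ f.eval (n : ℤ)) → (s.card : ℝ) ≤ B N * N) :
    ∃ c : ℝ, 0 < c ∧
      HasProd (fun p : Nat.Primes => 1 - (polyRootCountMod f ((p : ℕ) ^ k) : ℝ) / ((p : ℕ) : ℝ) ^ k) c ∧
      Tendsto (fun N : ℕ => (powerFreeValueCount f k N : ℝ) / (N : ℝ)) atTop (𝓝 c) := by
  classical
  obtain ⟨c, hc0, hc⟩ := eulerProduct f k hirr hk hloc
  refine ⟨c, hc0, hc, ?_⟩
  obtain ⟨u, v, r, hr0, h⟩ := exists_bezout f hirr
  set g' : ℕ → ℝ := fun p => 1 - (polyRootCountMod f (p ^ k) : ℝ) / (p : ℝ) ^ k with hg'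
  have hD := tendsto_partial _ g' (fun p => rfl) c hc
  set D : ℕ → ℝ := fun z => ∏ p ∈ prs z, g' p with hDdef
  -- the finite sieve
  let Sz : ℕ → ℕ → Finset ℕ := fun z N => (Finset.Icc 1 N).filter
    (fun n : ℕ => ∀ p ∈ prs z, ¬ ((p : ℤ) ^ k ∣ f.eval (n : ℤ)))
  let qz : ℕ → ℕ := fun z => ∏ p ∈ prs z, p ^ k
  have hqz : ∀ z, 0 < qz z := fun z =>
    Finset.prod_pos (fun p hp => pow_pos (mem_prs.mp hp).2.pos k)
  have hSz : ∀ z N, |((Sz z N).card : ℝ) - N * D z| ≤ qz z := by
    intro z N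
    have h1 := periodic_card_bound
      (fun n : ℕ => ∀ p ∈ prs z, ¬ ((p : ℤ) ^ k ∣ f.eval (n : ℤ))) (qz z) (hqz z) ?_ N
    · have h2 := card_sieved f k (prs z) (fun p hp => (mem_prs.mp hp).2)
      rw [h2] at h1
      exact h1
    · intro n
      simp only [eq_iff_iff]
      refine forall₂_congr (fun p hp => ?_)
      have hd : p ^ k ∣ qz z := Finset.dvd_prod_of_mem _ hp
      have := eval_dvd_iff f (p ^ k) (n + qz z) n
        (Nat.ModEq.symm ((Nat.modEq_iff_dvd' (by omega)).mpr (by simpa using hd)))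
      rw [Nat.cast_pow] at this
      rw [this]
  let S : ℕ → Finset ℕ := fun N =>
    (Finset.Icc 1 N).filter (fun n : ℕ => IsPowerFree k (f.eval (n : ℤ)))
  have hScount : ∀ N, powerFreeValueCount f k N = (S N).card := by
    intro N
    simp only [powerFreeValueCount, S]
  let Bg : ℕ → Finset ℕ := fun N => (Finset.Icc 1 N).filter
    (fun n : ℕ => ∃ p : ℕ, p.Prime ∧ N < p ∧ (p : ℤ) ^ k ∣ f.eval (n : ℤ))
  let Md : ℕ → ℕ → Finset ℕ := fun z N => (Finset.Icc 1 N).filter (fun n : ℕ =>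
    ∃ p : ℕ, p.Prime ∧ z < p ∧ p ≤ N ∧ (p : ℤ) ^ k ∣ f.eval (n : ℤ))
  have hup : ∀ z N, (S N).card ≤ (Sz z N).card := by
    intro z N
    apply Finset.card_le_card
    intro n hn
    simp only [S, Sz, Finset.mem_filter] at hn ⊢
    exact ⟨hn.1, fun p hp => hn.2 p (mem_prs.mp hp).2⟩
  have hlow : ∀ z N, (Sz z N).card ≤ (S N).card + ((Md z N).card + (Bg N).card) := by
    intro z N
    have : Sz z N ⊆ S N ∪ (Md z N ∪ Bg N) := by
      intro n hn
      simp only [S, Sz, Md, Bg, Finset.mem_filter, Finset.mem_union] at hn ⊢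
      by_cases hpf : IsPowerFree k (f.eval (n : ℤ))
      · exact Or.inl ⟨hn.1, hpf⟩
      · right
        simp only [IsPowerFree, not_forall, not_not] at hpf
        obtain ⟨p, hp, hd⟩ := hpf
        have hzp : z < p := by
          by_contra hle
          exact hn.2 p (mem_prs.mpr ⟨by omega, hp⟩) hd
        by_cases hpN : p ≤ N
        · exact Or.inl ⟨hn.1, p, hp, hzp, hpN, hd⟩
        · exact Or.inr ⟨hn.1, p, hp, by omega, hd⟩
    exact (Finset.card_le_card this).trans ((Finset.card_union_le _ _).trans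
      (Nat.add_le_add_left (Finset.card_union_le _ _) _))
  have hBg : ∀ N, ((Bg N).card : ℝ) ≤ B N * N := by
    intro N
    apply hbig N (Bg N)
    intro n hn
    simp only [Bg, Finset.mem_filter, Finset.mem_Icc] at hn
    exact ⟨hn.1.1, hn.1.2, hn.2⟩
  have hpi := tendsto_primeCounting_div
  rw [Metric.tendsto_atTop]
  intro ε hε
  -- choose z
  have hz1 : ∀ᶠ z : ℕ in atTop, |D z - c| < ε / 4 := by
    have := (Metric.tendsto_atTop.mp hD) (ε / 4) (by positivity)
    obtain ⟨z0, hz0⟩ := this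
    filter_upwards [eventually_ge_atTop z0] with z hz
    have := hz0 z hz
    rwa [Real.dist_eq] at this
  have hz2 : ∀ᶠ z : ℕ in atTop, (f.natDegree : ℝ) / z < ε / 4 := by
    have : Tendsto (fun z : ℕ => (f.natDegree : ℝ) / z) atTop (𝓝 0) :=
      tendsto_const_div_atTop_nhds_zero_nat _
    exact this.eventually (gt_mem_nhds (by positivity))
  obtain ⟨z, hz1, hz2, hz3⟩ := (hz1.and (hz2.and (eventually_ge_atTop (r.natAbs + 1)))).exists
  have hzpos : 0 < z := by omega
  have hN1 : ∀ᶠ N : ℕ in atTop, (qz z : ℝ) / N < ε / 4 := by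
    have : Tendsto (fun N : ℕ => (qz z : ℝ) / N) atTop (𝓝 0) :=
      tendsto_const_div_atTop_nhds_zero_nat _
    exact this.eventually (gt_mem_nhds (by positivity))
  have hN2 : ∀ᶠ N : ℕ in atTop,
      (f.natDegree : ℝ) * ((Nat.primeCounting N : ℝ) / N) + B N < ε / 4 := by
    have : Tendsto (fun N : ℕ => (f.natDegree : ℝ) * ((Nat.primeCounting N : ℝ) / N) + B N)
        atTop (𝓝 0) := by
      simpa using (hpi.const_mul (f.natDegree : ℝ)).add hB
    exact this.eventually (gt_mem_nhds (by positivity))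
  obtain ⟨N0, hN0⟩ := (hN1.and (hN2.and (eventually_ge_atTop 1))).exists_forall_of_atTop
  refine ⟨N0, fun N hN => ?_⟩
  obtain ⟨hN1, hN2, hN3⟩ := hN0 N hN
  have hNpos : (0 : ℝ) < N := by exact_mod_cast (by omega : 0 < N)
  rw [Real.dist_eq, hScount]
  have e1 := hSz z N
  have e2 : ((S N).card : ℝ) ≤ (Sz z N).card := by exact_mod_cast hup z N
  have e3 : ((Sz z N).card : ℝ) ≤ (S N).card + ((Md z N).card + (Bg N).card) := by
    exact_mod_cast hlow z N
  have e4 : ((Md z N).card : ℝ) ≤ f.natDegree * (N / z + Nat.primeCounting N) :=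
    card_medium f u v r h hr0 k hk z (by omega) hzpos N
  have e5 := hBg N
  have e6 := abs_le.mp e1
  have e7 := abs_lt.mp hz1
  have k1 : ((S N).card : ℝ) / N ≤ D z + (qz z : ℝ) / N := by
    rw [div_le_iff₀ hNpos, add_mul, div_mul_cancel₀ _ hNpos.ne']
    linarith [e6.2]
  have k2 : D z - (qz z : ℝ) / N - (f.natDegree : ℝ) / z
      - ((f.natDegree : ℝ) * ((Nat.primeCounting N : ℝ) / N) + B N) ≤ ((S N).card : ℝ) / N := by
    rw [le_div_iff₀ hNpos]
    have : (D z - (qz z : ℝ) / N - (f.natDegree : ℝ) / z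
      - ((f.natDegree : ℝ) * ((Nat.primeCounting N : ℝ) / N) + B N)) * N =
      N * D z - (qz z : ℝ) / N * N - f.natDegree * (N / z) -
        (f.natDegree * ((Nat.primeCounting N : ℝ) / N * N) + B N * N) := by ring
    rw [this, div_mul_cancel₀ _ hNpos.ne', div_mul_cancel₀ _ hNpos.ne']
    nlinarith [e6.1]
  rw [abs_lt]
  constructor
  · linarith [e7.1]
  · linarith [e7.2]

end Crest.Agent.R22.SieveRed
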