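import Mathlib
import Crest.Agent.R22.DetCore107
import Crest.Agent.R22.TypeExp107
import Crest.Agent.R22.TypeCount107
import Crest.Agent.R022.Expand

/-! Row 22: relations with bounded coefficients (helper859).

`exists_relation_bounded` : all `ι × ι` minors vanish ⇒ a non-trivial relation whose coefficients
are (up to sign) minors, hence bounded by `s! ∏ B_i`. -/

set_option autoImplicit false

open Finset Matrix

namespace Crest.Agent.R22.Bounded859

section rel
variable {ι P : Type*} [Fintype ι] [DecidableEq ι]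

/-- a non-vanishing `n × n` minor -/
def Minor (S : Set P) (F : ι → P → ℤ) (n : ℕ) : Prop :=
  ∃ (g : Fin n → ι) (x : Fin n → P), Function.Injective g ∧ (∀ i, x i ∈ S) ∧
    (Matrix.of fun i j => F (g i) (x j)).det ≠ 0

omit [Fintype ι] [DecidableEq ι] in
theorem minor_zero (S : Set P) (F : ι → P → ℤ) : Minor S F 0 :=
  ⟨Fin.elim0, Fin.elim0, fun i => i.elim0, fun i => i.elim0, by simp⟩

theorem not_minor_card (S : Set P) (F : ι → P → ℤ)
    (h : ∀ x : ι → P, (∀ i, x i ∈ S) → (Matrix.of fun i j => F i (x j)).det = 0) :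
    ¬ Minor S F (Fintype.card ι) := by
  rintro ⟨g, x, hg, hx, hdet⟩
  have hbij : Function.Bijective g :=
    (Fintype.bijective_iff_injective_and_card g).2 ⟨hg, by simp⟩
  let e : Fin (Fintype.card ι) ≃ ι := Equiv.ofBijective g hbij
  apply hdet
  have h1 := h (fun i => x (e.symm i)) (fun i => hx _)
  have h2 := Matrix.det_submatrix_equiv_self e (Matrix.of fun i j => F i (x (e.symm j)))
  rw [h1] at h2
  rw [← h2]
  congr 1
  ext i j
  simp [e]

theorem exists_relation_bounded (S : Set P) (F : ι → P → ℤ)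
    (h : ∀ x : ι → P, (∀ i, x i ∈ S) → (Matrix.of fun i j => F i (x j)).det = 0)
    (B : ι → ℝ) (hB1 : ∀ i, 1 ≤ B i) (hB : ∀ p ∈ S, ∀ i, |(F i p : ℝ)| ≤ B i) :
    ∃ a : ι → ℤ, a ≠ 0 ∧ (∀ p ∈ S, ∑ i, a i * F i p = 0) ∧
      ∀ i, |(a i : ℝ)| ≤ (Fintype.card ι).factorial * ∏ i, B i := by
  classical
  have hex : ∃ n, ¬ Minor S F (n + 1) := by
    by_contra hcon
    push Not at hcon
    rcases Nat.eq_zero_or_pos (Fintype.card ι) with h0 | h0
    · have := not_minor_card S F h
      rw [h0] at this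
      exact this (minor_zero S F)
    · have := hcon (Fintype.card ι - 1)
      rw [Nat.sub_add_cancel h0] at this
      exact not_minor_card S F h this
  set r := Nat.find hex with hr
  have hr1 : ¬ Minor S F (r + 1) := Nat.find_spec hex
  have hr0 : Minor S F r := by
    rcases Nat.eq_zero_or_pos r with h0 | h0
    · rw [h0]; exact minor_zero S F
    · have := Nat.find_min hex (m := r - 1) (by omega)
      rw [not_not, Nat.sub_add_cancel h0] at this
      exact this
  obtain ⟨g, x, hg, hx, hdet⟩ := hr0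
  have hrcard : r < Fintype.card ι := by
    have h1 : r ≤ Fintype.card ι := by
      simpa using Fintype.card_le_of_injective g hg
    rcases h1.lt_or_eq with h2 | h2
    · exact h2
    · exfalso
      have := not_minor_card S F h
      rw [← h2] at this
      exact this ⟨g, x, hg, hx, hdet⟩
  have hi0 : ∃ i0, i0 ∉ Set.range g := by
    by_contra hcon
    push Not at hcon
    have : Function.Surjective g := fun i => hcon i
    have := Fintype.card_le_of_surjective g this
    simp at this
    omega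
  obtain ⟨i0, hi0⟩ := hi0
  let g' : Fin (r + 1) → ι := Fin.snoc g i0
  have hg' : Function.Injective g' := by
    refine Fin.snoc_injective_iff.mpr ⟨hg, hi0⟩
  let c : Fin (r + 1) → ℤ := fun k => (-1) ^ ((k : ℕ) + r) *
    (Matrix.of fun i j => F (g' (k.succAbove i)) (x j)).det
  have hc : ∀ p ∈ S, ∑ k, c k * F (g' k) p = 0 := by
    intro p hp
    have h1 : (Matrix.of fun i j => F (g' i) ((Fin.snoc x p : Fin (r + 1) → P) j)).det = 0 := by
      by_contra hne
      apply hr1
      refine ⟨g', Fin.snoc x p, hg', fun i => ?_, hne⟩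
      refine Fin.lastCases ?_ (fun i => ?_) i
      · simpa using hp
      · simpa using hx i
    rw [Matrix.det_succ_column _ (Fin.last r)] at h1
    rw [← h1]
    refine Finset.sum_congr rfl fun k _ => ?_
    simp only [c, Matrix.of_apply, Fin.snoc_last, Fin.val_last]
    have : (Matrix.of fun i j => F (g' (k.succAbove i)) (x j)) =
        (Matrix.of fun i j => F (g' i) ((Fin.snoc x p : Fin (r + 1) → P) j)).submatrix
          k.succAbove (Fin.last r).succAbove := by
      ext i j
      simp [Fin.succAbove_last]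
    rw [this]
    ring
  have hbound : ∀ k, |(c k : ℝ)| ≤ (Fintype.card ι).factorial * ∏ i, B i := by
    intro k
    have h1 : |(c k : ℝ)| = |((Matrix.of fun i j => F (g' (k.succAbove i)) (x j)).det : ℝ)| := by
      simp only [c]
      push_cast
      rw [abs_mul, abs_pow, abs_neg, abs_one, one_pow, one_mul]
    rw [h1]
    have h2 := DetCore.abs_det_le (Matrix.of fun i j => F (g' (k.succAbove i)) (x j))
      (fun i => B (g' (k.succAbove i))) (fun i j => hB _ (hx j) _)
    refine h2.trans ?_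
    have h3 : ∏ i, B (g' (k.succAbove i)) ≤ ∏ i, B i := by
      have h4 : ∏ i, B (g' (k.succAbove i)) =
          ∏ i ∈ univ.image (fun i => g' (k.succAbove i)), B i := by
        rw [Finset.prod_image]
        intro a _ b _ hab
        exact Fin.succAbove_right_injective (hg' hab)
      rw [h4]
      rw [← Finset.prod_mul_prod_compl (univ.image (fun i => g' (k.succAbove i))) B]
      have h7 : (1 : ℝ) ≤ ∏ i ∈ (univ.image (fun i => g' (k.succAbove i)))ᶜ, B i := by
        have h8 := Finset.prod_le_prod (s := (univ.image (fun i => g' (k.succAbove i)))ᶜ)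
          (f := fun _ => (1 : ℝ)) (g := B) (fun _ _ => zero_le_one) (fun i _ => hB1 i)
        simpa using h8
      exact le_mul_of_one_le_right
        (Finset.prod_nonneg fun i _ => zero_le_one.trans (hB1 _)) h7
    have h5 : (0 : ℝ) ≤ ∏ i, B (g' (k.succAbove i)) :=
      Finset.prod_nonneg fun i _ => zero_le_one.trans (hB1 _)
    have h6 : (((Fintype.card (Fin r)).factorial : ℕ) : ℝ) ≤ (Fintype.card ι).factorial := by
      rw [Fintype.card_fin]
      exact_mod_cast Nat.factorial_le hrcard.le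
    exact mul_le_mul h6 h3 h5 (by positivity)
  refine ⟨fun i => ∑ k ∈ univ.filter (fun k => g' k = i), c k, ?_, ?_, ?_⟩
  · intro h0
    have h1 := congrFun h0 i0
    simp only [Pi.zero_apply] at h1
    have h2 : univ.filter (fun k => g' k = i0) = {Fin.last r} := by
      ext k
      simp only [Finset.mem_filter, Finset.mem_univ, true_and, Finset.mem_singleton]
      constructor
      · intro hk
        apply hg'
        rw [hk]; simp [g']
      · rintro rfl
        simp [g']
    rw [h2, Finset.sum_singleton] at h1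
    simp only [c, Fin.val_last] at h1
    rcases mul_eq_zero.mp h1 with h3 | h3
    · exact absurd h3 (pow_ne_zero _ (by norm_num))
    · apply hdet
      rw [← h3]
      congr 1
      ext i j
      simp [g', Fin.succAbove_last]
  · intro p hp
    rw [← hc p hp]
    have h1 : ∀ i, (∑ k ∈ univ.filter (fun k => g' k = i), c k) * F i p =
        ∑ k ∈ univ.filter (fun k => g' k = i), c k * F (g' k) p := by
      intro i
      rw [Finset.sum_mul]
      refine Finset.sum_congr rfl fun k hk => ?_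
      rw [(Finset.mem_filter.mp hk).2]
    simp only [h1]
    exact Finset.sum_fiberwise_of_maps_to (fun _ _ => Finset.mem_univ _) _
  · intro i
    by_cases hi : ∃ k, g' k = i
    · obtain ⟨k, hk⟩ := hi
      have h2 : univ.filter (fun k' => g' k' = i) = {k} := by
        ext k'
        simp only [Finset.mem_filter, Finset.mem_univ, true_and, Finset.mem_singleton]
        constructor
        · intro hk'
          apply hg'
          rw [hk', hk]
        · rintro rfl
          exact hk
      simp only [h2, Finset.sum_singleton]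
      exact hbound k
    · have h2 : univ.filter (fun k' => g' k' = i) = ∅ := by
        ext k'
        simp only [Finset.mem_filter, Finset.mem_univ, true_and, Finset.notMem_empty, iff_false]
        exact fun hk' => hi ⟨k', hk'⟩
      simp only [h2, Finset.sum_empty]
      push_cast
      rw [abs_zero]
      have : (0 : ℝ) ≤ ∏ i, B i := Finset.prod_nonneg fun i _ => zero_le_one.trans (hB1 _)
      positivity

end rel

/-- `DetCore.relation_of_class` with bounded coefficients. -/
theorem relation_of_class {ι P : Type*} [Fintype ι] [DecidableEq ι] (S : Set P) (F : ι → P → ℤ)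
    (B : ι → ℝ) (hB1 : ∀ i, 1 ≤ B i) (hB : ∀ p ∈ S, ∀ i, |(F i p : ℝ)| ≤ B i)
    (L : Finset ℕ) (hL : (L : Set ℕ).Pairwise Nat.Coprime) (w m : ℕ)
    (htypes : ∀ l ∈ L, ∃ (τ : Type) (_ : Fintype τ) (ord : τ → ℕ) (C : ι → τ → ℤ) (V : τ → P → ℤ),
      (∀ t, ∀ p ∈ S, (l : ℤ) ^ ord t ∣ V t p) ∧
      (∀ i, ∀ p ∈ S, (l : ℤ) ^ m ∣ F i p - ∑ t, C i t * V t p) ∧
      (∀ (T : Finset τ) (r : ℕ), T.card + r = Fintype.card ι → w ≤ ∑ t ∈ T, ord t + r * m))
    (hlt : (Fintype.card ι).factorial * ∏ i, B i < ((∏ l ∈ L, l : ℕ) : ℝ) ^ w) :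
    ∃ a : ι → ℤ, a ≠ 0 ∧ (∀ p ∈ S, ∑ i, a i * F i p = 0) ∧
      ∀ i, |(a i : ℝ)| ≤ (Fintype.card ι).factorial * ∏ i, B i := by
  refine exists_relation_bounded S F (fun x hx => ?_) B hB1 hB
  refine DetCore.det_eq_zero_of_bounds _ B (fun i j => ?_) (∏ l ∈ L, l) w ?_ hlt
  · exact hB _ (hx j) i
  · refine DetCore.prod_pow_dvd L hL w _ fun l hl => ?_
    obtain ⟨τ, _, ord, C, V, h1, h2, h3⟩ := htypes l hl
    refine DetCore.det_dvd_of_types_mod (l : ℤ) m ord (Matrix.of C)
      (Matrix.of fun t j => V t (x j)) _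
      (fun i j => ?_) (fun t j => h1 t _ (hx j)) w h3
    have := h2 i (x j) (hx j)
    simpa [Matrix.mul_apply] using this

open MvPolynomial TypeCount in
/-- `TypeCount.relation_slice` with bounded coefficients. -/
theorem relation_slice {ι P : Type*} [Fintype ι] [DecidableEq ι] {r J m w : ℕ} (S : Set P)
    (t : P → Fin r → ℤ) (n : P → ℤ) (F : ι → P → ℤ)
    (D : MvPolynomial (Fin r) ℤ) (K : ι → ℕ) (G : ι → Fin (J + 1) → MvPolynomial (Fin r) ℤ)
    (hF : ∀ i, ∀ p ∈ S, F i p * (eval (t p) D) ^ K i = ∑ j, eval (t p) (G i j) * n p ^ (j : ℕ))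
    (L : Finset ℕ) (hL : (L : Set ℕ).Pairwise Nat.Coprime) (t0 : ℕ → Fin r → ℤ)
    (ht0 : ∀ l ∈ L, ∀ p ∈ S, ∀ i, (l : ℤ) ∣ t p i - t0 l i)
    (hD : ∀ l ∈ L, IsCoprime (eval (t0 l) D) (l : ℤ))
    (B : ι → ℝ) (hB1 : ∀ i, 1 ≤ B i) (hB : ∀ p ∈ S, ∀ i, |(F i p : ℝ)| ≤ B i)
    (hw : w + (J + 1) * (m + r).choose (r + 1) ≤ m * Fintype.card ι)
    (hlt : (Fintype.card ι).factorial * ∏ i, B i < ((∏ l ∈ L, l : ℕ) : ℝ) ^ w) :
    ∃ a : ι → ℤ, a ≠ 0 ∧ (∀ p ∈ S, ∑ i, a i * F i p = 0) ∧
      ∀ i, |(a i : ℝ)| ≤ (Fintype.card ι).factorial * ∏ i, B i := by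
  refine relation_of_class S F B hB1 hB L hL w m (fun l hl => ?_) hlt
  choose c hc using fun i => TypeExp.exists_types l m (K i) J D (G i) (t0 l) (hD l hl)
  refine ⟨Fin (J + 1) × (Fin r → Fin m), inferInstance, ord J r m, c,
    fun x p => n p ^ (x.1 : ℕ) * ∏ i, (t p i - t0 l i) ^ (x.2 i : ℕ), ?_, ?_, ?_⟩
  · intro x p hp
    refine Dvd.dvd.mul_left ?_ _
    rw [ord, ← Finset.prod_pow_eq_pow_sum]
    exact Finset.prod_dvd_prod_of_dvd _ _ fun i _ => pow_dvd_pow_of_dvd (ht0 l hl p hp i) _
  · intro i p hp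
    exact hc i (t p) (n p) (F i p) (ht0 l hl p hp) (hF i p hp)
  · intro T k hT
    have := ord_lower J r m T k
    rw [hT] at this
    omega

open Crest.Agent.R022.Expand in
/-- `Expand.relation_hasExp` with bounded coefficients. -/
theorem relation_hasExp {P ι : Type*} [Fintype ι] [DecidableEq ι] {r J m w : ℕ} (S : Set P)
    (F : ι → P → ℤ) (L : Finset ℕ) (hL : (L : Set ℕ).Pairwise Nat.Coprime)
    (hexp : ∀ l ∈ L, ∃ (s : P → Fin r → ℤ) (n : P → ℤ), (∀ p ∈ S, ∀ i, (l : ℤ) ∣ s p i) ∧
      ∀ i, HasExp S s n l m J (F i))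
    (B : ι → ℝ) (hB1 : ∀ i, 1 ≤ B i) (hB : ∀ p ∈ S, ∀ i, |(F i p : ℝ)| ≤ B i)
    (hw : w + (J + 1) * (m + r).choose (r + 1) ≤ m * Fintype.card ι)
    (hlt : (Fintype.card ι).factorial * ∏ i, B i < ((∏ l ∈ L, l : ℕ) : ℝ) ^ w) :
    ∃ a : ι → ℤ, a ≠ 0 ∧ (∀ p ∈ S, ∑ i, a i * F i p = 0) ∧
      ∀ i, |(a i : ℝ)| ≤ (Fintype.card ι).factorial * ∏ i, B i := by
  refine relation_of_class S F B hB1 hB L hL w m (fun l hl => ?_) hlt
  obtain ⟨s, n, hs, hF⟩ := hexp l hl
  choose c hc using fun i => exists_types hs (hF i)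
  refine ⟨Fin (J + 1) × (Fin r → Fin m), inferInstance, TypeCount.ord J r m, c,
    fun x p => n p ^ (x.1 : ℕ) * ∏ i, s p i ^ (x.2 i : ℕ), ?_, ?_, ?_⟩
  · intro x p hp
    refine Dvd.dvd.mul_left ?_ _
    rw [TypeCount.ord, ← Finset.prod_pow_eq_pow_sum]
    exact Finset.prod_dvd_prod_of_dvd _ _ fun i _ => pow_dvd_pow_of_dvd (hs p hp i) _
  · intro i p hp
    exact hc i p hp
  · intro T k hT
    have := TypeCount.ord_lower J r m T k
    rw [hT] at this
    omega

end Crest.Agent.R22.Bounded859
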