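import Mathlib
import Crest.Agent.R22.Bounded859
import Crest.Agent.R22.PolyKit859

/-! Row 22: chain lemmas (helper859).

* `exists_bounded_of_exists` : if a relation exists then a bounded one exists.
* `exists_bounded_poly` : the same for polynomials with support in a given finite set.
* `chain_degreeOf`, `chain_grad` : every point of a set on which some nonzero polynomial of
  degree `≤ D` vanishes is a "good" zero of one of at most `D + 1` polynomials attached to the set.

-/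

set_option autoImplicit false

open Finset MvPolynomial

namespace Crest.Agent.R22.Chain859

open PolyKit

section bounded

theorem exists_bounded_of_exists {ι P : Type*} [Fintype ι] [DecidableEq ι] (S : Set P)
    (F : ι → P → ℤ) (h : ∃ a : ι → ℤ, a ≠ 0 ∧ ∀ p ∈ S, ∑ i, a i * F i p = 0)
    (B : ι → ℝ) (hB1 : ∀ i, 1 ≤ B i) (hB : ∀ p ∈ S, ∀ i, |(F i p : ℝ)| ≤ B i) :
    ∃ a : ι → ℤ, a ≠ 0 ∧ (∀ p ∈ S, ∑ i, a i * F i p = 0) ∧
      ∀ i, |(a i : ℝ)| ≤ (Fintype.card ι).factorial * ∏ i, B i := by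
  refine Bounded859.exists_relation_bounded S F (fun x hx => ?_) B hB1 hB
  obtain ⟨a, ha, h⟩ := h
  rw [← Matrix.exists_vecMul_eq_zero_iff]
  refine ⟨a, ha, ?_⟩
  ext j
  simpa [Matrix.vecMul, dotProduct] using h (x j) (hx j)

variable {σ P : Type*}

theorem eval_eq_sum_of_subset (G : MvPolynomial σ ℤ) (Λ : Finset (σ →₀ ℕ)) (h : G.support ⊆ Λ)
    (x : σ → ℤ) : eval x G = ∑ e ∈ Λ, G.coeff e * eval x (monomial e (1 : ℤ)) := by
  have h1 : eval x G = ∑ e ∈ G.support, G.coeff e * eval x (monomial e (1 : ℤ)) := by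
    rw [MvPolynomial.eval_eq]
    refine Finset.sum_congr rfl fun e _ => ?_
    rw [MvPolynomial.eval_monomial, one_mul]
    rfl
  rw [h1]
  refine Finset.sum_subset h fun e _ he => ?_
  rw [MvPolynomial.notMem_support_iff.mp he, zero_mul]

/-- bounded polynomial relation with prescribed support -/
theorem exists_bounded_poly (Λ : Finset (σ →₀ ℕ)) (D H : ℕ) (hD : ∀ e ∈ Λ, e.degree ≤ D)
    (hH : 1 ≤ H) (T : Set P) (x : P → σ → ℤ) (hx : ∀ p ∈ T, ∀ i, (x p i).natAbs ≤ H)
    (hrel : ∃ G : MvPolynomial σ ℤ, G ≠ 0 ∧ G.support ⊆ Λ ∧ ∀ p ∈ T, eval (x p) G = 0) :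
    ∃ G : MvPolynomial σ ℤ, G ≠ 0 ∧ G.support ⊆ Λ ∧ (∀ p ∈ T, eval (x p) G = 0) ∧
      len G ≤ Λ.card * (Λ.card.factorial * H ^ (D * Λ.card)) := by
  classical
  obtain ⟨G, hG0, hGs, hG⟩ := hrel
  have hbd : ∀ p ∈ T, ∀ e : Λ,
      |((eval (x p) (monomial e.1 (1 : ℤ)) : ℤ) : ℝ)| ≤ (H : ℝ) ^ D := by
    intro p hp e
    have h1 := natAbs_eval_le (monomial e.1 (1 : ℤ)) (x p) H D hH (hx p hp)
      (by rw [MvPolynomial.totalDegree_monomial _ one_ne_zero]
          exact hD e.1 e.2)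
    rw [len_monomial] at h1
    simp only [Int.natAbs_one, one_mul] at h1
    rw [← Int.cast_abs, Int.abs_eq_natAbs]
    exact_mod_cast h1
  obtain ⟨a, ha0, ha, hab⟩ := exists_bounded_of_exists T
    (fun (e : Λ) p => eval (x p) (monomial e.1 (1 : ℤ)))
    ⟨fun e => G.coeff e.1, by
      intro h0
      apply hG0
      ext e
      by_cases he : e ∈ Λ
      · simpa using congrFun h0 ⟨e, he⟩
      · have : e ∉ G.support := fun h => he (hGs h)
        rw [MvPolynomial.notMem_support_iff.mp this, coeff_zero], by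
      intro p hp
      rw [← hG p hp, eval_eq_sum_of_subset G Λ hGs, ← Finset.sum_coe_sort Λ]⟩
    (fun _ => (H : ℝ) ^ D) (fun _ => one_le_pow₀ (by exact_mod_cast hH)) hbd
  let b : (σ →₀ ℕ) → ℤ := fun e => if h : e ∈ Λ then a ⟨e, h⟩ else 0
  let G' : MvPolynomial σ ℤ := ∑ e ∈ Λ, monomial e (b e)
  have hco : ∀ e, G'.coeff e = b e := by
    intro e
    simp only [G', coeff_sum, coeff_monomial]
    rw [Finset.sum_ite_eq']
    split_ifs with h
    · rfl
    · simp [b, h]
  have hsup : G'.support ⊆ Λ := by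
    intro e he
    by_contra h
    rw [MvPolynomial.mem_support_iff, hco] at he
    exact he (by simp [b, h])
  refine ⟨G', ?_, hsup, ?_, ?_⟩
  · intro h0
    apply ha0
    funext e
    have := hco e.1
    rw [h0, coeff_zero] at this
    simp only [b, e.2, dif_pos] at this
    exact this.symm
  · intro p hp
    rw [eval_eq_sum_of_subset G' Λ hsup, ← ha p hp, ← Finset.sum_coe_sort Λ]
    refine Finset.sum_congr rfl fun e _ => ?_
    rw [hco]
    simp [b]
  · rw [len_eq_sum_of_subset G' Λ hsup]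
    refine (Finset.sum_le_card_nsmul Λ _ (Λ.card.factorial * H ^ (D * Λ.card)) fun e he => ?_).trans
      (by rw [smul_eq_mul])
    rw [hco]
    simp only [b, he, dif_pos]
    have h1 := hab ⟨e, he⟩
    rw [Finset.prod_const, Finset.card_univ, Fintype.card_coe, ← pow_mul] at h1
    rw [← Int.cast_abs, Int.abs_eq_natAbs] at h1
    exact_mod_cast h1

end bounded

section monos

variable (σ : Type*) [Fintype σ] [DecidableEq σ]

/-- exponents of total degree `≤ D` -/
def monos (D : ℕ) : Finset (σ →₀ ℕ) :=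
  (range (D + 1)).biUnion fun n => (univ : Finset σ).finsuppAntidiag n

variable {σ}

theorem mem_monos {D : ℕ} {e : σ →₀ ℕ} : e ∈ monos σ D ↔ e.degree ≤ D := by
  simp only [monos, mem_biUnion, mem_range, mem_finsuppAntidiag]
  rw [Finsupp.degree_eq_sum]
  constructor
  · rintro ⟨n, hn, h1, _⟩
    have h2 : ∑ i, e i = n := h1
    omega
  · intro h
    exact ⟨_, Nat.lt_succ_of_le h, rfl, subset_univ _⟩

theorem support_subset_monos {D : ℕ} {G : MvPolynomial σ ℤ} :
    G.support ⊆ monos σ D ↔ G.totalDegree ≤ D := by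
  rw [MvPolynomial.totalDegree, Finset.sup_le_iff]
  constructor
  · intro h s hs
    exact mem_monos.mp (h hs)
  · intro h s hs
    exact mem_monos.mpr (h s hs)

/-- height bound for Cramer relations of degree `≤ D` at points of size `≤ H` -/
def hgt (σ : Type*) [Fintype σ] [DecidableEq σ] (D H : ℕ) : ℕ :=
  (monos σ D).card * ((monos σ D).card.factorial * H ^ (D * (monos σ D).card))

theorem hgt_mono_card (D H : ℕ) (hH : 1 ≤ H) (Λ : Finset (σ →₀ ℕ)) (h : Λ ⊆ monos σ D) :
    Λ.card * (Λ.card.factorial * H ^ (D * Λ.card)) ≤ hgt σ D H := by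
  have h1 := Finset.card_le_card h
  exact Nat.mul_le_mul h1 (Nat.mul_le_mul (Nat.factorial_le h1)
    (Nat.pow_le_pow_right hH (Nat.mul_le_mul_left _ h1)))

theorem hgt_mono {D D' H : ℕ} (hH : 1 ≤ H) (h : D ≤ D') : hgt σ D H ≤ hgt σ D' H := by
  have h1 : monos σ D ⊆ monos σ D' := fun e he => mem_monos.mpr ((mem_monos.mp he).trans h)
  have h2 := Finset.card_le_card h1
  exact Nat.mul_le_mul h2 (Nat.mul_le_mul (Nat.factorial_le h2)
    (Nat.pow_le_pow_right hH (Nat.mul_le_mul h h2)))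

/-- bounded relation of total degree `≤ D` and degree `≤ m` in the variable `i0` -/
theorem exists_bounded_degreeOf {P : Type*} (i0 : σ) (m D H : ℕ) (hH : 1 ≤ H) (T : Set P)
    (x : P → σ → ℤ) (hx : ∀ p ∈ T, ∀ i, (x p i).natAbs ≤ H)
    (hrel : ∃ G : MvPolynomial σ ℤ, G ≠ 0 ∧ G.totalDegree ≤ D ∧ G.degreeOf i0 ≤ m ∧
      ∀ p ∈ T, eval (x p) G = 0) :
    ∃ G : MvPolynomial σ ℤ, G ≠ 0 ∧ G.totalDegree ≤ D ∧ G.degreeOf i0 ≤ m ∧ len G ≤ hgt σ D H ∧
      ∀ p ∈ T, eval (x p) G = 0 := by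
  obtain ⟨G, hG0, hGD, hGm, hG⟩ := hrel
  have hsub : (monos σ D).filter (fun e => e i0 ≤ m) ⊆ monos σ D := Finset.filter_subset _ _
  obtain ⟨G', h1, h2, h3, h4⟩ := exists_bounded_poly ((monos σ D).filter fun e => e i0 ≤ m) D H
    (fun e he => mem_monos.mp (hsub he)) hH T x hx ⟨G, hG0, by
      intro e he
      rw [Finset.mem_filter]
      exact ⟨support_subset_monos.mpr hGD he, (degreeOf_le_iff.mp hGm) e he⟩, hG⟩
  refine ⟨G', h1, support_subset_monos.mp (h2.trans hsub), ?_, h4.trans (hgt_mono_card D H hH _ hsub),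
    h3⟩
  rw [degreeOf_le_iff]
  intro e he
  exact (Finset.mem_filter.mp (h2 he)).2

/-- bounded relation of total degree `≤ D` -/
theorem exists_bounded_totalDegree {P : Type*} (D H : ℕ) (hH : 1 ≤ H) (T : Set P)
    (x : P → σ → ℤ) (hx : ∀ p ∈ T, ∀ i, (x p i).natAbs ≤ H)
    (hrel : ∃ G : MvPolynomial σ ℤ, G ≠ 0 ∧ G.totalDegree ≤ D ∧ ∀ p ∈ T, eval (x p) G = 0) :
    ∃ G : MvPolynomial σ ℤ, G ≠ 0 ∧ G.totalDegree ≤ D ∧ len G ≤ hgt σ D H ∧
      ∀ p ∈ T, eval (x p) G = 0 := by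
  obtain ⟨G, hG0, hGD, hG⟩ := hrel
  obtain ⟨G', h1, h2, h3, h4⟩ := exists_bounded_poly (monos σ D) D H
    (fun e he => mem_monos.mp he) hH T x hx ⟨G, hG0, support_subset_monos.mpr hGD, hG⟩
  exact ⟨G', h1, support_subset_monos.mp h2, h4.trans (hgt_mono_card D H hH _ (subset_refl _)), h3⟩

end monos

section deriv

variable {σ : Type*}

theorem coeff_pderiv_ne {i : σ} {G : MvPolynomial σ ℤ} {e : σ →₀ ℕ} (he : e ∈ G.support)
    (hi : 1 ≤ e i) : (pderiv i G).coeff (e - Finsupp.single i 1) ≠ 0 := by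
  classical
  rw [coeff_pderiv]
  have h1 : e - Finsupp.single i 1 + Finsupp.single i 1 = e := by
    apply tsub_add_cancel_of_le
    rw [Finsupp.single_le_iff]
    exact hi
  rw [h1]
  refine mul_ne_zero (MvPolynomial.mem_support_iff.mp he) ?_
  positivity

/-- the derivative in a variable that occurs is nonzero -/
theorem pderiv_ne_zero {i : σ} {G : MvPolynomial σ ℤ} (h : 1 ≤ G.degreeOf i) : pderiv i G ≠ 0 := by
  classical
  intro h0
  have : ¬ ∀ e ∈ G.support, e i ≤ 0 := by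
    intro hcon
    have := degreeOf_le_iff.mpr hcon
    omega
  push Not at this
  obtain ⟨e, he, hi⟩ := this
  apply coeff_pderiv_ne he (i := i) hi
  rw [h0, coeff_zero]

theorem support_pderiv {i : σ} {G : MvPolynomial σ ℤ} {m : σ →₀ ℕ} (hm : m ∈ (pderiv i G).support) :
    m + Finsupp.single i 1 ∈ G.support := by
  rw [MvPolynomial.mem_support_iff, coeff_pderiv] at hm
  rw [MvPolynomial.mem_support_iff]
  exact left_ne_zero_of_mul hm

theorem degreeOf_pderiv_le {i : σ} {G : MvPolynomial σ ℤ} :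
    (pderiv i G).degreeOf i ≤ G.degreeOf i - 1 := by
  classical
  rw [degreeOf_le_iff]
  intro m hm
  have h1 := (degreeOf_le_iff.mp (le_refl (G.degreeOf i))) _ (support_pderiv hm)
  simp at h1
  omega

theorem totalDegree_pderiv_le {i : σ} {G : MvPolynomial σ ℤ} :
    (pderiv i G).totalDegree ≤ G.totalDegree - 1 := by
  classical
  rw [MvPolynomial.totalDegree, Finset.sup_le_iff]
  intro m hm
  have h1 := le_totalDegree (support_pderiv hm)
  have h2 : ((m + Finsupp.single i 1).sum fun _ e => e) = (m.sum fun _ e => e) + 1 := by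
    rw [Finsupp.sum_add_index' (by simp) (by simp)]
    simp
  rw [h2] at h1
  omega

end deriv

section chain

variable {σ P : Type*} [Fintype σ] [DecidableEq σ]

/-- **Chain lemma, distinguished variable `i0`.** If some nonzero polynomial of total degree `≤ D`
and degree `≤ m` in the variable `i0` vanishes on `T`, then there are `m + 1` bounded polynomials
`G i` attached to `T` such that every point of `T` is a zero of some `G i` which does not involve
`i0`, or at which the derivative of `G i` with respect to `i0` is nonzero. -/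
theorem chain_degreeOf (i0 : σ) (D H : ℕ) (hH : 1 ≤ H) (x : P → σ → ℤ) (m : ℕ) :
    ∀ T : Set P, (∀ p ∈ T, ∀ i, (x p i).natAbs ≤ H) →
    (∃ G : MvPolynomial σ ℤ, G ≠ 0 ∧ G.totalDegree ≤ D ∧ G.degreeOf i0 ≤ m ∧
      ∀ p ∈ T, eval (x p) G = 0) →
    ∃ G : ℕ → MvPolynomial σ ℤ, (∀ i, G i ≠ 0 ∧ (G i).totalDegree ≤ D ∧ (G i).degreeOf i0 ≤ m ∧
        len (G i) ≤ hgt σ D H) ∧
      ∀ p ∈ T, ∃ i ≤ m, eval (x p) (G i) = 0 ∧
        ((G i).degreeOf i0 = 0 ∨ eval (x p) (pderiv i0 (G i)) ≠ 0) := by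
  induction m with
  | zero =>
    intro T hx hrel
    obtain ⟨G, h1, h2, h3, h4, h5⟩ := exists_bounded_degreeOf i0 0 D H hH T x hx hrel
    exact ⟨fun _ => G, fun _ => ⟨h1, h2, h3, h4⟩, fun p hp =>
      ⟨0, le_refl _, h5 p hp, Or.inl (Nat.le_zero.mp h3)⟩⟩
  | succ m ih =>
    intro T hx hrel
    obtain ⟨G, h1, h2, h3, h4, h5⟩ := exists_bounded_degreeOf i0 (m + 1) D H hH T x hx hrel
    by_cases h0 : G.degreeOf i0 = 0
    · exact ⟨fun _ => G, fun _ => ⟨h1, h2, h3, h4⟩, fun p hp =>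
        ⟨0, Nat.zero_le _, h5 p hp, Or.inl h0⟩⟩
    · obtain ⟨G', h6, h7⟩ := ih {p ∈ T | eval (x p) (pderiv i0 G) = 0}
        (fun p hp => hx p hp.1)
        ⟨pderiv i0 G, pderiv_ne_zero (by omega), totalDegree_pderiv_le.trans (by omega),
          degreeOf_pderiv_le.trans (by omega), fun p hp => hp.2⟩
      refine ⟨fun i => match i with
        | 0 => G
        | (i + 1) => G' i, ?_, ?_⟩
      · rintro (_ | i)
        · exact ⟨h1, h2, h3, h4⟩
        · obtain ⟨a, b, c, d⟩ := h6 i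
          exact ⟨a, b, c.trans (Nat.le_succ m), d⟩
      · intro p hp
        by_cases hd : eval (x p) (pderiv i0 G) = 0
        · obtain ⟨i, hi, h8⟩ := h7 p ⟨hp, hd⟩
          exact ⟨i + 1, by omega, h8⟩
        · exact ⟨0, Nat.zero_le _, h5 p hp, Or.inr hd⟩

/-- **Chain lemma, gradient version.** If some nonzero polynomial of total degree `≤ m`
vanishes on `T`, then there are `m + 1` bounded polynomials `R i` attached to `T` such that every
point of `T` is a smooth zero of some `R i`. -/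
theorem chain_grad (H : ℕ) (hH : 1 ≤ H) (x : P → σ → ℤ) (m : ℕ) :
    ∀ T : Set P, (∀ p ∈ T, ∀ i, (x p i).natAbs ≤ H) →
    (∃ G : MvPolynomial σ ℤ, G ≠ 0 ∧ G.totalDegree ≤ m ∧ ∀ p ∈ T, eval (x p) G = 0) →
    ∃ R : ℕ → MvPolynomial σ ℤ, (∀ i, R i ≠ 0 ∧ (R i).totalDegree ≤ m ∧
        len (R i) ≤ hgt σ m H) ∧
      ∀ p ∈ T, ∃ i ≤ m, ∃ j, eval (x p) (R i) = 0 ∧ eval (x p) (pderiv j (R i)) ≠ 0 := by
  induction m with
  | zero =>
    intro T hx hrel
    obtain ⟨G, h1, h2, h4, h5⟩ := exists_bounded_totalDegree 0 H hH T x hx hrel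
    refine ⟨fun _ => G, fun _ => ⟨h1, h2, h4⟩, fun p hp => ?_⟩
    exfalso
    have h6 := MvPolynomial.totalDegree_eq_zero_iff_eq_C.mp (Nat.le_zero.mp h2)
    have h7 := h5 p hp
    rw [h6, eval_C] at h7
    rw [h7, map_zero] at h6
    exact h1 h6
  | succ m ih =>
    intro T hx hrel
    obtain ⟨G, h1, h2, h4, h5⟩ := exists_bounded_totalDegree (m + 1) H hH T x hx hrel
    by_cases h0 : G.totalDegree = 0
    · refine ⟨fun _ => G, fun _ => ⟨h1, h2, h4⟩, fun p hp => ?_⟩
      exfalso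
      have h6 := MvPolynomial.totalDegree_eq_zero_iff_eq_C.mp h0
      have h7 := h5 p hp
      rw [h6, eval_C] at h7
      rw [h7, map_zero] at h6
      exact h1 h6
    · have hj : ∃ j, 1 ≤ G.degreeOf j := by
        by_contra hcon
        push Not at hcon
        apply h0
        rw [MvPolynomial.totalDegree_eq_zero_iff]
        intro e he j
        have := (degreeOf_le_iff.mp (le_refl (G.degreeOf j))) e he
        have := hcon j
        omega
      obtain ⟨j, hj⟩ := hj
      obtain ⟨G', h6, h7⟩ := ih {p ∈ T | eval (x p) (pderiv j G) = 0}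
        (fun p hp => hx p hp.1)
        ⟨pderiv j G, pderiv_ne_zero hj, totalDegree_pderiv_le.trans (by omega), fun p hp => hp.2⟩
      refine ⟨fun i => match i with
        | 0 => G
        | (i + 1) => G' i, ?_, ?_⟩
      · rintro (_ | i)
        · exact ⟨h1, h2, h4⟩
        · obtain ⟨a, b, c⟩ := h6 i
          exact ⟨a, b.trans (Nat.le_succ m), c.trans (hgt_mono hH (Nat.le_succ m))⟩
      · intro p hp
        by_cases hd : eval (x p) (pderiv j G) = 0
        · obtain ⟨i, hi, h8⟩ := h7 p ⟨hp, hd⟩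
          exact ⟨i + 1, by omega, h8⟩
        · exact ⟨0, Nat.zero_le _, j, h5 p hp, hd⟩

end chain

end Crest.Agent.R22.Chain859
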