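import Mathlib

/-! Row 22: selection of attached objects, and iterated pigeonhole (helper859). -/

set_option autoImplicit false

open Finset

namespace Crest.Agent.R22.Select859

/-- **Selection lemma.** If every code class `U` has a list of `D + 1` objects `Xs` such that each
point of `U` satisfies `Φ (Xs i)` for some `i ≤ D`, then there is a selection `sel` taking at most
`D + 1` values on every set of points with the same code. -/
theorem exists_sel {π γ X : Type*} [Nonempty X] [DecidableEq X] (T : Finset π) (c : π → γ)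
    (Φ : X → π → Prop) (D : ℕ)
    (h : ∀ U ⊆ T, (∀ p ∈ U, ∀ p' ∈ U, c p = c p') →
      ∃ Xs : ℕ → X, ∀ p ∈ U, ∃ i ≤ D, Φ (Xs i) p) :
    ∃ sel : π → X, (∀ p ∈ T, Φ (sel p) p) ∧
      ∀ U ⊆ T, (∀ p ∈ U, ∀ p' ∈ U, c p = c p') → (U.image sel).card ≤ D + 1 := by
  classical
  have h1 : ∀ g : γ, ∃ Xs : ℕ → X, ∀ p ∈ T.filter (fun p => c p = g), ∃ i ≤ D, Φ (Xs i) p := by
    intro g
    refine h _ (Finset.filter_subset _ _) fun p hp p' hp' => ?_
    rw [(Finset.mem_filter.mp hp).2, (Finset.mem_filter.mp hp').2]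
  choose Xs hXs using h1
  have h2 : ∀ p : π, ∃ i, p ∈ T → i ≤ D ∧ Φ (Xs (c p) i) p := by
    intro p
    by_cases hp : p ∈ T
    · obtain ⟨i, hi, h3⟩ := hXs (c p) p (Finset.mem_filter.mpr ⟨hp, rfl⟩)
      exact ⟨i, fun _ => ⟨hi, h3⟩⟩
    · exact ⟨0, fun h => absurd h hp⟩
  choose idx hidx using h2
  refine ⟨fun p => Xs (c p) (idx p), fun p hp => (hidx p hp).2, fun U hU hc => ?_⟩
  rcases U.eq_empty_or_nonempty with h0 | ⟨p0, hp0⟩
  · simp [h0]
  have h3 : U.image (fun p => Xs (c p) (idx p)) ⊆ (range (D + 1)).image (Xs (c p0)) := by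
    intro x hx
    obtain ⟨p, hp, rfl⟩ := Finset.mem_image.mp hx
    refine Finset.mem_image.mpr ⟨idx p, Finset.mem_range.mpr ?_, ?_⟩
    · have := (hidx p (hU hp)).1
      omega
    · simp only [hc p hp p0 hp0]
  exact (Finset.card_le_card h3).trans (Finset.card_image_le.trans (by simp))

/-- the version with a side condition `good` -/
theorem exists_sel_good {π γ X : Type*} [Nonempty X] [DecidableEq X] (T : Finset π) (c : π → γ)
    (good : π → Prop) (Φ : X → π → Prop) (D : ℕ)
    (h : ∀ U ⊆ T, (∀ p ∈ U, good p) → (∀ p ∈ U, ∀ p' ∈ U, c p = c p') →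
      ∃ Xs : ℕ → X, ∀ p ∈ U, ∃ i ≤ D, Φ (Xs i) p) :
    ∃ sel : π → X, (∀ p ∈ T, good p → Φ (sel p) p) ∧
      ∀ U ⊆ T, (∀ p ∈ U, good p) → (∀ p ∈ U, ∀ p' ∈ U, c p = c p') →
        (U.image sel).card ≤ D + 1 := by
  classical
  obtain ⟨sel, h1, h2⟩ := exists_sel (T.filter good) c Φ D (fun U hU hc =>
    h U (hU.trans (Finset.filter_subset _ _)) (fun p hp => (Finset.mem_filter.mp (hU hp)).2) hc)
  refine ⟨sel, fun p hp hg => h1 p (Finset.mem_filter.mpr ⟨hp, hg⟩), fun U hU hg hc => ?_⟩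
  exact h2 U (fun p hp => Finset.mem_filter.mpr ⟨hU hp, hg p hp⟩) hc

/-- pigeonhole: pass to a subset where `g` is constant -/
theorem pigeon {π β : Type*} [DecidableEq β] (U : Finset π) (g : π → β) (D : ℕ)
    (h : (U.image g).card ≤ D) :
    ∃ U' ⊆ U, U.card ≤ D * U'.card ∧ ∀ p ∈ U', ∀ p' ∈ U', g p = g p' := by
  classical
  rcases U.eq_empty_or_nonempty with h0 | hne
  · exact ⟨∅, by simp, by simp [h0], by simp⟩
  obtain ⟨y, hy, hmax⟩ := Finset.exists_max_image (U.image g) (fun y => (U.filter fun p => g p = y).card)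
    (hne.image g)
  refine ⟨U.filter fun p => g p = y, Finset.filter_subset _ _, ?_, ?_⟩
  · calc U.card ≤ (U.filter fun p => g p = y).card * (U.image g).card :=
          Finset.card_le_mul_card_image U _ hmax
      _ ≤ D * _ := by rw [mul_comm]; exact Nat.mul_le_mul_right _ h
  · intro p hp p' hp'
    rw [(Finset.mem_filter.mp hp).2, (Finset.mem_filter.mp hp').2]

theorem pigeon_family {π ι β : Type*} [DecidableEq β] (I : Finset ι) (g : ι → π → β)
    (D : ℕ) (U : Finset π) (h : ∀ i ∈ I, (U.image (g i)).card ≤ D) :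
    ∃ U' ⊆ U, U.card ≤ D ^ I.card * U'.card ∧
      ∀ i ∈ I, ∀ p ∈ U', ∀ p' ∈ U', g i p = g i p' := by
  classical
  induction I using Finset.induction_on with
  | empty => exact ⟨U, subset_rfl, by simp, by simp⟩
  | insert a I ha ih =>
    obtain ⟨U1, h1, h2, h3⟩ := ih fun i hi => h i (Finset.mem_insert_of_mem hi)
    obtain ⟨U2, h4, h5, h6⟩ := pigeon U1 (g a) D
      ((Finset.card_le_card (Finset.image_subset_image h1)).trans
        (h a (Finset.mem_insert_self a I)))
    refine ⟨U2, h4.trans h1, ?_, ?_⟩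
    · rw [Finset.card_insert_of_notMem ha, pow_succ, mul_assoc]
      exact h2.trans (Nat.mul_le_mul_left _ h5)
    · intro i hi p hp p' hp'
      rcases Finset.mem_insert.mp hi with rfl | hi
      · exact h6 p hp p' hp'
      · exact h3 i hi p (h4 hp) p' (h4 hp')

end Crest.Agent.R22.Select859
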