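import Mathlib
import Crest.Agent.R022.Expand

/-! Row 22: specialisation of a polynomial in several variables to one variable, congruences and
the implicit function theorem (helper859). -/

set_option autoImplicit false

open Finset Polynomial

namespace Crest.Agent.R22.Spec859

open Crest.Agent.R022.Expand

variable {σ : Type*} [DecidableEq σ]

/-- `F(y_1, .., y_j + X, ..)` as a polynomial in `X` -/
noncomputable def spec (j : σ) (y : σ → ℤ) : MvPolynomial σ ℤ →+* ℤ[X] :=
  MvPolynomial.eval₂Hom C (fun i => if i = j then X + C (y j) else C (y i))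

theorem spec_C (j : σ) (y : σ → ℤ) (a : ℤ) : spec j y (MvPolynomial.C a) = C a := by
  simp [spec]

theorem spec_X_self (j : σ) (y : σ → ℤ) : spec j y (MvPolynomial.X j) = X + C (y j) := by
  simp [spec]

theorem spec_X_ne {i j : σ} (h : i ≠ j) (y : σ → ℤ) : spec j y (MvPolynomial.X i) = C (y i) := by
  simp [spec, h]

theorem spec_eval (j : σ) (y : σ → ℤ) (F : MvPolynomial σ ℤ) (δ : ℤ) :
    (spec j y F).eval δ = MvPolynomial.eval (Function.update y j (y j + δ)) F := by
  induction F using MvPolynomial.induction_on with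
  | C a => simp
  | add p q hp hq => simp [hp, hq]
  | mul_X p i hp =>
    rw [map_mul, map_mul, eval_mul, hp, MvPolynomial.eval_X]
    by_cases h : i = j
    · subst h
      rw [spec_X_self]; simp [add_comm]
    · rw [spec_X_ne h]; simp [h]

theorem spec_coeff_zero (j : σ) (y : σ → ℤ) (F : MvPolynomial σ ℤ) :
    (spec j y F).coeff 0 = MvPolynomial.eval y F := by
  rw [coeff_zero_eq_eval_zero, spec_eval]
  simp

theorem spec_coeff_one (j : σ) (y : σ → ℤ) (F : MvPolynomial σ ℤ) :
    (spec j y F).coeff 1 = MvPolynomial.eval y (MvPolynomial.pderiv j F) := by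
  induction F using MvPolynomial.induction_on with
  | C a =>
    rw [spec_C, coeff_C, if_neg one_ne_zero, MvPolynomial.pderiv_C, map_zero]
  | add p q hp hq => simp [hp, hq]
  | mul_X p i hp =>
    rw [map_mul, MvPolynomial.pderiv_mul, map_add, map_mul, map_mul, ← hp, MvPolynomial.eval_X,
      ← spec_coeff_zero]
    by_cases h : i = j
    · subst h
      rw [spec_X_self, MvPolynomial.pderiv_X_self]
      simp [mul_add, coeff_mul_X]
      ring
    · rw [spec_X_ne h, MvPolynomial.pderiv_X_of_ne h]
      simp

theorem spec_natDegree (j : σ) (y : σ → ℤ) (F : MvPolynomial σ ℤ) :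
    (spec j y F).natDegree ≤ F.totalDegree := by
  conv_lhs => rw [F.as_sum]
  rw [map_sum]
  refine natDegree_sum_le_of_forall_le _ _ fun e he => ?_
  rw [spec, MvPolynomial.coe_eval₂Hom, MvPolynomial.eval₂_monomial]
  refine natDegree_mul_le.trans ?_
  rw [natDegree_C, zero_add]
  refine (natDegree_prod_le _ _).trans (le_trans ?_ (MvPolynomial.le_totalDegree he))
  refine Finset.sum_le_sum fun i _ => ?_
  refine natDegree_pow_le.trans ?_
  have : (if i = j then (X : ℤ[X]) + C (y j) else C (y i)).natDegree ≤ 1 := by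
    split_ifs
    · exact (natDegree_X_add_C _).le
    · simp
  calc e i * _ ≤ e i * 1 := Nat.mul_le_mul_left _ this
    _ = e i := mul_one _

/-- Taylor formula in one variable modulo `q` -/
theorem taylor_one (F : MvPolynomial σ ℤ) (j : σ) (x y : σ → ℤ) (q : ℤ)
    (h : ∀ i, i ≠ j → q ∣ x i - y i) :
    ∃ c, q ∣ MvPolynomial.eval x F - MvPolynomial.eval y F -
      (x j - y j) * (MvPolynomial.eval y (MvPolynomial.pderiv j F) + (x j - y j) * c) := by
  set δ := x j - y j with hδ
  have h1 : q ∣ MvPolynomial.eval x F -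
      MvPolynomial.eval (Function.update y j (y j + δ)) F := by
    refine HasExp.dvd_eval_sub F fun i => ?_
    by_cases hi : i = j
    · subst hi; simp [hδ]
    · simpa [hi] using h i hi
  obtain ⟨k, hk⟩ := (spec j y F).binomExpansion 0 δ
  rw [zero_add, spec_eval, ← coeff_zero_eq_eval_zero, spec_coeff_zero,
    ← coeff_zero_eq_eval_zero] at hk
  have h2 : (spec j y F).derivative.coeff 0 = MvPolynomial.eval y (MvPolynomial.pderiv j F) := by
    rw [coeff_derivative, zero_add, spec_coeff_one]; simp
  rw [h2] at hk
  refine ⟨k, ?_⟩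
  rw [hk] at h1
  exact dvd_congr_right h1 (by ring)

/-- uniqueness of Hensel lifts -/
theorem lift_unique {r b : ℕ} (hr : r.Prime) (F : MvPolynomial σ ℤ) (j : σ) (x y : σ → ℤ)
    (h : ∀ i, i ≠ j → (r : ℤ) ^ b ∣ x i - y i) (hj : (r : ℤ) ∣ x j - y j)
    (hder : ¬ (r : ℤ) ∣ MvPolynomial.eval y (MvPolynomial.pderiv j F))
    (hF : (r : ℤ) ^ b ∣ MvPolynomial.eval x F - MvPolynomial.eval y F) :
    (r : ℤ) ^ b ∣ x j - y j := by
  obtain ⟨c, hc⟩ := taylor_one F j x y ((r : ℤ) ^ b) h
  have h1 := dvd_sub hF hc
  rw [sub_sub_cancel] at h1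
  have hp : Prime (r : ℤ) := Nat.prime_iff_prime_int.mp hr
  refine IsCoprime.dvd_of_dvd_mul_right ?_ h1
  refine IsCoprime.pow_left ?_
  rw [Prime.coprime_iff_not_dvd hp]
  intro h2
  apply hder
  have := dvd_sub h2 (hj.mul_right c)
  rwa [add_sub_cancel_right] at this

/-- the number of residues of a coordinate -/
theorem card_residues {P : Type*} {r : ℕ} (hr : r.Prime) (F : MvPolynomial σ ℤ) (j : σ)
    (U : Finset P) (x : P → σ → ℤ)
    (h : ∀ p ∈ U, ∀ p' ∈ U, ∀ i, i ≠ j → (r : ℤ) ∣ x p i - x p' i)
    (hF : ∀ p ∈ U, MvPolynomial.eval (x p) F = 0)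
    (hder : ∀ p ∈ U, ¬ (r : ℤ) ∣ MvPolynomial.eval (x p) (MvPolynomial.pderiv j F)) :
    (U.image fun p => x p j % (r : ℤ)).card ≤ F.totalDegree := by
  classical
  rcases U.eq_empty_or_nonempty with h0 | ⟨p0, hp0⟩
  · simp [h0]
  have : Fact r.Prime := ⟨hr⟩
  set g : (ZMod r)[X] := (spec j (x p0) F).map (Int.castRingHom (ZMod r)) with hg
  have hg0 : g ≠ 0 := by
    intro h0
    have h1 : g.coeff 1 = 0 := by rw [h0, coeff_zero]
    rw [hg, coeff_map, spec_coeff_one, Int.coe_castRingHom, ZMod.intCast_zmod_eq_zero_iff_dvd] at h1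
    exact hder p0 hp0 h1
  have hroot : ∀ p ∈ U, g.eval (((x p j - x p0 j : ℤ)) : ZMod r) = 0 := by
    intro p hp
    have h1 : (r : ℤ) ∣ MvPolynomial.eval (x p) F -
        MvPolynomial.eval (Function.update (x p0) j (x p0 j + (x p j - x p0 j))) F := by
      refine HasExp.dvd_eval_sub F fun i => ?_
      by_cases hi : i = j
      · subst hi; simp
      · simpa [hi] using h p hp p0 hp0 i hi
    rw [hF p hp, zero_sub, dvd_neg, ← spec_eval] at h1
    have h2 := (ZMod.intCast_zmod_eq_zero_iff_dvd _ r).mpr h1
    have h3 := Polynomial.eval_intCast_map (Int.castRingHom (ZMod r)) (spec j (x p0) F)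
      (x p j - x p0 j)
    rw [← hg] at h3
    rw [h3]
    exact h2
  calc (U.image fun p => x p j % (r : ℤ)).card
      ≤ (g.roots.toFinset).card := by
        refine Finset.card_le_card_of_surjOn
          (fun z : ZMod r => ((z + (x p0 j : ZMod r)).val : ℤ)) ?_
        intro u hu
        rw [Finset.mem_coe, Finset.mem_image] at hu
        obtain ⟨p, hp, rfl⟩ := hu
        refine ⟨((x p j - x p0 j : ℤ) : ZMod r), ?_, ?_⟩
        · rw [Finset.mem_coe, Multiset.mem_toFinset, mem_roots hg0]
          exact hroot p hp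
        · simp only
          push_cast
          rw [sub_add_cancel]
          exact ZMod.val_intCast _
    _ ≤ g.roots.card := Multiset.toFinset_card_le _
    _ ≤ g.natDegree := card_roots' g
    _ ≤ (spec j (x p0) F).natDegree := natDegree_map_le
    _ ≤ F.totalDegree := spec_natDegree _ _ _

/-! ### Expansions of implicit functions -/

section implicit

variable {P τ : Type*} {S : Set P} {s : P → τ → ℤ} {n : P → ℤ} {l : ℤ}

theorem hasExp_spec_coeff (F : MvPolynomial σ ℤ) (j : σ) (x : P → σ → ℤ) (y : ℤ) (m : ℕ)
    (hx : ∀ i, i ≠ j → HasExp S s n l m 0 (fun p => x p i)) (i : ℕ) :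
    HasExp S s n l m 0 (fun p => (spec j (Function.update (x p) j y) F).coeff i) := by
  induction F using MvPolynomial.induction_on generalizing i with
  | C a =>
    refine (HasExp.const (if i = 0 then a else 0)).congr fun p _ => ?_
    rw [spec_C, coeff_C]
  | add p q hp hq =>
    exact ((hp i).add (hq i)).congr fun p _ => by rw [map_add, coeff_add]
  | mul_X p i' hp =>
    by_cases h : i' = j
    · subst h
      rcases i with _ | i
      · refine (HasExp.mul_zero_left (hp 0) (HasExp.const y)).congr fun p _ => ?_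
        rw [map_mul, spec_X_self, mul_add, coeff_add, coeff_mul_X_zero, coeff_mul_C]
        simp
      · refine ((hp i).add (HasExp.mul_zero_left (hp (i + 1)) (HasExp.const y))).congr
          fun p _ => ?_
        rw [map_mul, spec_X_self, mul_add, coeff_add, coeff_mul_X, coeff_mul_C]
        simp
    · refine (HasExp.mul_zero_left (hp i) (hx i' h)).congr fun p _ => ?_
      rw [map_mul, spec_X_ne h, coeff_mul_C]
      simp [h]

/-- **Implicit function theorem**: if `F(x) = 0` on `S`, all coordinates but the `j`-th have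
expansions, and `∂F/∂x_j` is invertible modulo `l` on the class, then the `j`-th coordinate has
expansions. -/
theorem implicit_mv (F : MvPolynomial σ ℤ) (j : σ) (x : P → σ → ℤ) (y : σ → ℤ)
    (hx : ∀ i, i ≠ j → ∀ m, HasExp S s n l m 0 (fun p => x p i))
    (hxl : ∀ p ∈ S, ∀ i, l ∣ x p i - y i)
    (hder : IsCoprime (MvPolynomial.eval y (MvPolynomial.pderiv j F)) l)
    (hF : ∀ p ∈ S, MvPolynomial.eval (x p) F = 0) (m : ℕ) :
    HasExp S s n l m 0 (fun p => x p j) := by
  obtain ⟨u, v, huv⟩ := hder
  have hz : HasExp S s n l m 0 (fun p => x p j - y j) := by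
    refine HasExp.implicit (K := max 1 F.totalDegree)
      (c := fun i p => (spec j (Function.update (x p) j (y j)) F).coeff i)
      (fun m i _ => hasExp_spec_coeff F j x (y j) m (fun i hi => hx i hi m) i)
      (le_max_left _ _) u (fun p hp => ?_) (fun p hp => hxl p hp j) (fun p hp => ?_) m
    · rw [spec_coeff_one]
      have h1 : l ∣ MvPolynomial.eval (Function.update (x p) j (y j)) (MvPolynomial.pderiv j F) -
          MvPolynomial.eval y (MvPolynomial.pderiv j F) := by
        refine HasExp.dvd_eval_sub _ fun i => ?_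
        by_cases hi : i = j
        · subst hi; simp
        · simpa [hi] using hxl p hp i
      exact dvd_congr_right (dvd_sub (dvd_mul_left l v) (h1.mul_left u))
        (by linear_combination -huv)
    · rw [← eval_eq_sum_range' (n := max 1 F.totalDegree + 1) (by
        have h1 := spec_natDegree j (Function.update (x p) j (y j)) F
        have h2 : F.totalDegree ≤ max 1 F.totalDegree := le_max_right _ _
        omega), spec_eval]
      have h3 : Function.update (Function.update (x p) j (y j)) j
          ((Function.update (x p) j (y j)) j + (x p j - y j)) = x p := by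
        rw [Function.update_idem, Function.update_self]
        have : y j + (x p j - y j) = x p j := by ring
        rw [this, Function.update_eq_self]
      rw [h3, hF p hp]
  exact (hz.add (HasExp.const (y j))).congr fun p _ => by ring

end implicit

end Crest.Agent.R22.Spec859
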