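import Mathlib

/-! Row 22: tuple lemma and free set lemma (choice of auxiliary primes), helper859. -/
set_option autoImplicit false

open Finset
namespace Crest.Agent.R22.Tuple859
section tuple

variable {π : Type*} [DecidableEq π]

theorem card_coord_mem_le (PP : Finset π) (s B : ℕ) (j : Fin s) (b : (Fin s → π) → Finset π)
    (hdep : ∀ x y : Fin s → π, (∀ i, i ≠ j → x i = y i) → b x = b y)
    (hB : ∀ x, (∀ i, x i ∈ PP) → (b x).card ≤ B) :
    ((Fintype.piFinset fun _ : Fin s => PP).filter fun x => x j ∈ b x).card ≤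
      B * PP.card ^ (s - 1) := by
  classical
  set X := (Fintype.piFinset fun _ : Fin s => PP).filter fun x => x j ∈ b x with hX
  let φ : (Fin s → π) → ({i : Fin s // i ≠ j} → π) := fun x i => x i
  have h1 : X.card ≤ B * (X.image φ).card := by
    refine Finset.card_le_mul_card_image X B fun a ha => ?_
    obtain ⟨x0, hx0, rfl⟩ := Finset.mem_image.mp ha
    have hx0' := Finset.mem_filter.mp hx0
    refine le_trans ?_ (hB x0 (Fintype.mem_piFinset.mp hx0'.1))
    refine Finset.card_le_card_of_injOn (fun x => x j) ?_ ?_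
    · intro x hx
      have hx' := Finset.mem_filter.mp hx
      have hx'' := Finset.mem_filter.mp hx'.1
      have : b x = b x0 := hdep x x0 fun i hi => congrFun hx'.2 ⟨i, hi⟩
      rw [← this]
      exact hx''.2
    · intro x hx y hy hxy
      have hx' := (Finset.mem_filter.mp hx).2
      have hy' := (Finset.mem_filter.mp hy).2
      funext i
      by_cases hi : i = j
      · subst hi; exact hxy
      · exact congrFun (hx'.trans hy'.symm) ⟨i, hi⟩
  have h2 : (X.image φ).card ≤ PP.card ^ (s - 1) := by
    have h3 : X.image φ ⊆ Fintype.piFinset fun _ : {i : Fin s // i ≠ j} => PP := by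
      intro y hy
      obtain ⟨x, hx, rfl⟩ := Finset.mem_image.mp hy
      rw [Fintype.mem_piFinset]
      intro i
      exact Fintype.mem_piFinset.mp (Finset.mem_filter.mp hx).1 _
    refine (Finset.card_le_card h3).trans ?_
    rw [Fintype.card_piFinset, Finset.prod_const, Finset.card_univ]
    simp
  exact h1.trans (Nat.mul_le_mul_left _ h2)

/-- **Tuple lemma** (helper232's 2651 (1)). -/
theorem exists_tuple (PP : Finset π) (s B : ℕ) (bad : Finset (Fin s) → (Fin s → π) → Finset π)
    (hdep : ∀ A x y, (∀ i ∈ A, x i = y i) → bad A x = bad A y)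
    (hB : ∀ A x, (∀ i, x i ∈ PP) → (bad A x).card ≤ B)
    (hcard : s * 2 ^ s * B + s * s < PP.card) :
    ∃ x : Fin s → π, (∀ i, x i ∈ PP) ∧ Function.Injective x ∧
      ∀ A, ∀ j, j ∉ A → x j ∉ bad A x := by
  classical
  rcases Nat.eq_zero_or_pos s with hs | hs
  · subst hs
    exact ⟨Fin.elim0, fun i => i.elim0, fun i => i.elim0, fun A j => j.elim0⟩
  by_contra hcon
  push Not at hcon
  set X := Fintype.piFinset fun _ : Fin s => PP with hX
  set X1 : Finset (Fin s) × Fin s → Finset (Fin s → π) := fun p =>
    if p.2 ∈ p.1 then ∅ else X.filter fun x => x p.2 ∈ bad p.1 x with hX1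
  set X2 : Fin s × Fin s → Finset (Fin s → π) := fun p =>
    if p.1 = p.2 then ∅ else X.filter fun x => x p.2 ∈ ({x p.1} : Finset π) with hX2
  have hcover : X ⊆ (univ.biUnion X1) ∪ (univ.biUnion X2) := by
    intro x hx
    have hx' := Fintype.mem_piFinset.mp hx
    rw [Finset.mem_union, Finset.mem_biUnion, Finset.mem_biUnion]
    by_cases hinj : Function.Injective x
    · obtain ⟨A, j, hj, hbad⟩ := hcon x hx' hinj
      left
      refine ⟨(A, j), Finset.mem_univ _, ?_⟩
      simp only [hX1, hj, if_false]
      exact Finset.mem_filter.mpr ⟨hx, hbad⟩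
    · right
      simp only [Function.Injective, not_forall] at hinj
      obtain ⟨i, j, hij, hne⟩ := hinj
      refine ⟨(i, j), Finset.mem_univ _, ?_⟩
      simp only [hX2, hne, if_false]
      exact Finset.mem_filter.mpr ⟨hx, by rw [hij]; exact Finset.mem_singleton_self _⟩
  have h1 : ∀ p, (X1 p).card ≤ B * PP.card ^ (s - 1) := by
    intro p
    simp only [hX1]
    split_ifs with h
    · simp
    · exact card_coord_mem_le PP s B p.2 (bad p.1)
        (fun x y hxy => hdep _ _ _ fun i hi => hxy i fun h' => h (h' ▸ hi)) (hB p.1)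
  have h2 : ∀ p, (X2 p).card ≤ 1 * PP.card ^ (s - 1) := by
    intro p
    simp only [hX2]
    split_ifs with h
    · simp
    · exact card_coord_mem_le PP s 1 p.2 (fun x => {x p.1})
        (fun x y hxy => by rw [hxy p.1 h]) (fun x _ => by simp)
  have h3 : X.card = PP.card ^ s := by
    rw [hX, Fintype.card_piFinset]; simp
  have h4 : X.card ≤ (s * 2 ^ s * B + s * s) * PP.card ^ (s - 1) := by
    calc X.card ≤ (univ.biUnion X1).card + (univ.biUnion X2).card :=
          (Finset.card_le_card hcover).trans (Finset.card_union_le _ _)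
      _ ≤ (∑ p, (X1 p).card) + ∑ p, (X2 p).card :=
          add_le_add Finset.card_biUnion_le Finset.card_biUnion_le
      _ ≤ (∑ _p : Finset (Fin s) × Fin s, B * PP.card ^ (s - 1)) +
            ∑ _p : Fin s × Fin s, 1 * PP.card ^ (s - 1) :=
          add_le_add (Finset.sum_le_sum fun p _ => h1 p) (Finset.sum_le_sum fun p _ => h2 p)
      _ = (s * 2 ^ s * B + s * s) * PP.card ^ (s - 1) := by
          simp only [Finset.sum_const, Finset.card_univ, Fintype.card_prod, Fintype.card_finset,
            Fintype.card_fin, smul_eq_mul]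
          ring
  have h5 : PP.card ^ s = PP.card * PP.card ^ (s - 1) := by
    rw [← pow_succ']; congr 1; omega
  have h6 : 0 < PP.card ^ (s - 1) := by
    apply Nat.pow_pos; omega
  rw [h3, h5] at h4
  exact absurd (Nat.le_of_mul_le_mul_right h4 h6) (by omega)

/-- **Free set lemma**: subset version of the tuple lemma. -/
theorem exists_free_set (PP : Finset π) (s B : ℕ) (bad : Finset π → Finset π)
    (hB : ∀ A ⊆ PP, (bad A).card ≤ B) (hcard : s * 2 ^ s * B + s * s < PP.card) :
    ∃ W ⊆ PP, W.card = s ∧ ∀ A ⊆ W, ∀ r ∈ W, r ∉ A → r ∉ bad A := by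
  classical
  obtain ⟨x, hx, hinj, h⟩ := exists_tuple PP s B (fun A x => bad (A.image x))
    (fun A x y hxy => by
      have : A.image x = A.image y := Finset.image_congr fun i hi => hxy i hi
      simp only [this])
    (fun A x hx => hB _ (Finset.image_subset_iff.mpr fun i _ => hx i)) hcard
  refine ⟨univ.image x, Finset.image_subset_iff.mpr fun i _ => hx i, ?_, ?_⟩
  · rw [Finset.card_image_of_injective _ hinj]; simp
  · intro A hA r hr hrA
    obtain ⟨j, _, rfl⟩ := Finset.mem_image.mp hr
    have h1 : A = (univ.filter fun i => x i ∈ A).image x := by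
      ext a
      simp only [Finset.mem_image, Finset.mem_filter, Finset.mem_univ, true_and]
      constructor
      · intro ha
        obtain ⟨i, _, rfl⟩ := Finset.mem_image.mp (hA ha)
        exact ⟨i, ha, rfl⟩
      · rintro ⟨i, hi, rfl⟩
        exact hi
    have h2 := h (univ.filter fun i => x i ∈ A) j (by simpa using hrA)
    rwa [← h1] at h2

end tuple
end Crest.Agent.R22.Tuple859
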