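import Mathlib
import Crest.Agent.R22.Spec859
import Crest.Agent.R22.Select859
import Crest.Agent.R22.Chain859
import Crest.Agent.R22.Tuple859

/-! Row 22: level bookkeeping, definitions and the level lemmas (helper859). -/

set_option autoImplicit false

open Finset

namespace Crest.Agent.R22.Levels859

open Crest.Agent.R022.Expand MvPolynomial
open Spec859 Select859 Chain859 Tuple859 PolyKit

/-- points of the slice -/
abbrev Pnt := Fin 2 → ℤ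

/-- coordinates `(n, t_0, t_1)` -/
def v3 (n : Pnt → ℤ) (t : Pnt) : Fin 3 → ℤ := ![n t, t 0, t 1]

/-- coordinates `(n, t_j)` -/
def v2 (n : Pnt → ℤ) (j : Fin 2) (t : Pnt) : Fin 2 → ℤ := ![n t, t j]

/-- `φ` is a polynomial in the parameters `s` modulo all powers of `l` -/
def ParExp {τ : Type} (U : Finset Pnt) (s : Pnt → τ → ℤ) (l : ℤ) (φ : Pnt → ℤ) : Prop :=
  ∀ (n' : Pnt → ℤ) (m : ℕ), HasExp (↑U : Set Pnt) s n' l m 0 φ

/-- `t` and `n` have expansions in two parameters -/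
def TwoPar (U : Finset Pnt) (n : Pnt → ℤ) (l : ℤ) : Prop :=
  ∃ s : Pnt → Fin 2 → ℤ, (∀ t ∈ U, ∀ i, l ∣ s t i) ∧ (∀ i, ParExp U s l (fun t => t i)) ∧
    ParExp U s l n

/-- `t` has expansions in one parameter -/
def OnePar (U : Finset Pnt) (l : ℤ) : Prop :=
  ∃ s : Pnt → Fin 1 → ℤ, (∀ t ∈ U, ∀ i, l ∣ s t i) ∧ ∀ i, ParExp U s l (fun t => t i)

/-- `t` and `n` have expansions in one parameter -/
def OneParN (U : Finset Pnt) (n : Pnt → ℤ) (l : ℤ) : Prop :=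
  ∃ s : Pnt → Fin 1 → ℤ, (∀ t ∈ U, ∀ i, l ∣ s t i) ∧ (∀ i, ParExp U s l (fun t => t i)) ∧
    ParExp U s l n

theorem v3_zero (n : Pnt → ℤ) (t : Pnt) : v3 n t 0 = n t := rfl
theorem v3_succ (n : Pnt → ℤ) (t : Pnt) (i : Fin 2) : v3 n t i.succ = t i := by
  fin_cases i <;> rfl
theorem v2_zero (n : Pnt → ℤ) (j : Fin 2) (t : Pnt) : v2 n j t 0 = n t := rfl
theorem v2_one (n : Pnt → ℤ) (j : Fin 2) (t : Pnt) : v2 n j t 1 = t j := rfl

/-- good zero of `G`, level 0 -/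
def Phi0 (n : Pnt → ℤ) (D H : ℕ) (G : MvPolynomial (Fin 3) ℤ) (t : Pnt) : Prop :=
  G ≠ 0 ∧ G.totalDegree ≤ D ∧ len G ≤ hgt (Fin 3) D H ∧ eval (v3 n t) G = 0 ∧
    (G.degreeOf 0 = 0 ∨ eval (v3 n t) (pderiv 0 G) ≠ 0)

/-- smooth zero of a plane curve, level 1 -/
def Phi1 (D H : ℕ) (R : MvPolynomial (Fin 2) ℤ × Fin 2) (t : Pnt) : Prop :=
  R.1 ≠ 0 ∧ R.1.totalDegree ≤ D ∧ len R.1 ≤ hgt (Fin 2) D H ∧ eval t R.1 = 0 ∧
    eval t (pderiv R.2 R.1) ≠ 0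

/-- good zero of `E(n, t_j)`, level 2 -/
def Phi2 (n : Pnt → ℤ) (D H : ℕ) (j : Fin 2) (E : MvPolynomial (Fin 2) ℤ) (t : Pnt) : Prop :=
  E ≠ 0 ∧ E.totalDegree ≤ D ∧ len E ≤ hgt (Fin 2) D H ∧ eval (v2 n j t) E = 0 ∧
    (E.degreeOf 0 = 0 ∨ eval (v2 n j t) (pderiv 0 E) ≠ 0)

/-- residue code of `t` modulo `r ^ e`, `r ∈ Q` -/
def c0 (e : ℕ) (Q : Finset ℕ) (t : Pnt) : ℕ → Fin 2 → ℤ :=
  fun r i => if r ∈ Q then t i % ((r : ℤ) ^ e) else 0

theorem c0_eq_iff (e : ℕ) (Q : Finset ℕ) (t t' : Pnt) :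
    c0 e Q t = c0 e Q t' ↔ ∀ r ∈ Q, ∀ i, ((r : ℤ) ^ e) ∣ t i - t' i := by
  constructor
  · intro h r hr i
    have h1 := congrFun (congrFun h r) i
    simp only [c0, hr, if_true] at h1
    exact Int.ModEq.dvd (show t' i ≡ t i [ZMOD (r : ℤ) ^ e] from h1.symm)
  · intro h
    funext r i
    simp only [c0]
    split_ifs with hr
    · exact ((Int.modEq_iff_dvd.mpr (h r hr i)) : t' i ≡ t i [ZMOD (r : ℤ) ^ e]).symm
    · rfl

section defs

variable (n : Pnt → ℤ) (sel0 : Finset ℕ → Pnt → MvPolynomial (Fin 3) ℤ)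
  (sel1 : Finset ℕ → Pnt → MvPolynomial (Fin 2) ℤ × Fin 2)

/-- all the selected level-0 relations for `Q \ r` involve `n` -/
def nd0 (Q : Finset ℕ) (t : Pnt) : Prop := ∀ r ∈ Q, (sel0 (Q.erase r) t).degreeOf 0 ≠ 0

open Classical in
/-- level 1 code -/
noncomputable def c1 (a : ℕ) (Q : Finset ℕ) (t : Pnt) :
    (ℕ → Fin 2 → ℤ) × (ℕ → MvPolynomial (Fin 3) ℤ) × (ℕ → ℤ) :=
  (c0 a Q t, fun r => if r ∈ Q then sel0 (Q.erase r) t else 0,
    fun r => if r ∈ Q ∧ nd0 sel0 Q t then n t % (r : ℤ) else 0)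

/-- the primes of `Q` are good for the level-0 relations -/
def good1 (Q : Finset ℕ) (t : Pnt) : Prop :=
  ∀ r ∈ Q, (sel0 (Q.erase r) t).degreeOf 0 = 0 ∨
    ¬ (r : ℤ) ∣ eval (v3 n t) (pderiv 0 (sel0 (Q.erase r) t))

open Classical in
/-- level 2 code -/
noncomputable def c2 (a b : ℕ) (Q : Finset ℕ) (t : Pnt) :
    (ℕ → Fin 2 → ℤ) × (ℕ → Option ((ℕ → Fin 2 → ℤ) × (ℕ → MvPolynomial (Fin 3) ℤ) × (ℕ → ℤ))) ×
      (ℕ → Option (MvPolynomial (Fin 2) ℤ × Fin 2)) :=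
  (c0 b Q t, fun r => if r ∈ Q then some (c1 n sel0 a (Q.erase r) t) else none,
    fun r => if r ∈ Q then some (sel1 (Q.erase r) t) else none)

/-- the primes of `Q` are good for the level-1 relations -/
def good2 (Q : Finset ℕ) (t : Pnt) : Prop :=
  ∀ r ∈ Q, good1 n sel0 (Q.erase r) t ∧
    ¬ (r : ℤ) ∣ eval t (pderiv (sel1 (Q.erase r) t).2 (sel1 (Q.erase r) t).1)

end defs

/-- a polynomial not involving the variable `0` -/
theorem exists_drop {r : ℕ} (G : MvPolynomial (Fin (r + 1)) ℤ) (hG : G ≠ 0)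
    (h0 : G.degreeOf 0 = 0) :
    ∃ R : MvPolynomial (Fin r) ℤ, R ≠ 0 ∧ R.totalDegree ≤ G.totalDegree ∧
      ∀ x : Fin (r + 1) → ℤ, eval x G = eval (fun i => x i.succ) R := by
  have h1 : (finSuccEquiv ℤ r G).natDegree = 0 := by rw [natDegree_finSuccEquiv, h0]
  have h2 := Polynomial.eq_C_of_natDegree_eq_zero h1
  have hne : (finSuccEquiv ℤ r G).coeff 0 ≠ 0 := by
    intro h3
    rw [h3, map_zero] at h2
    exact hG ((finSuccEquiv ℤ r).injective (by rw [h2, map_zero]))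
  refine ⟨(finSuccEquiv ℤ r G).coeff 0, hne, ?_, fun x => ?_⟩
  · have := totalDegree_coeff_finSuccEquiv_add_le G 0 hne
    omega
  · rw [← eval₂_finSuccEquiv G x]
    conv_lhs => rw [h2]
    rw [Polynomial.eval₂_C]

/-- **Level 1**: a good class with constant level 1 code lies on a plane curve. -/
theorem level1 {T : Finset Pnt} {n : Pnt → ℤ} {PP : Finset ℕ} {h a D0 D1 H : ℕ}
    (ha : 1 ≤ a) (hD : D0 ≤ D1) (hprime : ∀ r ∈ PP, r.Prime)
    (h1 : ∀ U ⊆ T, ∀ Q ⊆ PP, Q.card = h + 1 →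
      (∃ G : MvPolynomial (Fin 3) ℤ, G ≠ 0 ∧ G.totalDegree ≤ D0 ∧ ∀ t ∈ U, eval (v3 n t) G = 0) →
      (∀ r ∈ Q, TwoPar U n ((r : ℤ) ^ a)) →
      ∃ R : MvPolynomial (Fin 2) ℤ, R ≠ 0 ∧ R.totalDegree ≤ D1 ∧ ∀ t ∈ U, eval t R = 0)
    (sel0 : Finset ℕ → Pnt → MvPolynomial (Fin 3) ℤ)
    (hsel0 : ∀ Q ⊆ PP, Q.card = h → ∀ t ∈ T, Phi0 n D0 H (sel0 Q t) t)
    (Q : Finset ℕ) (hQ : Q ⊆ PP) (hQc : Q.card = h + 1) (U : Finset Pnt) (hU : U ⊆ T)
    (hgood : ∀ t ∈ U, good1 n sel0 Q t)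
    (hc : ∀ t ∈ U, ∀ t' ∈ U, c1 n sel0 a Q t = c1 n sel0 a Q t') :
    ∃ R : MvPolynomial (Fin 2) ℤ, R ≠ 0 ∧ R.totalDegree ≤ D1 ∧ ∀ t ∈ U, eval t R = 0 := by
  classical
  rcases U.eq_empty_or_nonempty with h0 | ⟨t0, ht0⟩
  · exact ⟨1, one_ne_zero, by simp, by simp [h0]⟩
  -- constancy
  have hcong : ∀ t ∈ U, ∀ t' ∈ U, ∀ r ∈ Q, ∀ i, ((r : ℤ) ^ a) ∣ t i - t' i := by
    intro t ht t' ht'
    have := congrArg Prod.fst (hc t ht t' ht')
    exact (c0_eq_iff a Q t t').mp this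
  have hsel : ∀ t ∈ U, ∀ r ∈ Q, sel0 (Q.erase r) t = sel0 (Q.erase r) t0 := by
    intro t ht r hr
    have := congrFun (congrArg (fun x => x.2.1) (hc t ht t0 ht0)) r
    simpa [c1, hr] using this
  have herase : ∀ r ∈ Q, Q.erase r ⊆ PP ∧ (Q.erase r).card = h := fun r hr =>
    ⟨(Finset.erase_subset _ _).trans hQ, by rw [Finset.card_erase_of_mem hr, hQc]; simp⟩
  have hphi : ∀ t ∈ U, ∀ r ∈ Q, Phi0 n D0 H (sel0 (Q.erase r) t0) t := by
    intro t ht r hr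
    rw [← hsel t ht r hr]
    exact hsel0 _ (herase r hr).1 (herase r hr).2 t (hU ht)
  by_cases hdeg : ∃ r ∈ Q, (sel0 (Q.erase r) t0).degreeOf 0 = 0
  · obtain ⟨r, hr, hd⟩ := hdeg
    obtain ⟨R, hR0, hRd, hR⟩ := exists_drop _ (hphi t0 ht0 r hr).1 hd
    refine ⟨R, hR0, hRd.trans ((hphi t0 ht0 r hr).2.1.trans hD), fun t ht => ?_⟩
    have h2 := (hphi t ht r hr).2.2.2.1
    rw [hR] at h2
    rw [← h2]
    congr 2
    funext i
    exact (v3_succ n t i).symm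
  · push Not at hdeg
    have hnd : ∀ t ∈ U, nd0 sel0 Q t := fun t ht r hr => by
      rw [hsel t ht r hr]; exact hdeg r hr
    have hnmod : ∀ t ∈ U, ∀ t' ∈ U, ∀ r ∈ Q, (r : ℤ) ∣ n t - n t' := by
      intro t ht t' ht' r hr
      have := congrFun (congrArg (fun x => x.2.2) (hc t ht t' ht')) r
      simp only [c1, hr, hnd t ht, hnd t' ht', and_self, if_true] at this
      exact Int.ModEq.dvd (show n t' ≡ n t [ZMOD (r : ℤ)] from this.symm)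
    have hder : ∀ t ∈ U, ∀ r ∈ Q,
        ¬ (r : ℤ) ∣ eval (v3 n t) (pderiv 0 (sel0 (Q.erase r) t0)) := by
      intro t ht r hr
      rcases hgood t ht r hr with h2 | h2
      · exact absurd h2 (hnd t ht r hr)
      · rwa [hsel t ht r hr] at h2
    have hQne : Q.Nonempty := by
      rw [← Finset.card_pos]; omega
    obtain ⟨r1, hr1⟩ := hQne
    refine h1 U hU Q hQ hQc ⟨sel0 (Q.erase r1) t0, (hphi t0 ht0 r1 hr1).1,
      (hphi t0 ht0 r1 hr1).2.1, fun t ht => (hphi t ht r1 hr1).2.2.2.1⟩ fun r hr => ?_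
    have hrp : r.Prime := hprime r (hQ hr)
    have hs : ∀ i, ParExp U (fun t i => t i - t0 i) ((r : ℤ) ^ a) (fun t => t i) :=
      fun i n' m => ((HasExp.param i).add (HasExp.const (t0 i))).congr fun t _ => by ring
    refine ⟨fun t i => t i - t0 i, fun t ht i => hcong t ht t0 ht0 r hr i, hs, fun n' m => ?_⟩
    have hra : (r : ℤ) ∣ (r : ℤ) ^ a := dvd_pow_self _ (by omega)
    refine implicit_mv (sel0 (Q.erase r) t0) 0 (v3 n) (v3 n t0) (fun i hi m => ?_)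
      (fun t ht i => ?_) ?_ (fun t ht => (hphi t ht r hr).2.2.2.1) m
    · obtain ⟨i', rfl⟩ := Fin.exists_succ_eq.mpr hi
      exact (hs i' n' m).congr fun t _ => v3_succ n t i'
    · refine Fin.cases ?_ (fun i => ?_) i
      · refine lift_unique hrp (sel0 (Q.erase r) t0) 0 (v3 n t) (v3 n t0) (fun i hi => ?_) ?_ ?_ ?_
        · obtain ⟨i', rfl⟩ := Fin.exists_succ_eq.mpr hi
          rw [v3_succ, v3_succ]
          exact hcong t ht t0 ht0 r hr i'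
        · exact hnmod t ht t0 ht0 r hr
        · exact hder t0 ht0 r hr
        · rw [(hphi t ht r hr).2.2.2.1, (hphi t0 ht0 r hr).2.2.2.1, sub_zero]
          exact dvd_zero _
      · rw [v3_succ, v3_succ]
        exact hcong t ht t0 ht0 r hr i
    · refine IsCoprime.pow_right ?_
      rw [isCoprime_comm, Prime.coprime_iff_not_dvd (Nat.prime_iff_prime_int.mp hrp)]
      exact hder t0 ht0 r hr

/-- on a class where a smooth relation is good at `r`, `t` has one parameter expansions -/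
theorem onePar_of_smooth {U : Finset Pnt} {r e : ℕ} (hr : r.Prime)
    (R : MvPolynomial (Fin 2) ℤ) (j : Fin 2) (t0 : Pnt)
    (hcong : ∀ t ∈ U, ∀ i, ((r : ℤ) ^ e) ∣ t i - t0 i) (hR : ∀ t ∈ U, eval t R = 0)
    (hder : ¬ (r : ℤ) ∣ eval t0 (pderiv j R)) :
    (∀ t ∈ U, ∀ i : Fin 1, ((r : ℤ) ^ e) ∣ (fun (t : Pnt) (_ : Fin 1) => t (1 - j) - t0 (1 - j)) t i) ∧
      ∀ i, ParExp U (fun (t : Pnt) (_ : Fin 1) => t (1 - j) - t0 (1 - j)) ((r : ℤ) ^ e)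
        (fun t => t i) := by
  have hother : ∀ i : Fin 2, i ≠ j → i = 1 - j := by
    intro i hi; fin_cases i <;> fin_cases j <;> simp_all
  have hs : ParExp U (fun (t : Pnt) (_ : Fin 1) => t (1 - j) - t0 (1 - j)) ((r : ℤ) ^ e)
      (fun t => t (1 - j)) := fun n' m =>
    ((HasExp.param (0 : Fin 1)).add (HasExp.const (t0 (1 - j)))).congr fun t _ => by ring
  refine ⟨fun t ht i => hcong t ht _, fun i n' m => ?_⟩
  by_cases hi : i = j
  · subst hi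
    refine implicit_mv R i (fun t => t) t0 (fun i' hi' m => ?_) (fun t ht i' => hcong t ht i')
      ?_ hR m
    · rw [hother i' hi']
      exact hs n' m
    · refine IsCoprime.pow_right ?_
      rw [isCoprime_comm, Prime.coprime_iff_not_dvd (Nat.prime_iff_prime_int.mp hr)]
      exact hder
  · rw [hother i hi]
    exact hs n' m

/-- **Level 2**: relations between `n` and `t_j` on good classes with constant level 2 code. -/
theorem level2 {T : Finset Pnt} {n : Pnt → ℤ} {PP : Finset ℕ} {h a b D1 D2 H : ℕ}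
    (hprime : ∀ r ∈ PP, r.Prime)
    (h2 : ∀ U ⊆ T, ∀ Q ⊆ PP, Q.card = h + 2 →
      (∃ R : MvPolynomial (Fin 2) ℤ, R ≠ 0 ∧ R.totalDegree ≤ D1 ∧ ∀ t ∈ U, eval t R = 0) →
      (∀ r ∈ Q, OnePar U ((r : ℤ) ^ b)) →
      ∀ j : Fin 2, ∃ E : MvPolynomial (Fin 2) ℤ, E ≠ 0 ∧ E.totalDegree ≤ D2 ∧
        ∀ t ∈ U, eval (v2 n j t) E = 0)
    (sel0 : Finset ℕ → Pnt → MvPolynomial (Fin 3) ℤ)
    (sel1 : Finset ℕ → Pnt → MvPolynomial (Fin 2) ℤ × Fin 2)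
    (hsel1 : ∀ Q ⊆ PP, Q.card = h + 1 → ∀ t ∈ T, good1 n sel0 Q t → Phi1 D1 H (sel1 Q t) t)
    (Q : Finset ℕ) (hQ : Q ⊆ PP) (hQc : Q.card = h + 2) (U : Finset Pnt) (hU : U ⊆ T)
    (hgood : ∀ t ∈ U, good2 n sel0 sel1 Q t)
    (hc : ∀ t ∈ U, ∀ t' ∈ U, c2 n sel0 sel1 a b Q t = c2 n sel0 sel1 a b Q t') (j : Fin 2) :
    ∃ E : MvPolynomial (Fin 2) ℤ, E ≠ 0 ∧ E.totalDegree ≤ D2 ∧
      ∀ t ∈ U, eval (v2 n j t) E = 0 := by
  classical
  rcases U.eq_empty_or_nonempty with h0 | ⟨t0, ht0⟩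
  · exact ⟨1, one_ne_zero, by simp, by simp [h0]⟩
  have hcong : ∀ t ∈ U, ∀ t' ∈ U, ∀ r ∈ Q, ∀ i, ((r : ℤ) ^ b) ∣ t i - t' i := by
    intro t ht t' ht'
    have := congrArg Prod.fst (hc t ht t' ht')
    exact (c0_eq_iff b Q t t').mp this
  have hsel : ∀ t ∈ U, ∀ r ∈ Q, sel1 (Q.erase r) t = sel1 (Q.erase r) t0 := by
    intro t ht r hr
    have := congrFun (congrArg (fun x => x.2.2) (hc t ht t0 ht0)) r
    simpa [c2, hr] using this
  have herase : ∀ r ∈ Q, Q.erase r ⊆ PP ∧ (Q.erase r).card = h + 1 := fun r hr =>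
    ⟨(Finset.erase_subset _ _).trans hQ, by rw [Finset.card_erase_of_mem hr, hQc]; simp⟩
  have hphi : ∀ t ∈ U, ∀ r ∈ Q, Phi1 D1 H (sel1 (Q.erase r) t0) t := by
    intro t ht r hr
    rw [← hsel t ht r hr]
    exact hsel1 _ (herase r hr).1 (herase r hr).2 t (hU ht) (hgood t ht r hr).1
  have hQne : Q.Nonempty := by
    rw [← Finset.card_pos]; omega
  obtain ⟨r1, hr1⟩ := hQne
  refine h2 U hU Q hQ hQc ⟨(sel1 (Q.erase r1) t0).1, (hphi t0 ht0 r1 hr1).1,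
      (hphi t0 ht0 r1 hr1).2.1, fun t ht => (hphi t ht r1 hr1).2.2.2.1⟩ (fun r hr => ?_) j
  obtain ⟨h3, h4⟩ := onePar_of_smooth (hprime r (hQ hr)) (sel1 (Q.erase r) t0).1
    (sel1 (Q.erase r) t0).2 t0 (fun t ht i => hcong t ht t0 ht0 r hr i)
    (fun t ht => (hphi t ht r hr).2.2.2.1) (hgood t0 ht0 r hr).2
  exact ⟨_, h3, h4⟩

end Crest.Agent.R22.Levels859
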