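import Mathlib
import Crest.Agent.R22.Levels859A

/-! Row 22: level bookkeeping, selections and bad primes (helper859). -/

set_option autoImplicit false

open Finset

namespace Crest.Agent.R22.Levels859

open Crest.Agent.R022.Expand MvPolynomial
open Spec859 Select859 Chain859 Tuple859 PolyKit

theorem len_pderiv_le {σ : Type*} (G : MvPolynomial σ ℤ) (j : σ) :
    len (pderiv j G) ≤ G.totalDegree * len G := by
  classical
  have hinj : Set.InjOn (fun m : σ →₀ ℕ => m + Finsupp.single j 1) (pderiv j G).support :=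
    fun m _ m' _ h => add_right_cancel h
  calc len (pderiv j G) = ∑ m ∈ (pderiv j G).support, ((pderiv j G).coeff m).natAbs := rfl
    _ ≤ ∑ m ∈ (pderiv j G).support,
          G.totalDegree * (G.coeff (m + Finsupp.single j 1)).natAbs := by
        refine Finset.sum_le_sum fun m hm => ?_
        rw [coeff_pderiv, Int.natAbs_mul, mul_comm]
        refine Nat.mul_le_mul_right _ ?_
        have h1 := le_totalDegree (support_pderiv hm)
        have h2 : ((m + Finsupp.single j 1).sum fun _ e => e) = (m.sum fun _ e => e) + 1 := by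
          rw [Finsupp.sum_add_index' (by simp) (by simp)]
          simp
        have h3 : m j ≤ m.sum fun _ e => e := by
          by_cases hj : j ∈ m.support
          · exact Finset.single_le_sum (f := fun i => m i) (fun _ _ => Nat.zero_le _) hj
          · rw [Finsupp.notMem_support_iff.mp hj]; exact Nat.zero_le _
        have h4 : ((m j : ℤ) + 1).natAbs = m j + 1 := by
          exact_mod_cast Int.natAbs_natCast (m j + 1)
        rw [h4]
        omega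
    _ = ∑ e ∈ (pderiv j G).support.image (fun m : σ →₀ ℕ => m + Finsupp.single j 1),
          G.totalDegree * (G.coeff e).natAbs := by
        rw [Finset.sum_image hinj]
    _ ≤ ∑ e ∈ G.support, G.totalDegree * (G.coeff e).natAbs := by
        refine Finset.sum_le_sum_of_subset fun e he => ?_
        obtain ⟨m, hm, rfl⟩ := Finset.mem_image.mp he
        exact support_pderiv hm
    _ = G.totalDegree * len G := by rw [← Finset.mul_sum]; rfl

/-- size of a derivative at a point -/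
theorem natAbs_pderiv_le {σ : Type*} [Fintype σ] [DecidableEq σ] (G : MvPolynomial σ ℤ) (j : σ)
    (x : σ → ℤ) (D H : ℕ) (hH : 1 ≤ H) (hx : ∀ i, (x i).natAbs ≤ H) (hD : G.totalDegree ≤ D)
    (hlen : len G ≤ hgt σ D H) : (eval x (pderiv j G)).natAbs ≤ D * hgt σ D H * H ^ D := by
  have h1 := natAbs_eval_le (pderiv j G) x H D hH hx
    ((totalDegree_pderiv_le.trans (Nat.sub_le _ _)).trans hD)
  exact h1.trans (Nat.mul_le_mul_right _ ((len_pderiv_le G j).trans (Nat.mul_le_mul hD hlen)))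

/-- one-variable polynomials have few roots -/
theorem card_roots_one (R : MvPolynomial (Fin 1) ℤ) (hR : R ≠ 0) (U : Finset ℤ)
    (h : ∀ u ∈ U, eval (fun _ => u) R = 0) : U.card ≤ R.totalDegree := by
  classical
  set g : Polynomial ℤ := spec 0 0 R with hg
  have hev : ∀ u, g.eval u = eval (fun _ => u) R := by
    intro u
    rw [hg, spec_eval]
    congr 2
    funext i
    fin_cases i
    simp
  have hg0 : g ≠ 0 := by
    intro h0
    apply hR
    apply MvPolynomial.funext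
    intro x
    have h1 := hev (x 0)
    rw [h0, Polynomial.eval_zero] at h1
    rw [map_zero, h1]
    congr 2
    funext i
    fin_cases i
    rfl
  calc U.card ≤ g.roots.toFinset.card := by
        refine Finset.card_le_card fun u hu => ?_
        rw [Multiset.mem_toFinset, Polynomial.mem_roots hg0]
        show g.eval u = 0
        rw [hev]; exact h u hu
    _ ≤ g.roots.card := Multiset.toFinset_card_le _
    _ ≤ g.natDegree := Polynomial.card_roots' g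
    _ ≤ R.totalDegree := spec_natDegree _ _ _

section sel

variable {T : Finset Pnt} {n : Pnt → ℤ} {PP : Finset ℕ} {h a b D0 D1 D2 H : ℕ}

theorem natAbs_v3 {t : Pnt} (ht : ∀ i, (t i).natAbs ≤ H) (hn : (n t).natAbs ≤ H) (i : Fin 3) :
    (v3 n t i).natAbs ≤ H := by
  refine Fin.cases ?_ (fun i => ?_) i
  · exact hn
  · rw [v3_succ]; exact ht i

theorem natAbs_v2 {t : Pnt} (ht : ∀ i, (t i).natAbs ≤ H) (hn : (n t).natAbs ≤ H) (j i : Fin 2) :
    (v2 n j t i).natAbs ≤ H := by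
  fin_cases i
  · exact hn
  · exact ht j

theorem exists_sel0 (hH : 1 ≤ H) (ht : ∀ t ∈ T, ∀ i, (t i).natAbs ≤ H)
    (hn : ∀ t ∈ T, (n t).natAbs ≤ H)
    (h0 : ∀ U ⊆ T, ∀ Q ⊆ PP, Q.card = h →
      (∀ r ∈ Q, ∀ t ∈ U, ∀ t' ∈ U, ∀ i, ((r : ℤ) ^ a) ∣ t i - t' i) →
      ∃ G : MvPolynomial (Fin 3) ℤ, G ≠ 0 ∧ G.totalDegree ≤ D0 ∧ ∀ t ∈ U, eval (v3 n t) G = 0) :
    ∃ sel0 : Finset ℕ → Pnt → MvPolynomial (Fin 3) ℤ, ∀ Q ⊆ PP, Q.card = h →
      (∀ t ∈ T, Phi0 n D0 H (sel0 Q t) t) ∧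
      ∀ U ⊆ T, (∀ r ∈ Q, ∀ t ∈ U, ∀ t' ∈ U, ∀ i, ((r : ℤ) ^ a) ∣ t i - t' i) →
        (U.image (sel0 Q)).card ≤ D0 + 1 := by
  classical
  have key : ∀ Q : Finset ℕ, ∃ sel : Pnt → MvPolynomial (Fin 3) ℤ, Q ⊆ PP → Q.card = h →
      (∀ t ∈ T, Phi0 n D0 H (sel t) t) ∧
      ∀ U ⊆ T, (∀ r ∈ Q, ∀ t ∈ U, ∀ t' ∈ U, ∀ i, ((r : ℤ) ^ a) ∣ t i - t' i) →
        (U.image sel).card ≤ D0 + 1 := by
    intro Q
    by_cases hQ : Q ⊆ PP ∧ Q.card = h
    · obtain ⟨sel, h1, h2⟩ := exists_sel (X := MvPolynomial (Fin 3) ℤ) T (c0 a Q)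
        (Phi0 n D0 H) D0 (fun U hU hc => by
          obtain ⟨G, hG0, hGD, hG⟩ := h0 U hU Q hQ.1 hQ.2 (fun r hr t ht t' ht' i =>
            (c0_eq_iff a Q t t').mp (hc t ht t' ht') r hr i)
          obtain ⟨Gs, h3, h4⟩ := chain_degreeOf (0 : Fin 3) D0 H hH (v3 n) D0 (↑U : Set Pnt)
            (fun t htU i => natAbs_v3 (ht t (hU htU)) (hn t (hU htU)) i)
            ⟨G, hG0, hGD, (degreeOf_le_totalDegree G 0).trans hGD, fun t htU => hG t htU⟩
          refine ⟨Gs, fun t htU => ?_⟩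
          obtain ⟨i, hi, h5, h6⟩ := h4 t htU
          exact ⟨i, hi, (h3 i).1, (h3 i).2.1, (h3 i).2.2.2, h5, h6⟩)
      refine ⟨sel, fun _ _ => ⟨h1, fun U hU hc => h2 U hU fun t ht t' ht' => ?_⟩⟩
      exact (c0_eq_iff a Q t t').mpr fun r hr i => hc r hr t ht t' ht' i
    · exact ⟨fun _ => 0, fun h1 h2 => absurd ⟨h1, h2⟩ hQ⟩
  choose sel0 hsel0 using key
  exact ⟨sel0, fun Q hQ hc => hsel0 Q hQ hc⟩

theorem exists_sel1 (hH : 1 ≤ H) (ht : ∀ t ∈ T, ∀ i, (t i).natAbs ≤ H)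
    (ha : 1 ≤ a) (hD : D0 ≤ D1) (hprime : ∀ r ∈ PP, r.Prime)
    (h1 : ∀ U ⊆ T, ∀ Q ⊆ PP, Q.card = h + 1 →
      (∃ G : MvPolynomial (Fin 3) ℤ, G ≠ 0 ∧ G.totalDegree ≤ D0 ∧ ∀ t ∈ U, eval (v3 n t) G = 0) →
      (∀ r ∈ Q, TwoPar U n ((r : ℤ) ^ a)) →
      ∃ R : MvPolynomial (Fin 2) ℤ, R ≠ 0 ∧ R.totalDegree ≤ D1 ∧ ∀ t ∈ U, eval t R = 0)
    (sel0 : Finset ℕ → Pnt → MvPolynomial (Fin 3) ℤ)
    (hsel0 : ∀ Q ⊆ PP, Q.card = h → ∀ t ∈ T, Phi0 n D0 H (sel0 Q t) t) :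
    ∃ sel1 : Finset ℕ → Pnt → MvPolynomial (Fin 2) ℤ × Fin 2, ∀ Q ⊆ PP, Q.card = h + 1 →
      (∀ t ∈ T, good1 n sel0 Q t → Phi1 D1 H (sel1 Q t) t) ∧
      ∀ U ⊆ T, (∀ t ∈ U, good1 n sel0 Q t) →
        (∀ t ∈ U, ∀ t' ∈ U, c1 n sel0 a Q t = c1 n sel0 a Q t') →
        (U.image (sel1 Q)).card ≤ 2 * D1 + 1 + 1 := by
  classical
  have key : ∀ Q : Finset ℕ, ∃ sel : Pnt → MvPolynomial (Fin 2) ℤ × Fin 2,
      Q ⊆ PP → Q.card = h + 1 →
      (∀ t ∈ T, good1 n sel0 Q t → Phi1 D1 H (sel t) t) ∧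
      ∀ U ⊆ T, (∀ t ∈ U, good1 n sel0 Q t) →
        (∀ t ∈ U, ∀ t' ∈ U, c1 n sel0 a Q t = c1 n sel0 a Q t') →
        (U.image sel).card ≤ 2 * D1 + 1 + 1 := by
    intro Q
    by_cases hQ : Q ⊆ PP ∧ Q.card = h + 1
    · obtain ⟨sel, h3, h4⟩ := exists_sel_good (X := MvPolynomial (Fin 2) ℤ × Fin 2) T
        (c1 n sel0 a Q) (good1 n sel0 Q) (Phi1 D1 H) (2 * D1 + 1) (fun U hU hg hc => by
          obtain ⟨R, hR0, hRD, hR⟩ := level1 ha hD hprime h1 sel0 hsel0 Q hQ.1 hQ.2 U hU hg hc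
          obtain ⟨Rs, h5, h6⟩ := chain_grad H hH (fun t : Pnt => t) D1 (↑U : Set Pnt)
            (fun t htU i => ht t (hU htU) i) ⟨R, hR0, hRD, fun t htU => hR t htU⟩
          refine ⟨fun k => (Rs (k / 2), if k % 2 = 0 then 0 else 1), fun t htU => ?_⟩
          obtain ⟨i, hi, j, h7, h8⟩ := h6 t htU
          refine ⟨2 * i + j.val, by have := j.isLt; omega, ?_⟩
          have h9 : (2 * i + j.val) / 2 = i := by have := j.isLt; omega
          have h10 : (if (2 * i + j.val) % 2 = 0 then (0 : Fin 2) else 1) = j := by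
            have h11 : (2 * i + j.val) % 2 = j.val := by have := j.isLt; omega
            rw [h11]
            fin_cases j <;> rfl
          simp only [h9, h10]
          exact ⟨(h5 i).1, (h5 i).2.1, (h5 i).2.2, h7, h8⟩)
      exact ⟨sel, fun _ _ => ⟨h3, h4⟩⟩
    · exact ⟨fun _ => (0, 0), fun h1 h2 => absurd ⟨h1, h2⟩ hQ⟩
  choose sel1 hsel1 using key
  exact ⟨sel1, fun Q hQ hc => hsel1 Q hQ hc⟩

theorem exists_sel2 (hH : 1 ≤ H) (ht : ∀ t ∈ T, ∀ i, (t i).natAbs ≤ H)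
    (hn : ∀ t ∈ T, (n t).natAbs ≤ H) (hprime : ∀ r ∈ PP, r.Prime)
    (h2 : ∀ U ⊆ T, ∀ Q ⊆ PP, Q.card = h + 2 →
      (∃ R : MvPolynomial (Fin 2) ℤ, R ≠ 0 ∧ R.totalDegree ≤ D1 ∧ ∀ t ∈ U, eval t R = 0) →
      (∀ r ∈ Q, OnePar U ((r : ℤ) ^ b)) →
      ∀ j : Fin 2, ∃ E : MvPolynomial (Fin 2) ℤ, E ≠ 0 ∧ E.totalDegree ≤ D2 ∧
        ∀ t ∈ U, eval (v2 n j t) E = 0)
    (sel0 : Finset ℕ → Pnt → MvPolynomial (Fin 3) ℤ)
    (sel1 : Finset ℕ → Pnt → MvPolynomial (Fin 2) ℤ × Fin 2)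
    (hsel1 : ∀ Q ⊆ PP, Q.card = h + 1 → ∀ t ∈ T, good1 n sel0 Q t → Phi1 D1 H (sel1 Q t) t) :
    ∃ sel2 : Finset ℕ → Fin 2 → Pnt → MvPolynomial (Fin 2) ℤ, ∀ Q ⊆ PP, Q.card = h + 2 → ∀ j,
      (∀ t ∈ T, good2 n sel0 sel1 Q t → Phi2 n D2 H j (sel2 Q j t) t) ∧
      ∀ U ⊆ T, (∀ t ∈ U, good2 n sel0 sel1 Q t) →
        (∀ t ∈ U, ∀ t' ∈ U, c2 n sel0 sel1 a b Q t = c2 n sel0 sel1 a b Q t') →
        (U.image (sel2 Q j)).card ≤ D2 + 1 := by
  classical
  have key : ∀ (Q : Finset ℕ) (j : Fin 2), ∃ sel : Pnt → MvPolynomial (Fin 2) ℤ,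
      Q ⊆ PP → Q.card = h + 2 →
      (∀ t ∈ T, good2 n sel0 sel1 Q t → Phi2 n D2 H j (sel t) t) ∧
      ∀ U ⊆ T, (∀ t ∈ U, good2 n sel0 sel1 Q t) →
        (∀ t ∈ U, ∀ t' ∈ U, c2 n sel0 sel1 a b Q t = c2 n sel0 sel1 a b Q t') →
        (U.image sel).card ≤ D2 + 1 := by
    intro Q j
    by_cases hQ : Q ⊆ PP ∧ Q.card = h + 2
    · obtain ⟨sel, h3, h4⟩ := exists_sel_good (X := MvPolynomial (Fin 2) ℤ) T
        (c2 n sel0 sel1 a b Q) (good2 n sel0 sel1 Q) (Phi2 n D2 H j) D2 (fun U hU hg hc => by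
          obtain ⟨E, hE0, hED, hE⟩ := level2 hprime h2 sel0 sel1 hsel1 Q hQ.1 hQ.2 U hU hg hc j
          obtain ⟨Es, h5, h6⟩ := chain_degreeOf (0 : Fin 2) D2 H hH (v2 n j) D2 (↑U : Set Pnt)
            (fun t htU i => natAbs_v2 (ht t (hU htU)) (hn t (hU htU)) j i)
            ⟨E, hE0, hED, (degreeOf_le_totalDegree E 0).trans hED, fun t htU => hE t htU⟩
          refine ⟨Es, fun t htU => ?_⟩
          obtain ⟨i, hi, h7, h8⟩ := h6 t htU
          exact ⟨i, hi, (h5 i).1, (h5 i).2.1, (h5 i).2.2.2, h7, h8⟩)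
      exact ⟨sel, fun _ _ => ⟨h3, h4⟩⟩
    · exact ⟨fun _ => 0, fun h1 h2 => absurd ⟨h1, h2⟩ hQ⟩
  choose sel2 hsel2 using key
  exact ⟨sel2, fun Q hQ hc j => hsel2 Q j hQ hc⟩

end sel

open Classical in
/-- the free set of a point -/
theorem exists_free {T : Finset Pnt} {n : Pnt → ℤ} {PP : Finset ℕ} {h D0 D1 D2 H B X : ℕ}
    (hH : 1 ≤ H) (ht : ∀ t ∈ T, ∀ i, (t i).natAbs ≤ H)
    (hn : ∀ t ∈ T, (n t).natAbs ≤ H) (hprime : ∀ r ∈ PP, r.Prime)
    (hX1 : 1 ≤ X) (hX : ∀ r ∈ PP, X ≤ r)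
    (hcard : (h + 3) * 2 ^ (h + 3) * (2 * B) + (h + 3) * (h + 3) < PP.card)
    (hB0 : D0 * hgt (Fin 3) D0 H * H ^ D0 < X ^ B)
    (hB1 : D1 * hgt (Fin 2) D1 H * H ^ D1 < X ^ B)
    (hB2 : D2 * hgt (Fin 2) D2 H * H ^ D2 < X ^ B)
    (sel0 : Finset ℕ → Pnt → MvPolynomial (Fin 3) ℤ)
    (sel1 : Finset ℕ → Pnt → MvPolynomial (Fin 2) ℤ × Fin 2)
    (sel2 : Finset ℕ → Fin 2 → Pnt → MvPolynomial (Fin 2) ℤ)
    (hsel0 : ∀ Q ⊆ PP, Q.card = h → ∀ t ∈ T, Phi0 n D0 H (sel0 Q t) t)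
    (hsel1 : ∀ Q ⊆ PP, Q.card = h + 1 → ∀ t ∈ T, good1 n sel0 Q t → Phi1 D1 H (sel1 Q t) t)
    (hsel2 : ∀ Q ⊆ PP, Q.card = h + 2 → ∀ j, ∀ t ∈ T, good2 n sel0 sel1 Q t →
      Phi2 n D2 H j (sel2 Q j t) t) (t : Pnt) (htT : t ∈ T) :
    ∃ W ⊆ PP, W.card = h + 3 ∧
      (∀ Q ⊆ W, Q.card = h + 1 → good1 n sel0 Q t) ∧
      (∀ Q ⊆ W, Q.card = h + 1 → ∀ r ∈ W, r ∉ Q →
        ¬ (r : ℤ) ∣ eval t (pderiv (sel1 Q t).2 (sel1 Q t).1)) ∧
      (∀ Q ⊆ W, Q.card = h + 2 → good2 n sel0 sel1 Q t) ∧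
      (∀ Q ⊆ W, Q.card = h + 2 → ∀ r ∈ W, r ∉ Q → ∀ j, (sel2 Q j t).degreeOf 0 ≠ 0 →
        ¬ (r : ℤ) ∣ eval (v2 n j t) (pderiv 0 (sel2 Q j t))) := by
  -- divisors in the pool
  have hdiv : ∀ v : ℤ, v ≠ 0 → v.natAbs < X ^ B → (PP.filter fun r : ℕ => (r : ℤ) ∣ v).card ≤ B := by
    intro v hv hlt
    refine (card_lt_of_natAbs_lt v hv X B hX1 hlt _ fun r hr => ?_).le
    have hr' := Finset.mem_filter.mp hr
    exact ⟨hprime r hr'.1, hr'.2, hX r hr'.1⟩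
  set bad : Finset ℕ → Finset ℕ := fun Q => PP.filter fun r : ℕ =>
    (Q.card = h ∧ eval (v3 n t) (pderiv 0 (sel0 Q t)) ≠ 0 ∧
      (r : ℤ) ∣ eval (v3 n t) (pderiv 0 (sel0 Q t))) ∨
    (Q.card = h + 1 ∧ good1 n sel0 Q t ∧
      (r : ℤ) ∣ eval t (pderiv (sel1 Q t).2 (sel1 Q t).1)) ∨
    (Q.card = h + 2 ∧ good2 n sel0 sel1 Q t ∧ ∃ j,
      eval (v2 n j t) (pderiv 0 (sel2 Q j t)) ≠ 0 ∧
      (r : ℤ) ∣ eval (v2 n j t) (pderiv 0 (sel2 Q j t))) with hbad
  have hbadc : ∀ Q ⊆ PP, (bad Q).card ≤ 2 * B := by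
    intro Q hQ
    by_cases hc0 : Q.card = h
    · by_cases hv : eval (v3 n t) (pderiv 0 (sel0 Q t)) = 0
      · have : bad Q = ∅ := by
          rw [hbad]
          refine Finset.filter_eq_empty_iff.mpr fun r _ hcon => ?_
          rcases hcon with ⟨_, h1, _⟩ | ⟨h1, _⟩ | ⟨h1, _⟩
          · exact h1 hv
          · omega
          · omega
        rw [this]; simp
      · obtain ⟨_, h2, h3, _, _⟩ := hsel0 Q hQ hc0 t htT
        have h4 := hdiv _ hv (lt_of_le_of_lt (natAbs_pderiv_le _ 0 (v3 n t) D0 H hH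
          (fun i => natAbs_v3 (ht t htT) (hn t htT) i) h2 h3) hB0)
        refine (Finset.card_le_card ?_).trans (h4.trans (by omega))
        intro r hr
        have hr' := Finset.mem_filter.mp hr
        refine Finset.mem_filter.mpr ⟨hr'.1, ?_⟩
        rcases hr'.2 with ⟨_, _, h1⟩ | ⟨h1, _⟩ | ⟨h1, _⟩
        · exact h1
        · omega
        · omega
    · by_cases hc1 : Q.card = h + 1
      · by_cases hg : good1 n sel0 Q t
        · obtain ⟨_, h2, h3, _, hv⟩ := hsel1 Q hQ hc1 t htT hg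
          have h4 := hdiv _ hv (lt_of_le_of_lt (natAbs_pderiv_le _ _ t D1 H hH
            (fun i => ht t htT i) h2 h3) hB1)
          refine (Finset.card_le_card ?_).trans (h4.trans (by omega))
          intro r hr
          have hr' := Finset.mem_filter.mp hr
          refine Finset.mem_filter.mpr ⟨hr'.1, ?_⟩
          rcases hr'.2 with ⟨h1, _⟩ | ⟨_, _, h1⟩ | ⟨h1, _⟩
          · omega
          · exact h1
          · omega
        · have : bad Q = ∅ := by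
            rw [hbad]
            refine Finset.filter_eq_empty_iff.mpr fun r _ hcon => ?_
            rcases hcon with ⟨h1, _⟩ | ⟨_, h1, _⟩ | ⟨h1, _⟩
            · omega
            · exact hg h1
            · omega
          rw [this]; simp
      · by_cases hc2 : Q.card = h + 2
        · by_cases hg : good2 n sel0 sel1 Q t
          · have h5 : bad Q ⊆ (univ : Finset (Fin 2)).biUnion fun j => PP.filter fun r : ℕ =>
                eval (v2 n j t) (pderiv 0 (sel2 Q j t)) ≠ 0 ∧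
                (r : ℤ) ∣ eval (v2 n j t) (pderiv 0 (sel2 Q j t)) := by
              intro r hr
              have hr' := Finset.mem_filter.mp hr
              rcases hr'.2 with ⟨h1, _⟩ | ⟨h1, _⟩ | ⟨_, _, j, h1⟩
              · omega
              · omega
              · exact Finset.mem_biUnion.mpr ⟨j, Finset.mem_univ _,
                  Finset.mem_filter.mpr ⟨hr'.1, h1⟩⟩
            refine (Finset.card_le_card h5).trans (Finset.card_biUnion_le.trans ?_)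
            calc _ ≤ ∑ _j : Fin 2, B := by
                  refine Finset.sum_le_sum fun j _ => ?_
                  by_cases hv : eval (v2 n j t) (pderiv 0 (sel2 Q j t)) = 0
                  · simp [hv]
                  · obtain ⟨_, h2, h3, _, _⟩ := hsel2 Q hQ hc2 j t htT hg
                    have h4 := hdiv _ hv (lt_of_le_of_lt (natAbs_pderiv_le _ 0 (v2 n j t) D2 H hH
                      (fun i => natAbs_v2 (ht t htT) (hn t htT) j i) h2 h3) hB2)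
                    refine (Finset.card_le_card ?_).trans h4
                    intro r hr
                    have hr' := Finset.mem_filter.mp hr
                    exact Finset.mem_filter.mpr ⟨hr'.1, hr'.2.2⟩
              _ = 2 * B := by simp
          · have : bad Q = ∅ := by
              rw [hbad]
              refine Finset.filter_eq_empty_iff.mpr fun r _ hcon => ?_
              rcases hcon with ⟨h1, _⟩ | ⟨h1, _⟩ | ⟨_, h1, _⟩
              · omega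
              · omega
              · exact hg h1
            rw [this]; simp
        · have : bad Q = ∅ := by
            rw [hbad]
            refine Finset.filter_eq_empty_iff.mpr fun r _ hcon => ?_
            rcases hcon with ⟨h1, _⟩ | ⟨h1, _⟩ | ⟨h1, _⟩ <;> omega
          rw [this]; simp
  obtain ⟨W, hW, hWc, hfree⟩ := exists_free_set PP (h + 3) (2 * B) bad hbadc hcard
  have hg1 : ∀ Q ⊆ W, Q.card = h + 1 → good1 n sel0 Q t := by
    intro Q hQ hc r hr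
    have hc' : (Q.erase r).card = h := by rw [Finset.card_erase_of_mem hr, hc]; simp
    have hsub : Q.erase r ⊆ W := (Finset.erase_subset _ _).trans hQ
    by_contra hcon
    push Not at hcon
    obtain ⟨h1, h2⟩ := hcon
    have h3 := (hsel0 _ (hsub.trans hW) hc' t htT).2.2.2.2
    refine hfree (Q.erase r) hsub r (hQ hr) (Finset.notMem_erase r Q) ?_
    exact Finset.mem_filter.mpr ⟨hW (hQ hr), Or.inl ⟨hc', h3.resolve_left h1, h2⟩⟩
  have hg1' : ∀ Q ⊆ W, Q.card = h + 1 → ∀ r ∈ W, r ∉ Q →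
      ¬ (r : ℤ) ∣ eval t (pderiv (sel1 Q t).2 (sel1 Q t).1) := by
    intro Q hQ hc r hr hrQ h1
    exact hfree Q hQ r hr hrQ (Finset.mem_filter.mpr ⟨hW hr, Or.inr (Or.inl ⟨hc, hg1 Q hQ hc, h1⟩)⟩)
  have hg2 : ∀ Q ⊆ W, Q.card = h + 2 → good2 n sel0 sel1 Q t := by
    intro Q hQ hc r hr
    have hc' : (Q.erase r).card = h + 1 := by rw [Finset.card_erase_of_mem hr, hc]; simp
    have hsub : Q.erase r ⊆ W := (Finset.erase_subset _ _).trans hQ
    exact ⟨hg1 _ hsub hc', hg1' _ hsub hc' r (hQ hr) (Finset.notMem_erase r Q)⟩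
  refine ⟨W, hW, hWc, hg1, hg1', hg2, fun Q hQ hc r hr hrQ j hj h1 => ?_⟩
  have h3 := (hsel2 _ (hQ.trans hW) hc j t htT (hg2 Q hQ hc)).2.2.2.2
  exact hfree Q hQ r hr hrQ (Finset.mem_filter.mpr ⟨hW hr,
    Or.inr (Or.inr ⟨hc, hg2 Q hQ hc, j, h3.resolve_left hj, h1⟩)⟩)

end Crest.Agent.R22.Levels859
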