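import Mathlib
import Crest.Agent.R22.Levels859B

/-! Row 22: level bookkeeping, the main abstract theorem (helper859). -/

set_option autoImplicit false

open Finset

namespace Crest.Agent.R22.Levels859

open Crest.Agent.R022.Expand MvPolynomial
open Spec859 Select859 Chain859 Tuple859 PolyKit

/-- the constant of the main theorem -/
def lconst (p h D0 D1 D2 C3 : ℕ) : ℕ :=
  2 ^ p * (2 ^ (h + 3) * ((D0 + 1) ^ ((h + 3).choose h) *
    ((D0 + 1) ^ ((h + 3).choose (h + 1) * (h + 3)) *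
      ((2 * D1 + 1 + 1) ^ ((h + 3).choose (h + 1)) *
        ((D2 + 1) ^ ((h + 3).choose (h + 2) * 2) * (D2 ^ 2 + (D2 + 1) ^ (h + 3) * C3))))))

theorem fin2_eq : ∀ i j : Fin 2, i ≠ j → i = 1 - j := by decide

theorem dvd_sub_of_emod_eq {x y q : ℤ} (h : x % q = y % q) : q ∣ x - y :=
  Int.ModEq.dvd (show y ≡ x [ZMOD q] from h.symm)

theorem emod_eq_of_dvd_sub {x y q : ℤ} (h : q ∣ x - y) : x % q = y % q :=
  ((Int.modEq_iff_dvd.mpr h) : y ≡ x [ZMOD q]).symm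

theorem c1_eq {n : Pnt → ℤ} {sel0 : Finset ℕ → Pnt → MvPolynomial (Fin 3) ℤ} {a : ℕ}
    {Q : Finset ℕ} {t t' : Pnt} (h1 : ∀ r ∈ Q, ∀ i, ((r : ℤ) ^ a) ∣ t i - t' i)
    (h2 : ∀ r ∈ Q, sel0 (Q.erase r) t = sel0 (Q.erase r) t')
    (h3 : nd0 sel0 Q t → nd0 sel0 Q t' → ∀ r ∈ Q, n t % (r : ℤ) = n t' % (r : ℤ)) :
    c1 n sel0 a Q t = c1 n sel0 a Q t' := by
  classical
  have hnd : nd0 sel0 Q t ↔ nd0 sel0 Q t' := by
    constructor
    · intro h r hr; rw [← h2 r hr]; exact h r hr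
    · intro h r hr; rw [h2 r hr]; exact h r hr
  refine Prod.ext ((c0_eq_iff a Q t t').mpr h1) (Prod.ext ?_ ?_)
  · funext r
    simp only [c1]
    split_ifs with hr
    · exact h2 r hr
    · rfl
  · funext r
    simp only [c1]
    by_cases hr : r ∈ Q ∧ nd0 sel0 Q t
    · rw [if_pos hr, if_pos ⟨hr.1, hnd.mp hr.2⟩]
      exact h3 hr.2 (hnd.mp hr.2) r hr.1
    · rw [if_neg hr, if_neg (fun h => hr ⟨h.1, hnd.mpr h.2⟩)]

theorem c2_eq {n : Pnt → ℤ} {sel0 : Finset ℕ → Pnt → MvPolynomial (Fin 3) ℤ}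
    {sel1 : Finset ℕ → Pnt → MvPolynomial (Fin 2) ℤ × Fin 2} {a b : ℕ}
    {Q : Finset ℕ} {t t' : Pnt} (h1 : ∀ r ∈ Q, ∀ i, ((r : ℤ) ^ b) ∣ t i - t' i)
    (h2 : ∀ r ∈ Q, c1 n sel0 a (Q.erase r) t = c1 n sel0 a (Q.erase r) t')
    (h3 : ∀ r ∈ Q, sel1 (Q.erase r) t = sel1 (Q.erase r) t') :
    c2 n sel0 sel1 a b Q t = c2 n sel0 sel1 a b Q t' := by
  classical
  refine Prod.ext ((c0_eq_iff b Q t t').mpr h1) (Prod.ext ?_ ?_)
  · funext r
    simp only [c2]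
    split_ifs with hr
    · rw [h2 r hr]
    · rfl
  · funext r
    simp only [c2]
    split_ifs with hr
    · rw [h3 r hr]
    · rfl

theorem dvd_pow_le {r a b : ℕ} (hab : a ≤ b) {x : ℤ} (h : (r : ℤ) ^ b ∣ x) : (r : ℤ) ^ a ∣ x :=
  (pow_dvd_pow _ hab).trans h

open Classical in
/-- number of values of the residue code at one prime -/
theorem card_codeA {U : Finset Pnt} (r a b : ℕ) (hr : 1 ≤ r) (j : Pnt → Fin 2) :
    (U.image fun t => (j t, t (1 - j t) % (r : ℤ) ^ b, t (j t) % (r : ℤ) ^ a)).card ≤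
      2 * r ^ (a + b) := by
  have hpos : ∀ e : ℕ, (0 : ℤ) < (r : ℤ) ^ e := fun e => by positivity
  have h1 : (U.image fun t => (j t, t (1 - j t) % (r : ℤ) ^ b, t (j t) % (r : ℤ) ^ a)) ⊆
      (univ : Finset (Fin 2)) ×ˢ (Finset.Ico (0 : ℤ) ((r : ℤ) ^ b)) ×ˢ
        (Finset.Ico (0 : ℤ) ((r : ℤ) ^ a)) := by
    intro x hx
    obtain ⟨t, _, rfl⟩ := Finset.mem_image.mp hx
    simp only [Finset.mem_product, Finset.mem_univ, true_and, Finset.mem_Ico]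
    exact ⟨⟨Int.emod_nonneg _ (hpos b).ne', Int.emod_lt_of_pos _ (hpos b)⟩,
      Int.emod_nonneg _ (hpos a).ne', Int.emod_lt_of_pos _ (hpos a)⟩
  refine (Finset.card_le_card h1).trans (le_of_eq ?_)
  rw [Finset.card_product, Finset.card_product, Finset.card_univ, Fintype.card_fin, Int.card_Ico,
    Int.card_Ico, sub_zero, sub_zero]
  have h2 : ∀ e : ℕ, ((r : ℤ) ^ e).toNat = r ^ e := fun e => by
    exact_mod_cast Int.toNat_natCast (r ^ e)
  rw [h2, h2, pow_add]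
  ring

theorem levels_aux {h a b D0 D1 D2 C3 B H X X' : ℕ} {T : Finset Pnt} {n : Pnt → ℤ}
    {PP : Finset ℕ} (ha : 1 ≤ a) (hab : a ≤ b) (hD : D0 ≤ D1)
    (hprime : ∀ r ∈ PP, r.Prime) (hX1 : 1 ≤ X) (hX : ∀ r ∈ PP, X ≤ r) (hX' : ∀ r ∈ PP, r ≤ X')
    (hcard : (h + 3) * 2 ^ (h + 3) * (2 * B) + (h + 3) * (h + 3) < PP.card)
    (hH : 1 ≤ H) (ht : ∀ t ∈ T, ∀ i, (t i).natAbs ≤ H) (hn : ∀ t ∈ T, (n t).natAbs ≤ H)
    (hB0 : D0 * hgt (Fin 3) D0 H * H ^ D0 < X ^ B)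
    (hB1 : D1 * hgt (Fin 2) D1 H * H ^ D1 < X ^ B)
    (hB2 : D2 * hgt (Fin 2) D2 H * H ^ D2 < X ^ B)
    (h0 : ∀ U ⊆ T, ∀ Q ⊆ PP, Q.card = h →
      (∀ r ∈ Q, ∀ t ∈ U, ∀ t' ∈ U, ∀ i, ((r : ℤ) ^ a) ∣ t i - t' i) →
      ∃ G : MvPolynomial (Fin 3) ℤ, G ≠ 0 ∧ G.totalDegree ≤ D0 ∧ ∀ t ∈ U, eval (v3 n t) G = 0)
    (h1 : ∀ U ⊆ T, ∀ Q ⊆ PP, Q.card = h + 1 →
      (∃ G : MvPolynomial (Fin 3) ℤ, G ≠ 0 ∧ G.totalDegree ≤ D0 ∧ ∀ t ∈ U, eval (v3 n t) G = 0) →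
      (∀ r ∈ Q, TwoPar U n ((r : ℤ) ^ a)) →
      ∃ R : MvPolynomial (Fin 2) ℤ, R ≠ 0 ∧ R.totalDegree ≤ D1 ∧ ∀ t ∈ U, eval t R = 0)
    (h2 : ∀ U ⊆ T, ∀ Q ⊆ PP, Q.card = h + 2 →
      (∃ R : MvPolynomial (Fin 2) ℤ, R ≠ 0 ∧ R.totalDegree ≤ D1 ∧ ∀ t ∈ U, eval t R = 0) →
      (∀ r ∈ Q, OnePar U ((r : ℤ) ^ b)) →
      ∀ j : Fin 2, ∃ E : MvPolynomial (Fin 2) ℤ, E ≠ 0 ∧ E.totalDegree ≤ D2 ∧
        ∀ t ∈ U, eval (v2 n j t) E = 0)
    (h3 : ∀ U ⊆ T, ∀ Q ⊆ PP, Q.card = h + 3 →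
      (∀ r ∈ Q, OneParN U n ((r : ℤ) ^ b)) → U.card ≤ C3) :
    T.card ≤ lconst PP.card h D0 D1 D2 C3 * X' ^ ((a + b) * (h + 3)) := by
  classical
  obtain ⟨sel0, hsel0⟩ := exists_sel0 hH ht hn h0
  have hsel0' : ∀ Q ⊆ PP, Q.card = h → ∀ t ∈ T, Phi0 n D0 H (sel0 Q t) t :=
    fun Q hQ hc => (hsel0 Q hQ hc).1
  obtain ⟨sel1, hsel1⟩ := exists_sel1 hH ht ha hD hprime h1 sel0 hsel0'
  have hsel1' : ∀ Q ⊆ PP, Q.card = h + 1 → ∀ t ∈ T, good1 n sel0 Q t → Phi1 D1 H (sel1 Q t) t :=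
    fun Q hQ hc => (hsel1 Q hQ hc).1
  obtain ⟨sel2, hsel2⟩ := exists_sel2 (a := a) hH ht hn hprime h2 sel0 sel1 hsel1'
  have hsel2' : ∀ Q ⊆ PP, Q.card = h + 2 → ∀ j, ∀ t ∈ T, good2 n sel0 sel1 Q t →
      Phi2 n D2 H j (sel2 Q j t) t := fun Q hQ hc j => (hsel2 Q hQ hc j).1
  have hfree := exists_free hH ht hn hprime hX1 hX hcard hB0 hB1 hB2 sel0 sel1 sel2 hsel0' hsel1'
    hsel2'
  have hWex : ∀ t : Pnt, ∃ W : Finset ℕ, t ∈ T → W ⊆ PP ∧ W.card = h + 3 ∧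
      (∀ Q ⊆ W, Q.card = h + 1 → good1 n sel0 Q t) ∧
      (∀ Q ⊆ W, Q.card = h + 1 → ∀ r ∈ W, r ∉ Q →
        ¬ (r : ℤ) ∣ eval t (pderiv (sel1 Q t).2 (sel1 Q t).1)) ∧
      (∀ Q ⊆ W, Q.card = h + 2 → good2 n sel0 sel1 Q t) ∧
      (∀ Q ⊆ W, Q.card = h + 2 → ∀ r ∈ W, r ∉ Q → ∀ j, (sel2 Q j t).degreeOf 0 ≠ 0 →
        ¬ (r : ℤ) ∣ eval (v2 n j t) (pderiv 0 (sel2 Q j t))) := by
    intro t
    by_cases htT : t ∈ T
    · obtain ⟨W, hW⟩ := hfree t htT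
      exact ⟨W, fun _ => hW⟩
    · exact ⟨∅, fun h => absurd h htT⟩
  choose Wf hWf using hWex
  -- pigeonhole on `W`
  obtain ⟨U0, hU0, hcU0, hWc⟩ := pigeon T Wf (2 ^ PP.card) (by
    have : T.image Wf ⊆ PP.powerset := by
      intro W hW
      obtain ⟨t, htT, rfl⟩ := Finset.mem_image.mp hW
      exact Finset.mem_powerset.mpr (hWf t htT).1
    exact (Finset.card_le_card this).trans (by rw [Finset.card_powerset]))
  rcases U0.eq_empty_or_nonempty with hemp | ⟨t0, ht0⟩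
  · rw [hemp, Finset.card_empty, mul_zero] at hcU0
    omega
  obtain ⟨W, hWeq⟩ : ∃ W, W = Wf t0 := ⟨_, rfl⟩
  have hWP : ∀ t ∈ U0, _ := fun t htU => hWf t (hU0 htU)
  have hWt : ∀ t ∈ U0, Wf t = W := fun t htU => by rw [hWeq]; exact hWc t htU t0 ht0
  obtain ⟨hWPP, hWcard, _⟩ := hWf t0 (hU0 ht0)
  rw [← hWeq] at hWPP hWcard
  have hg1 : ∀ t ∈ U0, ∀ Q ⊆ W, Q.card = h + 1 → good1 n sel0 Q t := fun t htU => by
    have := (hWP t htU).2.2.1; rwa [hWt t htU] at this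
  have hg1' : ∀ t ∈ U0, ∀ Q ⊆ W, Q.card = h + 1 → ∀ r ∈ W, r ∉ Q →
      ¬ (r : ℤ) ∣ eval t (pderiv (sel1 Q t).2 (sel1 Q t).1) := fun t htU => by
    have := (hWP t htU).2.2.2.1; rwa [hWt t htU] at this
  have hg2 : ∀ t ∈ U0, ∀ Q ⊆ W, Q.card = h + 2 → good2 n sel0 sel1 Q t := fun t htU => by
    have := (hWP t htU).2.2.2.2.1; rwa [hWt t htU] at this
  have hg2' : ∀ t ∈ U0, ∀ Q ⊆ W, Q.card = h + 2 → ∀ r ∈ W, r ∉ Q → ∀ j,
      (sel2 Q j t).degreeOf 0 ≠ 0 →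
        ¬ (r : ℤ) ∣ eval (v2 n j t) (pderiv 0 (sel2 Q j t)) := fun t htU => by
    have := (hWP t htU).2.2.2.2.2; rwa [hWt t htU] at this
  -- the sets `Q1 r`
  have hQ1 : ∀ r, ∃ Q : Finset ℕ, r ∈ W → Q ⊆ W.erase r ∧ Q.card = h + 1 := by
    intro r
    by_cases hr : r ∈ W
    · obtain ⟨Q, hQ, hQc⟩ := Finset.exists_subset_card_eq (s := W.erase r) (n := h + 1)
        (by rw [Finset.card_erase_of_mem hr, hWcard]; omega)
      exact ⟨Q, fun _ => ⟨hQ, hQc⟩⟩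
    · exact ⟨∅, fun h => absurd h hr⟩
  choose Q1 hQ1 using hQ1
  -- step A
  obtain ⟨U1, hU1, hcU1, hA⟩ := pigeon_family W
    (fun r t => ((sel1 (Q1 r) t).2, t (1 - (sel1 (Q1 r) t).2) % (r : ℤ) ^ b,
      t ((sel1 (Q1 r) t).2) % (r : ℤ) ^ a)) (2 * X' ^ (a + b)) U0 (fun r hr => by
      have h5 := card_codeA (U := U0) r a b (hprime r (hWPP hr)).one_lt.le
        (fun t => (sel1 (Q1 r) t).2)
      exact h5.trans (Nat.mul_le_mul_left _ (Nat.pow_le_pow_left (hX' r (hWPP hr)) _)))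
  have hU1T : U1 ⊆ T := hU1.trans hU0
  have hAj : ∀ r ∈ W, ∀ t ∈ U1, ∀ t' ∈ U1, (sel1 (Q1 r) t).2 = (sel1 (Q1 r) t').2 :=
    fun r hr t htU t' ht'U => congrArg Prod.fst (hA r hr t htU t' ht'U)
  have hAb : ∀ r ∈ W, ∀ t ∈ U1, ∀ t' ∈ U1, ∀ i, i ≠ (sel1 (Q1 r) t').2 →
      (r : ℤ) ^ b ∣ t i - t' i := by
    intro r hr t htU t' ht'U i hi
    have h5 := congrArg (fun x => x.2.1) (hA r hr t htU t' ht'U)
    simp only at h5
    rw [hAj r hr t htU t' ht'U] at h5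
    rw [fin2_eq i _ hi]
    exact dvd_sub_of_emod_eq h5
  have hAa : ∀ r ∈ W, ∀ t ∈ U1, ∀ t' ∈ U1, ∀ i, (r : ℤ) ^ a ∣ t i - t' i := by
    intro r hr t htU t' ht'U i
    by_cases hi : i = (sel1 (Q1 r) t').2
    · have h5 := congrArg (fun x => x.2.2) (hA r hr t htU t' ht'U)
      simp only at h5
      rw [hAj r hr t htU t' ht'U] at h5
      rw [hi]
      exact dvd_sub_of_emod_eq h5
    · exact dvd_pow_le hab (hAb r hr t htU t' ht'U i hi)
  have hAr : ∀ r ∈ W, ∀ t ∈ U1, ∀ t' ∈ U1, ∀ i, (r : ℤ) ∣ t i - t' i :=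
    fun r hr t htU t' ht'U i => (dvd_pow_self _ (by omega)).trans (hAa r hr t htU t' ht'U i)
  -- step B
  obtain ⟨U2, hU2, hcU2, hBc⟩ := pigeon_family (W.powersetCard h) sel0 (D0 + 1) U1
    (fun Q hQ => by
      obtain ⟨hQW, hQc⟩ := Finset.mem_powersetCard.mp hQ
      exact (hsel0 Q (hQW.trans hWPP) hQc).2 U1 hU1T (fun r hr t htU t' ht'U i =>
        hAa r (hQW hr) t htU t' ht'U i))
  have hU2T : U2 ⊆ T := hU2.trans hU1T
  have hBsel : ∀ Q ⊆ W, Q.card = h + 1 → ∀ r ∈ Q, ∀ t ∈ U2, ∀ t' ∈ U2,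
      sel0 (Q.erase r) t = sel0 (Q.erase r) t' := by
    intro Q hQ hQc r hr t htU t' ht'U
    exact hBc (Q.erase r) (Finset.mem_powersetCard.mpr ⟨(Finset.erase_subset _ _).trans hQ,
      by rw [Finset.card_erase_of_mem hr, hQc]; simp⟩) t htU t' ht'U
  -- step C
  obtain ⟨U3, hU3, hcU3, hC⟩ := pigeon_family ((W.powersetCard (h + 1)) ×ˢ W)
    (fun p t => if p.2 ∈ p.1 ∧ nd0 sel0 p.1 t then n t % (p.2 : ℤ) else 0) (D0 + 1) U2
    (fun p hp => by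
      obtain ⟨hp1, hp2⟩ := Finset.mem_product.mp hp
      obtain ⟨hQW, hQc⟩ := Finset.mem_powersetCard.mp hp1
      rcases U2.eq_empty_or_nonempty with he | ⟨t1, ht1⟩
      · simp [he]
      by_cases hcond : p.2 ∈ p.1 ∧ nd0 sel0 p.1 t1
      · obtain ⟨hr, hnd⟩ := hcond
        have hnd' : ∀ t ∈ U2, nd0 sel0 p.1 t := fun t htU r' hr' => by
          rw [hBsel p.1 hQW hQc r' hr' t htU t1 ht1]; exact hnd r' hr'
        have h5 : (U2.image fun t => if p.2 ∈ p.1 ∧ nd0 sel0 p.1 t then n t % (p.2 : ℤ) else 0) =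
            U2.image fun t => v3 n t 0 % (p.2 : ℤ) := by
          refine Finset.image_congr fun t htU => ?_
          simp only [hr, hnd' t htU, and_self, if_true]
          rfl
        rw [h5]
        have hQe : p.1.erase p.2 ⊆ PP := (Finset.erase_subset _ _).trans (hQW.trans hWPP)
        have hQec : (p.1.erase p.2).card = h := by
          rw [Finset.card_erase_of_mem hr, hQc]; simp
        have h6 := card_residues (hprime p.2 (hWPP hp2)) (sel0 (p.1.erase p.2) t1) 0 U2 (v3 n)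
          (fun t htU t' ht'U i hi => by
            obtain ⟨i', rfl⟩ := Fin.exists_succ_eq.mpr hi
            rw [v3_succ, v3_succ]
            exact hAr p.2 hp2 t (hU2 htU) t' (hU2 ht'U) i')
          (fun t htU => by
            rw [hBsel p.1 hQW hQc p.2 hr t1 ht1 t htU]
            exact (hsel0' _ hQe hQec t (hU2T htU)).2.2.2.1)
          (fun t htU => by
            rw [hBsel p.1 hQW hQc p.2 hr t1 ht1 t htU]
            exact (hg1 t (hU1 (hU2 htU)) p.1 hQW hQc p.2 hr).resolve_left (hnd' t htU p.2 hr))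
        exact (h6.trans (hsel0' _ hQe hQec t1 (hU2T ht1)).2.1).trans (Nat.le_succ _)
      · have h5 : (U2.image fun t => if p.2 ∈ p.1 ∧ nd0 sel0 p.1 t then n t % (p.2 : ℤ) else 0) ⊆
            {0} := by
          intro x hx
          obtain ⟨t, htU, rfl⟩ := Finset.mem_image.mp hx
          rw [if_neg, Finset.mem_singleton]
          rintro ⟨h6, h7⟩
          exact hcond ⟨h6, fun r' hr' => by
            rw [hBsel p.1 hQW hQc r' hr' t1 ht1 t htU]; exact h7 r' hr'⟩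
        refine (Finset.card_le_card h5).trans ?_
        simp)
  have hU3T : U3 ⊆ T := hU3.trans hU2T
  have hC1 : ∀ Q ⊆ W, Q.card = h + 1 → ∀ t ∈ U3, ∀ t' ∈ U3,
      c1 n sel0 a Q t = c1 n sel0 a Q t' := by
    intro Q hQ hQc t htU t' ht'U
    refine c1_eq (fun r hr i => hAa r (hQ hr) t (hU2 (hU3 htU)) t' (hU2 (hU3 ht'U)) i)
      (fun r hr => hBsel Q hQ hQc r hr t (hU3 htU) t' (hU3 ht'U)) (fun hn1 hn2 r hr => ?_)
    have h5 := hC (Q, r) (Finset.mem_product.mpr ⟨Finset.mem_powersetCard.mpr ⟨hQ, hQc⟩, hQ hr⟩)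
      t htU t' ht'U
    simpa only [hr, hn1, hn2, and_self, if_true] using h5
  -- step D
  obtain ⟨U4, hU4, hcU4, hDc⟩ := pigeon_family (W.powersetCard (h + 1)) sel1 (2 * D1 + 1 + 1) U3
    (fun Q hQ => by
      obtain ⟨hQW, hQc⟩ := Finset.mem_powersetCard.mp hQ
      exact (hsel1 Q (hQW.trans hWPP) hQc).2 U3 hU3T
        (fun t htU => hg1 t (hU1 (hU2 (hU3 htU))) Q hQW hQc) (hC1 Q hQW hQc))
  have hU4T : U4 ⊆ T := hU4.trans hU3T
  have hU41 : U4 ⊆ U1 := hU4.trans (hU3.trans hU2)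
  have hU40 : U4 ⊆ U0 := hU41.trans hU1
  -- `R` at the prime `r`
  have hR : ∀ r ∈ W, ∀ t ∈ U4, ∀ t' ∈ U4, sel1 (Q1 r) t = sel1 (Q1 r) t' := by
    intro r hr t htU t' ht'U
    exact hDc (Q1 r) (Finset.mem_powersetCard.mpr
      ⟨(hQ1 r hr).1.trans (Finset.erase_subset _ _), (hQ1 r hr).2⟩) t htU t' ht'U
  have hQ1W : ∀ r ∈ W, Q1 r ⊆ W := fun r hr => (hQ1 r hr).1.trans (Finset.erase_subset _ _)
  have hRphi : ∀ r ∈ W, ∀ t ∈ U4, Phi1 D1 H (sel1 (Q1 r) t) t := fun r hr t htU =>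
    hsel1' (Q1 r) ((hQ1W r hr).trans hWPP) (hQ1 r hr).2 t (hU4T htU)
      (hg1 t (hU40 htU) (Q1 r) (hQ1W r hr) (hQ1 r hr).2)
  have hRder : ∀ r ∈ W, ∀ t ∈ U4,
      ¬ (r : ℤ) ∣ eval t (pderiv (sel1 (Q1 r) t).2 (sel1 (Q1 r) t).1) := fun r hr t htU =>
    hg1' t (hU40 htU) (Q1 r) (hQ1W r hr) (hQ1 r hr).2 r hr
      (fun h => Finset.notMem_erase r W ((hQ1 r hr).1 h))
  have hDb : ∀ r ∈ W, ∀ t ∈ U4, ∀ t' ∈ U4, ∀ i, (r : ℤ) ^ b ∣ t i - t' i := by
    intro r hr t htU t' ht'U i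
    by_cases hi : i = (sel1 (Q1 r) t').2
    · rw [hi]
      refine lift_unique (hprime r (hWPP hr)) (sel1 (Q1 r) t').1 _ t t'
        (fun i' hi' => hAb r hr t (hU41 htU) t' (hU41 ht'U) i' hi')
        (hAr r hr t (hU41 htU) t' (hU41 ht'U) _) (hRder r hr t' ht'U) ?_
      rw [(hRphi r hr t' ht'U).2.2.2.1, ← hR r hr t htU t' ht'U, (hRphi r hr t htU).2.2.2.1, sub_zero]
      exact dvd_zero _
    · exact hAb r hr t (hU41 htU) t' (hU41 ht'U) i hi
  have hC2 : ∀ Q ⊆ W, Q.card = h + 2 → ∀ t ∈ U4, ∀ t' ∈ U4,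
      c2 n sel0 sel1 a b Q t = c2 n sel0 sel1 a b Q t' := by
    intro Q hQ hQc t htU t' ht'U
    have he : ∀ r ∈ Q, Q.erase r ⊆ W ∧ (Q.erase r).card = h + 1 := fun r hr =>
      ⟨(Finset.erase_subset _ _).trans hQ, by rw [Finset.card_erase_of_mem hr, hQc]; simp⟩
    exact c2_eq (fun r hr i => hDb r (hQ hr) t htU t' ht'U i)
      (fun r hr => hC1 _ (he r hr).1 (he r hr).2 t (hU4 htU) t' (hU4 ht'U))
      (fun r hr => hDc _ (Finset.mem_powersetCard.mpr (he r hr)) t htU t' ht'U)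
  -- step E
  obtain ⟨U5, hU5, hcU5, hE⟩ := pigeon_family
    ((W.powersetCard (h + 2)) ×ˢ (univ : Finset (Fin 2))) (fun p => sel2 p.1 p.2) (D2 + 1) U4
    (fun p hp => by
      obtain ⟨hp1, _⟩ := Finset.mem_product.mp hp
      obtain ⟨hQW, hQc⟩ := Finset.mem_powersetCard.mp hp1
      exact (hsel2 p.1 (hQW.trans hWPP) hQc p.2).2 U4 hU4T
        (fun t htU => hg2 t (hU40 htU) p.1 hQW hQc) (hC2 p.1 hQW hQc))
  have hU5T : U5 ⊆ T := hU5.trans hU4T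
  have hEc : ∀ Q ⊆ W, Q.card = h + 2 → ∀ j, ∀ t ∈ U5, ∀ t' ∈ U5, sel2 Q j t = sel2 Q j t' :=
    fun Q hQ hQc j t htU t' ht'U => hE (Q, j) (Finset.mem_product.mpr
      ⟨Finset.mem_powersetCard.mpr ⟨hQ, hQc⟩, Finset.mem_univ _⟩) t htU t' ht'U
  have hEphi : ∀ Q ⊆ W, Q.card = h + 2 → ∀ j, ∀ t ∈ U5, Phi2 n D2 H j (sel2 Q j t) t :=
    fun Q hQ hQc j t htU => hsel2' Q (hQ.trans hWPP) hQc j t (hU5T htU)
      (hg2 t (hU40 (hU5 htU)) Q hQ hQc)
  -- the last bound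
  have hlast : U5.card ≤ D2 ^ 2 + (D2 + 1) ^ (h + 3) * C3 := by
    rcases U5.eq_empty_or_nonempty with he | ⟨t1, ht1⟩
    · simp [he]
    by_cases hcase : ∃ Q ∈ W.powersetCard (h + 2), ∀ j, (sel2 Q j t1).degreeOf 0 = 0
    · obtain ⟨Q, hQ, hdeg⟩ := hcase
      obtain ⟨hQW, hQc⟩ := Finset.mem_powersetCard.mp hQ
      have h5 : ∀ j : Fin 2, (U5.image fun t => t j).card ≤ D2 := by
        intro j
        obtain ⟨R, hR0, hRd, hRe⟩ := exists_drop _ (hEphi Q hQW hQc j t1 ht1).1 (hdeg j)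
        refine (card_roots_one R hR0 _ fun u hu => ?_).trans
          (hRd.trans (hEphi Q hQW hQc j t1 ht1).2.1)
        obtain ⟨t, htU, rfl⟩ := Finset.mem_image.mp hu
        have h6 := (hEphi Q hQW hQc j t htU).2.2.2.1
        rw [hEc Q hQW hQc j t htU t1 ht1, hRe] at h6
        rw [← h6]
        congr 2
        funext i
        fin_cases i
        rfl
      have h6 : U5.card ≤ D2 * D2 := by
        have h7 : U5.card ≤ ((U5.image fun t => t 0) ×ˢ (U5.image fun t => t 1)).card := by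
          refine Finset.card_le_card_of_injOn (fun t => (t 0, t 1)) ?_ ?_
          · intro t htU
            exact Finset.mem_product.mpr ⟨Finset.mem_image_of_mem _ htU,
              Finset.mem_image_of_mem _ htU⟩
          · intro t _ t' _ htt
            funext i
            fin_cases i
            · exact congrArg Prod.fst htt
            · exact congrArg Prod.snd htt
        rw [Finset.card_product] at h7
        exact h7.trans (Nat.mul_le_mul (h5 0) (h5 1))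
      calc U5.card ≤ D2 ^ 2 := by rw [pow_two]; exact h6
        _ ≤ _ := Nat.le_add_right _ _
    · push Not at hcase
      have hWe : ∀ r ∈ W, W.erase r ⊆ W ∧ (W.erase r).card = h + 2 := fun r hr =>
        ⟨Finset.erase_subset _ _, by rw [Finset.card_erase_of_mem hr, hWcard]; simp⟩
      have hj : ∀ r, ∃ j : Fin 2, r ∈ W → (sel2 (W.erase r) j t1).degreeOf 0 ≠ 0 := by
        intro r
        by_cases hr : r ∈ W
        · obtain ⟨j, hj⟩ := hcase (W.erase r) (Finset.mem_powersetCard.mpr (hWe r hr))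
          exact ⟨j, fun _ => hj⟩
        · exact ⟨0, fun h => absurd h hr⟩
      choose jf hjf using hj
      have hder2 : ∀ r ∈ W, ∀ t ∈ U5, ¬ (r : ℤ) ∣
          eval (v2 n (jf r) t) (pderiv 0 (sel2 (W.erase r) (jf r) t1)) := by
        intro r hr t htU
        have h5 := hg2' t (hU40 (hU5 htU)) (W.erase r) (hWe r hr).1 (hWe r hr).2 r hr
          (Finset.notMem_erase r W) (jf r)
        rw [hEc _ (hWe r hr).1 (hWe r hr).2 (jf r) t htU t1 ht1] at h5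
        exact h5 (hjf r hr)
      have hzero2 : ∀ r ∈ W, ∀ t ∈ U5,
          eval (v2 n (jf r) t) (sel2 (W.erase r) (jf r) t1) = 0 := by
        intro r hr t htU
        rw [hEc _ (hWe r hr).1 (hWe r hr).2 (jf r) t1 ht1 t htU]
        exact (hEphi _ (hWe r hr).1 (hWe r hr).2 (jf r) t htU).2.2.2.1
      obtain ⟨U6, hU6, hcU6, hF⟩ := pigeon_family W (fun r t => n t % (r : ℤ)) (D2 + 1) U5
        (fun r hr => by
          have h6 := card_residues (hprime r (hWPP hr)) (sel2 (W.erase r) (jf r) t1) 0 U5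
            (v2 n (jf r))
            (fun t htU t' ht'U i hi => by
              have hi1 : i = 1 := by fin_cases i; exact absurd rfl hi; rfl
              rw [hi1, v2_one, v2_one]
              exact hAr r hr t (hU41 (hU5 htU)) t' (hU41 (hU5 ht'U)) _)
            (hzero2 r hr) (hder2 r hr)
          exact (h6.trans (hEphi _ (hWe r hr).1 (hWe r hr).2 (jf r) t1 ht1).2.1).trans
            (Nat.le_succ _))
      have hC3 : U6.card ≤ C3 := by
        rcases U6.eq_empty_or_nonempty with he | ⟨t2, ht2⟩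
        · simp [he]
        have ht24 : t2 ∈ U4 := hU5 (hU6 ht2)
        refine h3 U6 (hU6.trans hU5T) W hWPP hWcard fun r hr => ?_
        have hrp := hprime r (hWPP hr)
        obtain ⟨h5, h6⟩ := onePar_of_smooth (U := U6) (e := b) hrp (sel1 (Q1 r) t2).1
          (sel1 (Q1 r) t2).2 t2 (fun t htU i => hDb r hr t (hU5 (hU6 htU)) t2 ht24 i)
          (fun t htU => by
            rw [← hR r hr t (hU5 (hU6 htU)) t2 ht24]
            exact (hRphi r hr t (hU5 (hU6 htU))).2.2.2.1) (hRder r hr t2 ht24)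
        refine ⟨_, h5, h6, fun n' m => ?_⟩
        refine implicit_mv (sel2 (W.erase r) (jf r) t1) 0 (v2 n (jf r)) (v2 n (jf r) t2)
          (fun i hi m => ?_) (fun t htU i => ?_) ?_ (fun t htU => hzero2 r hr t (hU6 htU)) m
        · have hi1 : i = 1 := by fin_cases i; exact absurd rfl hi; rfl
          rw [hi1]
          exact h6 (jf r) n' m
        · fin_cases i
          · refine lift_unique hrp (sel2 (W.erase r) (jf r) t1) 0 (v2 n (jf r) t)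
              (v2 n (jf r) t2) (fun i hi => ?_) ?_ (hder2 r hr t2 (hU6 ht2)) ?_
            · have hi1 : i = 1 := by fin_cases i; exact absurd rfl hi; rfl
              rw [hi1, v2_one, v2_one]
              exact hDb r hr t (hU5 (hU6 htU)) t2 ht24 _
            · exact dvd_sub_of_emod_eq (hF r hr t htU t2 ht2)
            · rw [hzero2 r hr t (hU6 htU), hzero2 r hr t2 (hU6 ht2), sub_zero]
              exact dvd_zero _
          · exact hDb r hr t (hU5 (hU6 htU)) t2 ht24 _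
        · refine IsCoprime.pow_right ?_
          rw [isCoprime_comm, Prime.coprime_iff_not_dvd (Nat.prime_iff_prime_int.mp hrp)]
          exact hder2 r hr t2 (hU6 ht2)
      calc U5.card ≤ (D2 + 1) ^ W.card * U6.card := hcU6
        _ ≤ (D2 + 1) ^ (h + 3) * C3 := by rw [hWcard]; exact Nat.mul_le_mul_left _ hC3
        _ ≤ _ := Nat.le_add_left _ _
  -- put everything together
  rw [Finset.card_powersetCard, hWcard] at hcU2 hcU4
  rw [Finset.card_product, Finset.card_powersetCard, hWcard] at hcU3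
  rw [Finset.card_product, Finset.card_powersetCard, hWcard, Finset.card_univ,
    Fintype.card_fin] at hcU5
  rw [hWcard] at hcU1
  calc T.card ≤ 2 ^ PP.card * U0.card := hcU0
    _ ≤ 2 ^ PP.card * ((2 * X' ^ (a + b)) ^ (h + 3) * U1.card) := Nat.mul_le_mul_left _ hcU1
    _ ≤ 2 ^ PP.card * ((2 * X' ^ (a + b)) ^ (h + 3) * ((D0 + 1) ^ ((h + 3).choose h) *
          ((D0 + 1) ^ ((h + 3).choose (h + 1) * (h + 3)) *
            ((2 * D1 + 1 + 1) ^ ((h + 3).choose (h + 1)) *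
              ((D2 + 1) ^ ((h + 3).choose (h + 2) * 2) *
                (D2 ^ 2 + (D2 + 1) ^ (h + 3) * C3)))))) := by
        refine Nat.mul_le_mul_left _ (Nat.mul_le_mul_left _ (hcU2.trans (Nat.mul_le_mul_left _
          (hcU3.trans (Nat.mul_le_mul_left _ (hcU4.trans (Nat.mul_le_mul_left _
            (hcU5.trans (Nat.mul_le_mul_left _ hlast)))))))))
    _ = lconst PP.card h D0 D1 D2 C3 * X' ^ ((a + b) * (h + 3)) := by
        rw [lconst, mul_pow, ← pow_mul]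
        ring

end Crest.Agent.R22.Levels859
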