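import Mathlib
import Crest.Agent.R22.Levels859
import Crest.Agent.R022.Ifaces250

/-! Row 22: the level bookkeeping theorem in terms of helper250's `Par` (helper859). -/

set_option autoImplicit false

open Finset

namespace Crest.Agent.R22.Levels859

open Crest.Agent.R022 MvPolynomial Chain859

theorem TwoPar.par {U : Finset Pnt} {n : Pnt → ℤ} {l : ℤ} (h : TwoPar U n l) :
    Par 2 (↑U : Set (Fin 2 → ℤ)) l {(fun t => t 0), (fun t => t 1), n} := by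
  obtain ⟨s, h1, h2, h3⟩ := h
  refine ⟨s, h1, fun φ hφ n' m => ?_⟩
  rcases hφ with rfl | rfl | rfl
  · exact h2 0 n' m
  · exact h2 1 n' m
  · exact h3 n' m

theorem OnePar.par {U : Finset Pnt} {l : ℤ} (h : OnePar U l) :
    Par 1 (↑U : Set (Fin 2 → ℤ)) l {(fun t => t 0), (fun t => t 1)} := by
  obtain ⟨s, h1, h2⟩ := h
  refine ⟨s, h1, fun φ hφ n' m => ?_⟩
  rcases hφ with rfl | rfl
  · exact h2 0 n' m
  · exact h2 1 n' m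

theorem OneParN.par {U : Finset Pnt} {n : Pnt → ℤ} {l : ℤ} (h : OneParN U n l) :
    Par 1 (↑U : Set (Fin 2 → ℤ)) l {(fun t => t 0), (fun t => t 1), n} := by
  obtain ⟨s, h1, h2, h3⟩ := h
  refine ⟨s, h1, fun φ hφ n' m => ?_⟩
  rcases hφ with rfl | rfl | rfl
  · exact h2 0 n' m
  · exact h2 1 n' m
  · exact h3 n' m

/-- **Level bookkeeping.** From the four level theorems on the slice to the bound of the number of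
points. -/
theorem levels {h a b D0 D1 D2 C3 B H X X' : ℕ} {T : Finset (Fin 2 → ℤ)} {n : (Fin 2 → ℤ) → ℤ}
    {PP : Finset ℕ} (ha : 1 ≤ a) (hab : a ≤ b) (hD : D0 ≤ D1)
    (hprime : ∀ r ∈ PP, r.Prime) (hX1 : 1 ≤ X) (hX : ∀ r ∈ PP, X ≤ r) (hX' : ∀ r ∈ PP, r ≤ X')
    (hcard : (h + 3) * 2 ^ (h + 3) * (2 * B) + (h + 3) * (h + 3) < PP.card)
    (hH : 1 ≤ H) (ht : ∀ t ∈ T, ∀ i, (t i).natAbs ≤ H) (hn : ∀ t ∈ T, (n t).natAbs ≤ H)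
    (hB0 : D0 * hgt (Fin 3) D0 H * H ^ D0 < X ^ B)
    (hB1 : D1 * hgt (Fin 2) D1 H * H ^ D1 < X ^ B)
    (hB2 : D2 * hgt (Fin 2) D2 H * H ^ D2 < X ^ B)
    (h0 : ∀ U ⊆ T, ∀ Q ⊆ PP, Q.card = h →
      (∀ r ∈ Q, ∀ t ∈ U, ∀ t' ∈ U, ∀ i, ((r : ℤ) ^ a) ∣ t i - t' i) →
      ∃ G : MvPolynomial (Fin 3) ℤ, G ≠ 0 ∧ G.totalDegree ≤ D0 ∧
        ∀ t ∈ U, eval ![n t, t 0, t 1] G = 0)
    (h1 : ∀ U ⊆ T, ∀ Q ⊆ PP, Q.card = h + 1 →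
      (∃ G : MvPolynomial (Fin 3) ℤ, G ≠ 0 ∧ G.totalDegree ≤ D0 ∧
        ∀ t ∈ U, eval ![n t, t 0, t 1] G = 0) →
      (∀ r ∈ Q, Par 2 (↑U : Set (Fin 2 → ℤ)) ((r : ℤ) ^ a)
        {(fun t => t 0), (fun t => t 1), n}) →
      ∃ R : MvPolynomial (Fin 2) ℤ, R ≠ 0 ∧ R.totalDegree ≤ D1 ∧ ∀ t ∈ U, eval t R = 0)
    (h2 : ∀ U ⊆ T, ∀ Q ⊆ PP, Q.card = h + 2 →
      (∃ R : MvPolynomial (Fin 2) ℤ, R ≠ 0 ∧ R.totalDegree ≤ D1 ∧ ∀ t ∈ U, eval t R = 0) →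
      (∀ r ∈ Q, Par 1 (↑U : Set (Fin 2 → ℤ)) ((r : ℤ) ^ b) {(fun t => t 0), (fun t => t 1)}) →
      ∀ j : Fin 2, ∃ E : MvPolynomial (Fin 2) ℤ, E ≠ 0 ∧ E.totalDegree ≤ D2 ∧
        ∀ t ∈ U, eval ![n t, t j] E = 0)
    (h3 : ∀ U ⊆ T, ∀ Q ⊆ PP, Q.card = h + 3 →
      (∀ r ∈ Q, Par 1 (↑U : Set (Fin 2 → ℤ)) ((r : ℤ) ^ b)
        {(fun t => t 0), (fun t => t 1), n}) → U.card ≤ C3) :
    T.card ≤ lconst PP.card h D0 D1 D2 C3 * X' ^ ((a + b) * (h + 3)) :=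
  levels_aux ha hab hD hprime hX1 hX hX' hcard hH ht hn hB0 hB1 hB2 h0
    (fun U hU Q hQ hc hG hp => h1 U hU Q hQ hc hG fun r hr => (hp r hr).par)
    (fun U hU Q hQ hc hR hp j => h2 U hU Q hQ hc hR (fun r hr => (hp r hr).par) j)
    (fun U hU Q hQ hc hp => h3 U hU Q hQ hc fun r hr => (hp r hr).par)

end Crest.Agent.R22.Levels859
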