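import Mathlib
import Crest.Agent.R22.LevelsMain859

/-! Row 22: adaptor from `levels` to the shape used by helper250's instantiation (helper859). -/

set_option autoImplicit false

open Finset

namespace Crest.Agent.R22.Levels859

open Crest.Agent.R022 MvPolynomial Chain859

/-- helper250's `LevelsStmt` with the additional hypothesis `D0 ≤ D1`. -/
def LevelsStmt' : Prop :=
  ∀ h a b D0 D1 D2 C3 : ℕ, 1 ≤ a → a ≤ b → D0 ≤ D1 → ∃ c0 c1 : ℕ, ∀ B : ℕ, ∃ K Const : ℕ,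
    ∀ (H X X' : ℕ) (T : Finset (Fin 2 → ℤ)) (n : (Fin 2 → ℤ) → ℤ) (PP : Finset ℕ),
    PP.card = K → (∀ r ∈ PP, r.Prime ∧ X < r ∧ r ≤ X') → 1 ≤ H →
    (∀ t ∈ T, (∀ i, (t i).natAbs ≤ H) ∧ (n t).natAbs ≤ H) → c0 * H ^ c1 < X ^ (B + 1) →
    (∀ U ⊆ T, ∀ Q ⊆ PP, Q.card = h →
      (∀ r ∈ Q, ∀ t ∈ U, ∀ t' ∈ U, ∀ i, (r : ℤ) ^ a ∣ t i - t' i) →
      ∃ G : MvPolynomial (Fin 3) ℤ, G ≠ 0 ∧ G.totalDegree ≤ D0 ∧
        ∀ t ∈ U, MvPolynomial.eval ![n t, t 0, t 1] G = 0) →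
    (∀ U ⊆ T, ∀ Q ⊆ PP, Q.card = h + 1 →
      (∃ G : MvPolynomial (Fin 3) ℤ, G ≠ 0 ∧ G.totalDegree ≤ D0 ∧
        ∀ t ∈ U, MvPolynomial.eval ![n t, t 0, t 1] G = 0) →
      (∀ r ∈ Q, Par 2 (U : Set (Fin 2 → ℤ)) ((r : ℤ) ^ a) {(fun t => t 0), (fun t => t 1), n}) →
      ∃ R : MvPolynomial (Fin 2) ℤ, R ≠ 0 ∧ R.totalDegree ≤ D1 ∧
        ∀ t ∈ U, MvPolynomial.eval t R = 0) →
    (∀ U ⊆ T, ∀ Q ⊆ PP, Q.card = h + 2 →
      (∃ R : MvPolynomial (Fin 2) ℤ, R ≠ 0 ∧ R.totalDegree ≤ D1 ∧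
        ∀ t ∈ U, MvPolynomial.eval t R = 0) →
      (∀ r ∈ Q, Par 1 (U : Set (Fin 2 → ℤ)) ((r : ℤ) ^ b) {(fun t => t 0), (fun t => t 1)}) →
      ∀ j : Fin 2, ∃ E : MvPolynomial (Fin 2) ℤ, E ≠ 0 ∧ E.totalDegree ≤ D2 ∧
        ∀ t ∈ U, MvPolynomial.eval ![n t, t j] E = 0) →
    (∀ U ⊆ T, ∀ Q ⊆ PP, Q.card = h + 3 →
      (∀ r ∈ Q, Par 1 (U : Set (Fin 2 → ℤ)) ((r : ℤ) ^ b) {(fun t => t 0), (fun t => t 1), n}) →
      U.card ≤ C3) →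
    T.card ≤ Const * X' ^ ((a + b) * (h + 3))

/-- coefficient of the height bound -/
def hc0 (σ : Type*) [Fintype σ] [DecidableEq σ] (D : ℕ) : ℕ :=
  D * ((monos σ D).card * (monos σ D).card.factorial)

/-- exponent of the height bound -/
def hc1 (σ : Type*) [Fintype σ] [DecidableEq σ] (D : ℕ) : ℕ := D * (monos σ D).card + D

theorem hgt_eq (σ : Type*) [Fintype σ] [DecidableEq σ] (D H : ℕ) :
    D * hgt σ D H * H ^ D = hc0 σ D * H ^ hc1 σ D := by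
  rw [hgt, hc0, hc1, pow_add]
  ring

theorem levelsStmt' : LevelsStmt' := by
  intro h a b D0 D1 D2 C3 ha hab hD
  refine ⟨hc0 (Fin 3) D0 + hc0 (Fin 2) D1 + hc0 (Fin 2) D2,
    hc1 (Fin 3) D0 + hc1 (Fin 2) D1 + hc1 (Fin 2) D2, fun B => ?_⟩
  refine ⟨(h + 3) * 2 ^ (h + 3) * (2 * (B + 1)) + (h + 3) * (h + 3) + 1,
    lconst ((h + 3) * 2 ^ (h + 3) * (2 * (B + 1)) + (h + 3) * (h + 3) + 1) h D0 D1 D2 C3, ?_⟩
  intro H X X' T n PP hK hPP hH hT hlt h0 h1 h2 h3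
  have hX1 : 1 ≤ X := by
    rcases Nat.eq_zero_or_pos X with hX | hX
    · rw [hX, zero_pow (by omega)] at hlt
      omega
    · exact hX
  have key : ∀ c e : ℕ, c ≤ hc0 (Fin 3) D0 + hc0 (Fin 2) D1 + hc0 (Fin 2) D2 →
      e ≤ hc1 (Fin 3) D0 + hc1 (Fin 2) D1 + hc1 (Fin 2) D2 → c * H ^ e < X ^ (B + 1) := by
    intro c e hc he
    exact lt_of_le_of_lt (Nat.mul_le_mul hc (Nat.pow_le_pow_right hH he)) hlt
  rw [← hK]
  refine levels ha hab hD (fun r hr => (hPP r hr).1) hX1 (fun r hr => (hPP r hr).2.1.le)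
    (fun r hr => (hPP r hr).2.2) (B := B + 1) (H := H) (by rw [hK]; omega) hH
    (fun t ht => (hT t ht).1) (fun t ht => (hT t ht).2) ?_ ?_ ?_ h0 h1 h2 h3
  · rw [hgt_eq]; exact key _ _ (by omega) (by omega)
  · rw [hgt_eq]; exact key _ _ (by omega) (by omega)
  · rw [hgt_eq]; exact key _ _ (by omega) (by omega)

end Crest.Agent.R22.Levels859
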