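import Crest.Agent.R22.Range7A
import Crest.Agent.R022.Expand

/-! Row 22, range (7) (helper990), part B: integer points of `y ^ k = g (ℓ)` by a
`2 (D + 1)`-point determinant with one auxiliary prime. -/

set_option autoImplicit false

namespace Crest.Agent.R22.Range7

open Polynomial Crest.NumberTheoryR Crest.Agent.R22.SieveRed
open Crest.Agent.R022.Expand

theorem prod_size (Lb Yb : ℝ) (D : ℕ) :
    ∏ i : Fin (D + 1), (Lb ^ (i : ℕ) * (Lb ^ (i : ℕ) * Yb)) = (Lb ^ D * Yb) ^ (D + 1) := by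
  rw [Fin.prod_univ_eq_prod_range (fun i => Lb ^ i * (Lb ^ i * Yb)) (D + 1)]
  induction D with
  | zero => simp
  | succ n ih =>
    rw [Finset.prod_range_succ, ih]
    ring

/-- the determinant step: all the integer points of `y ^ k = g (ℓ)` in one class modulo `q` lie on
`A (ℓ) + B (ℓ) y = 0` -/
theorem relation7 (g : ℤ[X]) (k q D : ℕ) (l0 y0 : ℤ)
    (hu : IsCoprime ((k : ℤ) * y0 ^ (k - 1)) (q : ℤ)) (S : Set (ℤ × ℤ))
    (hS : ∀ p ∈ S, (q : ℤ) ∣ p.1 - l0 ∧ (q : ℤ) ∣ p.2 - y0 ∧ p.2 ^ k = g.eval p.1)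
    (Lb Yb : ℝ) (hLb : 1 ≤ Lb) (_hYb : 1 ≤ Yb)
    (hL : ∀ p ∈ S, |(p.1 : ℝ)| ≤ Lb) (hY : ∀ p ∈ S, |(p.2 : ℝ)| ≤ Yb)
    (hlt : ((2 * (D + 1)).factorial : ℝ) * (Lb ^ D * Yb) ^ (D + 1) <
      (q : ℝ) ^ ((D + 1) * (2 * D + 1))) :
    ∃ A B : ℤ[X], (A ≠ 0 ∨ B ≠ 0) ∧ A.natDegree ≤ D ∧ B.natDegree ≤ D ∧
      ∀ p ∈ S, A.eval p.1 + B.eval p.1 * p.2 = 0 := by
  classical
  have hx : ∀ m, HasExp S (fun (p : ℤ × ℤ) (_ : Fin 1) => p.1 - l0) (fun _ => (0 : ℤ)) (q : ℤ) m 0
      (fun p => p.1) := by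
    intro m
    exact ((HasExp.param (0 : Fin 1)).add (HasExp.const l0)).congr fun p _ => by ring
  have hy : HasExp S (fun (p : ℤ × ℤ) (_ : Fin 1) => p.1 - l0) (fun _ => (0 : ℤ)) (q : ℤ)
      (2 * (D + 1)) 0 (fun p => p.2) := by
    refine HasExp.implicit_curve (X ^ k - C g) l0 y0 hx (fun p hp => (hS p hp).1)
      (fun p hp => (hS p hp).2.1) ?_ ?_ _
    · have : ((derivative (X ^ k - C g : (ℤ[X])[X])).eval (C y0)).eval l0 =
          (k : ℤ) * y0 ^ (k - 1) := by
        rw [derivative_sub, derivative_C, sub_zero, derivative_X_pow]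
        simp
      rw [this]
      exact hu
    · intro p hp
      have := (hS p hp).2.2
      simp [this]
  obtain ⟨a, ha0, ha⟩ := relation_hasExp (ι := Fin (D + 1) × Fin 2) (r := 1) (J := 0)
    (m := 2 * (D + 1)) (w := (D + 1) * (2 * D + 1)) S
    (fun i p => p.1 ^ (i.1 : ℕ) * p.2 ^ (i.2 : ℕ)) {q} (by simp)
    (fun l hl => by
      rw [Finset.mem_singleton] at hl
      subst hl
      refine ⟨fun (p : ℤ × ℤ) (_ : Fin 1) => p.1 - l0, fun _ => (0 : ℤ),
        fun p hp _ => (hS p hp).1, fun i => ?_⟩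
      exact HasExp.mul_zero_left ((hx _).pow_zero _) (hy.pow_zero _))
    (fun i => Lb ^ (i.1 : ℕ) * Yb ^ (i.2 : ℕ))
    (fun p hp i => by
      push_cast
      rw [abs_mul, abs_pow, abs_pow]
      have h1 := hL p hp
      have h2 := hY p hp
      gcongr)
    (by
      have h1 : (2 * (D + 1) + 1).choose (1 + 1) = (2 * D + 3) * (D + 1) := by
        rw [show 1 + 1 = 2 from rfl, Nat.choose_two_right]
        have : 2 * (D + 1) + 1 - 1 = 2 * (D + 1) := by omega
        rw [this]
        have : (2 * (D + 1) + 1) * (2 * (D + 1)) = (2 * D + 3) * (D + 1) * 2 := by ring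
        rw [this]
        exact Nat.mul_div_cancel _ (by norm_num)
      rw [h1]
      simp only [Fintype.card_prod, Fintype.card_fin]
      apply le_of_eq
      ring)
    (by
      have h1 : ∏ i : Fin (D + 1) × Fin 2, (Lb ^ (i.1 : ℕ) * Yb ^ (i.2 : ℕ)) =
          (Lb ^ D * Yb) ^ (D + 1) := by
        rw [Fintype.prod_prod_type, ← prod_size]
        refine Finset.prod_congr rfl fun i _ => ?_
        rw [Fin.prod_univ_two]
        simp
      rw [h1]
      simp only [Fintype.card_prod, Fintype.card_fin, Finset.prod_singleton]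
      rw [mul_comm (D + 1) 2]
      exact hlt)
  refine ⟨∑ i : Fin (D + 1), C (a (i, 0)) * X ^ (i : ℕ), ∑ i : Fin (D + 1), C (a (i, 1)) * X ^ (i : ℕ),
    ?_, ?_, ?_, ?_⟩
  · by_contra hcon
    push Not at hcon
    apply ha0
    have hco : ∀ (b : Fin (D + 1) → ℤ) (j : Fin (D + 1)),
        (∑ i : Fin (D + 1), C (b i) * X ^ (i : ℕ) : ℤ[X]).coeff j = b j := by
      intro b j
      rw [finsetSum_coeff, Finset.sum_eq_single j]
      · simp
      · intro i _ hij
        rw [coeff_C_mul_X_pow, if_neg]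
        intro h
        exact hij (Fin.ext h.symm)
      · simp
    funext ⟨i, j⟩
    fin_cases j
    · have := hco (fun i => a (i, 0)) i
      rw [hcon.1] at this
      simpa using this.symm
    · have := hco (fun i => a (i, 1)) i
      rw [hcon.2] at this
      simpa using this.symm
  · refine natDegree_sum_le_of_forall_le _ _ fun i _ => ?_
    exact (natDegree_C_mul_X_pow_le _ _).trans (by have := i.2; omega)
  · refine natDegree_sum_le_of_forall_le _ _ fun i _ => ?_
    exact (natDegree_C_mul_X_pow_le _ _).trans (by have := i.2; omega)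
  · intro p hp
    have h := ha p hp
    rw [Fintype.sum_prod_type] at h
    simp only [Fin.sum_univ_two, Fin.val_zero, Fin.val_one, pow_zero, pow_one, mul_one] at h
    rw [eval_finsetSum, eval_finsetSum, Finset.sum_mul, ← Finset.sum_add_distrib, ← h]
    refine Finset.sum_congr rfl fun i _ => ?_
    simp
    ring

/-- `A ^ k ≠ B ^ k g` for `g` irreducible over `ℚ` -/
theorem pow_ne (g : ℤ[X]) (hirr : Irreducible (g.map (Int.castRingHom ℚ))) (k : ℕ) (hk : 2 ≤ k)
    (A B : ℤ[X]) (hAB : A ≠ 0 ∨ B ≠ 0) : A ^ k - B ^ k * g ≠ 0 := by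
  intro h
  have h1 : A ^ k = B ^ k * g := sub_eq_zero.1 h
  have hinj : Function.Injective (Polynomial.map (Int.castRingHom ℚ)) :=
    Polynomial.map_injective _ (RingHom.injective_int _)
  have hg0 : g ≠ 0 := by
    rintro rfl
    simp at hirr
  have hB : B ≠ 0 := by
    rintro rfl
    rw [zero_pow (by omega), zero_mul] at h1
    have := pow_eq_zero_iff (by omega) |>.1 h1
    simp [this] at hAB
  have hA : A ≠ 0 := by
    rintro rfl
    rw [zero_pow (by omega)] at h1
    exact mul_ne_zero (pow_ne_zero _ hB) hg0 h1.symm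
  have hp : Prime (g.map (Int.castRingHom ℚ)) := hirr.prime
  have h2 : (A.map (Int.castRingHom ℚ)) ^ k =
      (B.map (Int.castRingHom ℚ)) ^ k * g.map (Int.castRingHom ℚ) := by
    rw [← Polynomial.map_pow, ← Polynomial.map_pow, ← Polynomial.map_mul, h1]
  have hA' : A.map (Int.castRingHom ℚ) ≠ 0 := by
    intro h0; exact hA (hinj (by simpa using h0))
  have hB' : B.map (Int.castRingHom ℚ) ≠ 0 := by
    intro h0; exact hB (hinj (by simpa using h0))
  have fA : FiniteMultiplicity (g.map (Int.castRingHom ℚ)) (A.map (Int.castRingHom ℚ)) :=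
    FiniteMultiplicity.of_prime_left hp hA'
  have fB : FiniteMultiplicity (g.map (Int.castRingHom ℚ)) (B.map (Int.castRingHom ℚ)) :=
    FiniteMultiplicity.of_prime_left hp hB'
  have h3 := congrArg (emultiplicity (g.map (Int.castRingHom ℚ))) h2
  rw [emultiplicity_pow hp, emultiplicity_mul hp, emultiplicity_pow hp,
    FiniteMultiplicity.emultiplicity_self (FiniteMultiplicity.of_prime_left hp hp.ne_zero),
    fA.emultiplicity_eq_multiplicity, fB.emultiplicity_eq_multiplicity] at h3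
  have h4 : k * multiplicity (g.map (Int.castRingHom ℚ)) (A.map (Int.castRingHom ℚ)) =
      k * multiplicity (g.map (Int.castRingHom ℚ)) (B.map (Int.castRingHom ℚ)) + 1 := by
    exact_mod_cast h3
  have h5 : k ∣ 1 := by
    rw [← Nat.dvd_add_right (dvd_mul_right k (multiplicity (g.map (Int.castRingHom ℚ))
      (B.map (Int.castRingHom ℚ)))), ← h4]
    exact dvd_mul_right _ _
  have := Nat.le_of_dvd one_pos h5
  omega

/-- the number of `ℓ` in one class -/
theorem class_bound (g : ℤ[X]) (hirr : Irreducible (g.map (Int.castRingHom ℚ)))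
    (k q D : ℕ) (hk : 2 ≤ k) (l0 y0 : ℤ)
    (hu : IsCoprime ((k : ℤ) * y0 ^ (k - 1)) (q : ℤ))
    (Lb Yb : ℝ) (hLb : 1 ≤ Lb) (hYb : 1 ≤ Yb)
    (hlt : ((2 * (D + 1)).factorial : ℝ) * (Lb ^ D * Yb) ^ (D + 1) <
      (q : ℝ) ^ ((D + 1) * (2 * D + 1)))
    (T : Finset ℤ) (hT : ∀ l ∈ T, |(l : ℝ)| ≤ Lb ∧ (q : ℤ) ∣ l - l0 ∧
      ∃ y : ℤ, |(y : ℝ)| ≤ Yb ∧ (q : ℤ) ∣ y - y0 ∧ y ^ k = g.eval l) :
    T.card ≤ k * D + g.natDegree := by
  classical
  obtain ⟨A, B, hAB, hA, hB, hrel⟩ := relation7 g k q D l0 y0 hu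
    {p | |(p.1 : ℝ)| ≤ Lb ∧ |(p.2 : ℝ)| ≤ Yb ∧ (q : ℤ) ∣ p.1 - l0 ∧ (q : ℤ) ∣ p.2 - y0 ∧
      p.2 ^ k = g.eval p.1}
    (fun p hp => hp.2.2) Lb Yb hLb hYb (fun p hp => hp.1) (fun p hp => hp.2.1) hlt
  have hne : A ^ k - (-B) ^ k * g ≠ 0 := by
    apply pow_ne g hirr k hk
    rcases hAB with h | h
    · exact Or.inl h
    · exact Or.inr (neg_ne_zero.2 h)
  have hsub : T ⊆ (A ^ k - (-B) ^ k * g).roots.toFinset := by
    intro l hl
    obtain ⟨h1, h2, y, h3, h4, h5⟩ := hT l hl
    have h6 := hrel (l, y) ⟨h1, h3, h2, h4, h5⟩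
    simp only at h6
    rw [Multiset.mem_toFinset, mem_roots hne, IsRoot.def, eval_sub, eval_mul, eval_pow, eval_pow,
      eval_neg, ← h5, ← mul_pow]
    have h7 : A.eval l = -B.eval l * y := by linear_combination h6
    rw [h7]
    ring
  calc T.card ≤ (A ^ k - (-B) ^ k * g).roots.toFinset.card := Finset.card_le_card hsub
    _ ≤ (A ^ k - (-B) ^ k * g).roots.card := Multiset.toFinset_card_le _
    _ ≤ (A ^ k - (-B) ^ k * g).natDegree := card_roots' _
    _ ≤ max (A ^ k).natDegree ((-B) ^ k * g).natDegree := natDegree_sub_le _ _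
    _ ≤ k * D + g.natDegree := by
        apply max_le
        · exact (natDegree_pow_le).trans ((Nat.mul_le_mul_left k hA).trans (by omega))
        · refine natDegree_mul_le.trans (Nat.add_le_add_right ?_ _)
          refine natDegree_pow_le.trans (Nat.mul_le_mul_left k ?_)
          rw [natDegree_neg]
          exact hB

/-- roots modulo a prime of a polynomial which is non-zero modulo that prime -/
theorem rootCount_prime_le (h : ℤ[X]) (q : ℕ) (hq : q.Prime)
    (h0 : h.map (Int.castRingHom (ZMod q)) ≠ 0) : polyRootCountMod h q ≤ h.natDegree := by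
  classical
  have : Fact q.Prime := ⟨hq⟩
  unfold polyRootCountMod
  calc ((Finset.range q).filter fun a : ℕ => (q : ℤ) ∣ h.eval (a : ℤ)).card
      ≤ (h.map (Int.castRingHom (ZMod q))).roots.toFinset.card := by
        apply Finset.card_le_card_of_injOn (fun a : ℕ => (a : ZMod q))
        · intro a ha
          simp only [Finset.coe_filter, Finset.mem_range, Set.mem_ofPred_eq] at ha
          simp only [Finset.mem_coe, Multiset.mem_toFinset, mem_roots h0, IsRoot.def]
          have h1 : ((h.eval (a : ℤ) : ℤ) : ZMod q) = 0 := by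
            rw [ZMod.intCast_zmod_eq_zero_iff_dvd]
            exact ha.2
          have h2 : (h.map (Int.castRingHom (ZMod q))).eval ((Int.castRingHom (ZMod q)) (a : ℤ)) =
              (Int.castRingHom (ZMod q)) (h.eval (a : ℤ)) := eval_map_apply _ _
          rw [eq_intCast, eq_intCast] at h2
          push_cast at h2
          rw [h2, h1]
        · intro a ha b hb hab
          simp only [Finset.coe_filter, Finset.mem_range, Set.mem_ofPred_eq] at ha hb
          simp only at hab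
          rw [ZMod.natCast_eq_natCast_iff'] at hab
          rwa [Nat.mod_eq_of_lt ha.1, Nat.mod_eq_of_lt hb.1] at hab
    _ ≤ (h.map (Int.castRingHom (ZMod q))).roots.card := Multiset.toFinset_card_le _
    _ ≤ (h.map (Int.castRingHom (ZMod q))).natDegree := card_roots' _
    _ ≤ h.natDegree := natDegree_map_le

/-- the number of pairs `(a, b)` modulo `q` with `b ^ k = g (a)` -/
theorem card_pairs_le (g : ℤ[X]) (k q : ℕ) (hk : 2 ≤ k) (hq : q.Prime) :
    ((Finset.range q ×ˢ Finset.range q).filter fun x : ℕ × ℕ =>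
      (q : ℤ) ∣ (x.2 : ℤ) ^ k - g.eval (x.1 : ℤ)).card ≤ k * q := by
  classical
  have : Fact q.Prime := ⟨hq⟩
  have h1 : ∀ a ∈ Finset.range q, ((Finset.range q).filter fun b : ℕ =>
      (q : ℤ) ∣ (b : ℤ) ^ k - g.eval (a : ℤ)).card ≤ k := by
    intro a _
    have h2 := rootCount_prime_le (X ^ k - C (g.eval (a : ℤ))) q hq (by
      rw [Polynomial.map_sub, Polynomial.map_pow, map_X, map_C]
      exact (monic_X_pow_sub_C _ (by omega)).ne_zero)
    rw [natDegree_X_pow_sub_C] at h2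
    unfold polyRootCountMod at h2
    simpa using h2
  calc ((Finset.range q ×ˢ Finset.range q).filter fun x : ℕ × ℕ =>
      (q : ℤ) ∣ (x.2 : ℤ) ^ k - g.eval (x.1 : ℤ)).card
      ≤ ∑ a ∈ Finset.range q, ((Finset.range q).filter fun b : ℕ =>
      (q : ℤ) ∣ (b : ℤ) ^ k - g.eval (a : ℤ)).card := by
        rw [Finset.card_filter, Finset.sum_product]
        exact Finset.sum_le_sum fun a _ => by rw [Finset.card_filter]
    _ ≤ ∑ _a ∈ Finset.range q, k := Finset.sum_le_sum h1
    _ = k * q := by rw [Finset.sum_const, Finset.card_range, smul_eq_mul, mul_comm]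

/-- the number of `ℓ ≤ M` with `g (ℓ)` a `k`-th power -/
theorem count7 (g : ℤ[X]) (hirr : Irreducible (g.map (Int.castRingHom ℚ)))
    (k q D M : ℕ) (hk : 2 ≤ k) (hq : q.Prime) (hqk : ¬ q ∣ k)
    (h0 : g.map (Int.castRingHom (ZMod q)) ≠ 0)
    (Lb Yb : ℝ) (hLb : 1 ≤ Lb) (hYb : 1 ≤ Yb) (hM : (M : ℝ) ≤ Lb)
    (hlt : ((2 * (D + 1)).factorial : ℝ) * (Lb ^ D * Yb) ^ (D + 1) <
      (q : ℝ) ^ ((D + 1) * (2 * D + 1)))
    (T : Finset ℕ) (hT : ∀ l ∈ T, l ≤ M ∧ ∃ y : ℤ, |(y : ℝ)| ≤ Yb ∧ y ^ k = g.eval (l : ℤ)) :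
    T.card ≤ (g.natDegree * (M / q + 1) + 1) + (k * D + g.natDegree) * (k * q) := by
  classical
  have hqi : Prime (q : ℤ) := Nat.prime_iff_prime_int.mp hq
  rw [← Finset.card_filter_add_card_filter_not (s := T) (fun l : ℕ => (q : ℤ) ∣ g.eval (l : ℤ))]
  refine Nat.add_le_add ?_ ?_
  · -- the zeros modulo `q`
    have h1 : T.filter (fun l : ℕ => (q : ℤ) ∣ g.eval (l : ℤ)) ⊆
        insert 0 ((Finset.Icc 1 M).filter (fun n : ℕ => (q : ℤ) ∣ g.eval (n : ℤ))) := by
      intro l hl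
      rw [Finset.mem_filter] at hl
      rw [Finset.mem_insert, Finset.mem_filter, Finset.mem_Icc]
      have := (hT l hl.1).1
      rcases Nat.eq_zero_or_pos l with h | h
      · exact Or.inl h
      · exact Or.inr ⟨⟨h, this⟩, hl.2⟩
    refine (Finset.card_le_card h1).trans ((Finset.card_insert_le _ _).trans
      (Nat.add_le_add_right ?_ 1))
    refine (card_dvd_le g q M hq.pos).trans (Nat.mul_le_mul_right _ ?_)
    exact rootCount_prime_le g q hq h0
  · -- the others
    choose! y hy1 hy2 using fun l hl => (hT l hl).2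
    set Z := ((Finset.range q ×ˢ Finset.range q).filter fun x : ℕ × ℕ =>
      (q : ℤ) ∣ (x.2 : ℤ) ^ k - g.eval (x.1 : ℤ)) with hZ
    have hmod : ∀ l : ℕ, (q : ℤ) ∣ (l : ℤ) - ((l % q : ℕ) : ℤ) := by
      intro l
      have : (l % q : ℕ) ≡ l [MOD q] := Nat.mod_modEq l q
      exact Nat.modEq_iff_dvd.mp this
    have hmodz : ∀ z : ℤ, (q : ℤ) ∣ z - ((z % (q : ℤ)).toNat : ℤ) := by
      intro z
      rw [Int.toNat_of_nonneg (Int.emod_nonneg _ hqi.ne_zero)]
      exact Int.dvd_self_sub_emod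
    have hmaps : ∀ l ∈ T.filter (fun l : ℕ => ¬ (q : ℤ) ∣ g.eval (l : ℤ)),
        (l % q, (y l % (q : ℤ)).toNat) ∈ Z := by
      intro l hl
      rw [Finset.mem_filter] at hl
      rw [hZ, Finset.mem_filter, Finset.mem_product, Finset.mem_range, Finset.mem_range]
      refine ⟨⟨Nat.mod_lt _ hq.pos, ?_⟩, ?_⟩
      · have h1 := Int.emod_lt_of_pos (y l) (by exact_mod_cast hq.pos : (0 : ℤ) < q)
        have h1' := hq.pos
        simp only
        omega
      · simp only
        have h2 : (q : ℤ) ∣ g.eval (l : ℤ) - g.eval ((l % q : ℕ) : ℤ) :=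
          (hmod l).trans (Polynomial.sub_dvd_eval_sub _ _ _)
        have h3 : (q : ℤ) ∣ y l ^ k - ((y l % (q : ℤ)).toNat : ℤ) ^ k :=
          (hmodz (y l)).trans (sub_dvd_pow_sub_pow _ _ _)
        have h4 := dvd_sub h2 h3
        rw [hy2 l hl.1] at h4
        have h5 : g.eval (l : ℤ) - g.eval ((l % q : ℕ) : ℤ) -
            (g.eval (l : ℤ) - ((y l % (q : ℤ)).toNat : ℤ) ^ k) =
            ((y l % (q : ℤ)).toNat : ℤ) ^ k - g.eval ((l % q : ℕ) : ℤ) := by ring
        rwa [h5] at h4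
    refine le_trans ?_ (Nat.mul_le_mul_left (k * D + g.natDegree) (card_pairs_le g k q hk hq))
    refine (Finset.card_le_mul_card_image_of_maps_to hmaps (k * D + g.natDegree) ?_)
    rintro ⟨a, b⟩ _
    set T' := ((T.filter (fun l : ℕ => ¬ (q : ℤ) ∣ g.eval (l : ℤ))).filter
      (fun l : ℕ => (l % q, (y l % (q : ℤ)).toNat) = (a, b))) with hT'
    rcases T'.eq_empty_or_nonempty with hE | ⟨l1, hl1⟩
    · rw [hE]; simp
    have hinj : Function.Injective (fun l : ℕ => (l : ℤ)) := fun _ _ h => by simpa using h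
    rw [← Finset.card_image_of_injective T' hinj]
    refine class_bound g hirr k q D hk (a : ℤ) (b : ℤ) ?_ Lb Yb hLb hYb hlt _ ?_
    · -- unit
      rw [hT', Finset.mem_filter, Finset.mem_filter, Prod.mk.injEq] at hl1
      obtain ⟨⟨h1, h2⟩, h3, h4⟩ := hl1
      rw [isCoprime_comm]
      refine (Prime.coprime_iff_not_dvd hqi).2 fun hd => ?_
      rcases hqi.dvd_or_dvd hd with h5 | h5
      · exact hqk (by exact_mod_cast h5)
      · have h6 := hqi.dvd_of_dvd_pow h5
        apply h2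
        rw [← hy2 l1 h1]
        have h7 := hmodz (y l1)
        rw [h4] at h7
        have h8 := dvd_add h7 h6
        rw [sub_add_cancel] at h8
        exact dvd_pow h8 (by omega)
    · intro l hl
      rw [Finset.mem_image] at hl
      obtain ⟨l', hl', rfl⟩ := hl
      rw [hT', Finset.mem_filter, Finset.mem_filter, Prod.mk.injEq] at hl'
      obtain ⟨⟨h1, h2⟩, h3, h4⟩ := hl'
      refine ⟨?_, ?_, y l', hy1 l' h1, ?_, hy2 l' h1⟩
      · have h5 : (l' : ℝ) ≤ M := by exact_mod_cast (hT l' h1).1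
        push_cast
        rw [abs_of_nonneg (Nat.cast_nonneg _)]
        exact h5.trans hM
      · have := hmod l'
        rwa [h3] at this
      · have := hmodz (y l')
        rwa [h4] at this

end Crest.Agent.R22.Range7
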